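import Vale.Agent.P361.Tile
import Mathlib.Analysis.Convex.Function

/-!
The volume limit of the pressure.
-/

namespace Vale.Agent.P361

open Matrix Finset Function Filter Topology
open scoped BigOperators

/-- `log Z / L³` of a cube. -/
noncomputable def dens (n : ℕ) (β c : ℝ) (L : ℕ) : ℝ :=
  Real.log (part (gadj L) n β (fun _ => c)) / (L : ℝ) ^ 3

theorem dens_nonneg (n : ℕ) (β c : ℝ) (L : ℕ) : 0 ≤ dens n β c L :=
  div_nonneg (Real.log_nonneg (one_le_part _ (gadj_irrefl L) β _)) (by positivity)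

/-- The volume limit. -/
noncomputable def phi (n : ℕ) (β c : ℝ) : ℝ := ⨅ m : ℕ, dens n β c (m + 1)

theorem phi_le_dens (n : ℕ) (β c : ℝ) {m : ℕ} (hm : 1 ≤ m) : phi n β c ≤ dens n β c m := by
  have h : BddBelow (Set.range fun i : ℕ => dens n β c (i + 1)) :=
    ⟨0, by rintro _ ⟨i, rfl⟩; exact dens_nonneg n β c _⟩
  have := ciInf_le h (m - 1)
  rwa [show m - 1 + 1 = m from by omega] at this

theorem dens_le_tile {n L m : ℕ} (hm : 0 < m) (hL : 0 < L) {β : ℝ} (hβ : 0 ≤ β) (c : ℝ) :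
    dens n β c L ≤ dens n β c m
      + (1 - (((L - m : ℕ) : ℝ) / L) ^ 3) * (Real.log ((n : ℝ) + 1) + (n : ℝ) * |c|) := by
  set q := L / m with hq
  have hqm : q * m ≤ L := Nat.div_mul_le_self L m
  have hlow : L - m ≤ q * m := by
    have h1 := Nat.div_add_mod L m
    have h2 := Nat.mod_lt L hm
    rw [← hq, mul_comm] at h1
    omega
  have hA : 0 ≤ Real.log ((n : ℝ) + 1) + (n : ℝ) * |c| :=
    add_nonneg (Real.log_nonneg (by simp)) (by positivity)
  have hL3 : (0 : ℝ) < (L : ℝ) ^ 3 := by positivity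
  have hm3 : (0 : ℝ) < (m : ℝ) ^ 3 := by positivity
  have h := part_tile_le (n := n) (L := L) hm hqm hβ c
  have hp := part_pos (n := n) (gadj m) (gadj_irrefl m) β (fun _ => c)
  have hlog := Real.log_le_log (part_pos (gadj L) (gadj_irrefl L) β (fun _ => c)) h
  rw [Real.log_mul (pow_pos hp _).ne' (pow_pos (by positivity) _).ne', Real.log_pow, Real.log_pow,
    Real.log_mul (by positivity) (Real.exp_pos _).ne', Real.log_exp] at hlog
  rw [card_untiled hqm] at hlog
  have hqr : (((q * m : ℕ) : ℝ)) ^ 3 ≤ (L : ℝ) ^ 3 :=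
    pow_le_pow_left₀ (Nat.cast_nonneg _) (by exact_mod_cast hqm) 3
  have hlr : ((L - m : ℕ) : ℝ) ^ 3 ≤ ((q * m : ℕ) : ℝ) ^ 3 :=
    pow_le_pow_left₀ (Nat.cast_nonneg _) (by exact_mod_cast hlow) 3
  have hlm : 0 ≤ Real.log (part (gadj m) n β fun _ => c) :=
    Real.log_nonneg (one_le_part _ (gadj_irrefl m) β _)
  have h1 : ((q ^ 3 : ℕ) : ℝ) * Real.log (part (gadj m) n β fun _ => c)
      ≤ (L : ℝ) ^ 3 / (m : ℝ) ^ 3 * Real.log (part (gadj m) n β fun _ => c) := by
    refine mul_le_mul_of_nonneg_right ?_ hlm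
    rw [le_div_iff₀ hm3]
    push_cast at hqr ⊢
    rw [← mul_pow]; exact hqr
  rw [dens, div_le_iff₀ hL3]
  refine hlog.trans ?_
  rw [add_mul, dens, div_mul_eq_mul_div]
  refine add_le_add (h1.trans_eq (by ring)) ?_
  have e : (1 - (((L - m : ℕ) : ℝ) / L) ^ 3) * (Real.log ((n : ℝ) + 1) + (n : ℝ) * |c|) * (L : ℝ) ^ 3
      = ((L : ℝ) ^ 3 - ((L - m : ℕ) : ℝ) ^ 3) * (Real.log ((n : ℝ) + 1) + (n : ℝ) * |c|) := by
    field_simp
  rw [e]
  exact mul_le_mul_of_nonneg_right (sub_le_sub_left hlr _) hA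

theorem tendsto_dens (n : ℕ) {β : ℝ} (hβ : 0 ≤ β) (c : ℝ) :
    Tendsto (fun L => dens n β c L) atTop (𝓝 (phi n β c)) := by
  refine tendsto_order.2 ⟨fun a ha => ?_, fun b hb => ?_⟩
  · filter_upwards [eventually_ge_atTop 1] with L hL
    exact lt_of_lt_of_le ha (phi_le_dens n β c hL)
  · obtain ⟨i, hi⟩ := exists_lt_of_ciInf_lt hb
    have h1 : Tendsto (fun L : ℕ => ((L - (i + 1) : ℕ) : ℝ) / L) atTop (𝓝 1) := by
      have h0 : Tendsto (fun L : ℕ => 1 - ((i : ℝ) + 1) / L) atTop (𝓝 1) := by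
        simpa using (tendsto_const_div_atTop_nhds_zero_nat ((i : ℝ) + 1)).const_sub 1
      refine h0.congr' ?_
      filter_upwards [eventually_ge_atTop (i + 1)] with L hL
      have : (0 : ℝ) < L := Nat.cast_pos.2 (by omega)
      rw [Nat.cast_sub hL]
      push_cast
      field_simp
    have h2 := (((h1.pow 3).const_sub 1).mul_const
      (Real.log ((n : ℝ) + 1) + (n : ℝ) * |c|)).const_add (dens n β c (i + 1))
    simp only [one_pow, sub_self, zero_mul, add_zero] at h2
    filter_upwards [h2.eventually_lt_const hi, eventually_ge_atTop 1] with L hL hL1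
    exact lt_of_le_of_lt (dens_le_tile (Nat.succ_pos i) hL1 hβ c) hL

/-- A cube with walls bounds the limit from below. -/
theorem wall_le_phi {n m : ℕ} (hm : 0 < m) {β : ℝ} (hβ : 0 ≤ β) (c : ℝ) :
    Real.log (part (gadj m) n β (wall n m β c)) / (m : ℝ) ^ 3 ≤ phi n β c := by
  have hsub : Tendsto (fun q : ℕ => (q + 1) * m) atTop atTop :=
    tendsto_atTop_mono (fun q => Nat.le_mul_of_pos_right _ hm) (tendsto_add_atTop_nat 1)
  refine ge_of_tendsto ((tendsto_dens n hβ c).comp hsub) (Eventually.of_forall fun q => ?_)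
  have h := le_part_tile (n := n) (L := (q + 1) * m) (q := q + 1) hm le_rfl hβ c
  have hp := part_pos (n := n) (gadj m) (gadj_irrefl m) β (wall n m β c)
  have hlog := Real.log_le_log (pow_pos hp _) h
  rw [Real.log_pow] at hlog
  simp only [Function.comp, dens]
  rw [div_le_div_iff₀ (by positivity) (by positivity)]
  push_cast at hlog ⊢
  calc Real.log (part (gadj m) n β (wall n m β c)) * (((q : ℝ) + 1) * m) ^ 3
      = ((q : ℝ) + 1) ^ 3 * Real.log (part (gadj m) n β (wall n m β c)) * (m : ℝ) ^ 3 := by ring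
    _ ≤ _ := mul_le_mul_of_nonneg_right hlog (by positivity)

theorem phi_convex (n : ℕ) {β : ℝ} (hβ : 0 ≤ β) : ConvexOn ℝ Set.univ (phi n β) := by
  refine ⟨convex_univ, fun x _ y _ a b ha hb hab => ?_⟩
  simp only [smul_eq_mul]
  rcases ha.eq_or_lt with ha0 | ha'
  · subst ha0; rw [zero_add] at hab; subst hab; simp
  rcases hb.eq_or_lt with hb0 | hb'
  · subst hb0; rw [add_zero] at hab; subst hab; simp
  refine le_of_tendsto_of_tendsto (tendsto_dens n hβ (a * x + b * y))
    (((tendsto_dens n hβ x).const_mul a).add ((tendsto_dens n hβ y).const_mul b))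
    (Eventually.of_forall fun L => ?_)
  have h := log_part_convex (n := n) (gadj L) (gadj_irrefl L) β ha' hb' hab
    (fun _ => x) (fun _ => y)
  simp only [dens, ← mul_div_assoc, ← add_div]
  exact div_le_div_of_nonneg_right h (by positivity)

end Vale.Agent.P361
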