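import Vale.Agent.P361.Lower
import Vale.Agent.P361.Limit
import Mathlib.Analysis.SpecialFunctions.Log.Deriv
import Mathlib.MeasureTheory.Integral.IntegralEqImproper

/-!
The zero-field pressure is at least the ideal spin-wave one.
-/

namespace Vale.Agent.P361

open Matrix Finset Function Filter Topology
open scoped BigOperators

/-- The `(q+1)`-st term of the series of the spin-wave pressure. -/
noncomputable def tgt (n q : ℕ) : ℝ :=
  (1 / (2 * Real.sqrt (Real.pi * ((n : ℝ) / 2) * ((q : ℝ) + 1)))) ^ 3 / ((q : ℝ) + 1)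

/-- Limiting Dirichlet energies of a cube of side `R√β`. -/
noncomputable def modeW (n : ℕ) (R : ℝ) {J : ℕ} (j : Fin 3 → Fin J) : ℝ :=
  (n : ℝ) / 2 * Real.pi ^ 2 * (∑ i, (((j i).val : ℝ) + 1) ^ 2) / R ^ 2

theorem modeW_pos {n : ℕ} (hn : 1 ≤ n) {R : ℝ} (hR : 0 < R) {J : ℕ} (j : Fin 3 → Fin J) :
    0 < modeW n R j := by
  have : (0 : ℝ) < n := by exact_mod_cast hn
  have h2 : 0 < ∑ i, (((j i).val : ℝ) + 1) ^ 2 :=
    Finset.sum_pos (fun i _ => by positivity) Finset.univ_nonempty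
  unfold modeW; positivity

/-- The truncated free energy of these modes. -/
noncomputable def lowG (n : ℕ) (R K : ℝ) (J P : ℕ) : ℝ :=
  ∑ j : Fin 3 → Fin J, Real.log (∑ i ∈ range (P + 1), Real.exp (-(modeW n R j + K)) ^ i)

theorem exp_lowG {n : ℕ} {R K : ℝ} {J P : ℕ} :
    ∑ μ ∈ Fintype.piFinset (fun _ : Fin 3 → Fin J => range (P + 1)),
        Real.exp (-(∑ x, (μ x : ℝ) * (modeW n R x + K)))
      = Real.exp (lowG n R K J P) := by
  rw [lowG, Real.exp_sum,
    Finset.prod_congr rfl fun j _ => Real.exp_log (Finset.sum_pos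
      (fun i _ => pow_pos (Real.exp_pos _) i) ⟨0, Finset.mem_range.2 (Nat.succ_pos P)⟩),
    Finset.prod_univ_sum]
  refine Finset.sum_congr rfl fun μ _ => ?_
  rw [← Finset.sum_neg_distrib, Real.exp_sum]
  refine Finset.prod_congr rfl fun x _ => ?_
  rw [← Real.exp_nat_mul]
  congr 1; ring

theorem sqrt_tendsto : Tendsto (fun β : ℝ => Real.sqrt β) atTop atTop := Real.tendsto_sqrt_atTop

theorem lower_RJP {n : ℕ} (hn : 1 ≤ n) {R : ℝ} (hR : 0 < R) (K : ℝ) (J P : ℕ) {ε : ℝ} (hε : 0 < ε) :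
    ∀ᶠ β in atTop, lowG n R K J P / R ^ 3 - ε ≤ Real.sqrt β ^ 3 * phi n β K := by
  set mm : ℝ → ℕ := fun β => ⌈R * Real.sqrt β⌉₊ + 1 with hmm
  have hsq : Tendsto (fun β : ℝ => R * Real.sqrt β) atTop atTop :=
    sqrt_tendsto.const_mul_atTop hR
  have hm : Tendsto mm atTop atTop :=
    tendsto_atTop_mono (fun β => Nat.le_succ _) ((tendsto_nat_ceil_atTop).comp hsq)
  have hm3 : Tendsto (fun β => ((mm β : ℕ) : ℝ) ^ 3) atTop atTop :=
    (tendsto_pow_atTop (by norm_num)).comp (tendsto_natCast_atTop_atTop.comp hm)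
  have hη : Tendsto (fun β => coreC J P / ((mm β : ℕ) : ℝ) ^ 3) atTop (𝓝 0) :=
    tendsto_const_nhds.div_atTop hm3
  have hδ : Tendsto (fun β => β * (24 * (n : ℝ) ^ 2 * coreC J P / ((mm β : ℕ) : ℝ) ^ 3))
      atTop (𝓝 0) := by
    have h1 : Tendsto (fun β : ℝ => 24 * (n : ℝ) ^ 2 * coreC J P / R ^ 3 / Real.sqrt β)
        atTop (𝓝 0) := tendsto_const_nhds.div_atTop sqrt_tendsto
    refine squeeze_zero' ?_ ?_ h1
    · filter_upwards [eventually_gt_atTop 0] with β hβ
      have := coreC_nonneg J P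
      positivity
    · filter_upwards [eventually_gt_atTop 0] with β hβ
      have hs : 0 < Real.sqrt β := Real.sqrt_pos.2 hβ
      have hc : 0 ≤ 24 * (n : ℝ) ^ 2 * coreC J P := by have := coreC_nonneg J P; positivity
      have hle : R * Real.sqrt β ≤ ((mm β : ℕ) : ℝ) :=
        (Nat.le_ceil _).trans (by simp [hmm])
      calc β * (24 * (n : ℝ) ^ 2 * coreC J P / ((mm β : ℕ) : ℝ) ^ 3)
          ≤ β * (24 * (n : ℝ) ^ 2 * coreC J P / (R * Real.sqrt β) ^ 3) :=
            mul_le_mul_of_nonneg_left (div_le_div_of_nonneg_left hc (by positivity)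
              (pow_le_pow_left₀ (by positivity) hle 3)) hβ.le
        _ = _ := by
            field_simp
            rw [show Real.sqrt β ^ 2 = β from Real.sq_sqrt hβ.le, mul_comm]
  have hratio : Tendsto (fun β => Real.sqrt β / ((mm β : ℕ) : ℝ)) atTop (𝓝 (1 / R)) := by
    have h1 : Tendsto (fun β => ((mm β : ℕ) : ℝ) / Real.sqrt β) atTop (𝓝 R) := by
      refine tendsto_of_tendsto_of_tendsto_of_le_of_le' tendsto_const_nhds
        (g := fun _ => R) (h := fun β : ℝ => R + 2 / Real.sqrt β)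
        (by simpa using (tendsto_const_nhds (x := (2 : ℝ))).div_atTop sqrt_tendsto |>.const_add R)
        ?_ ?_
      · filter_upwards [eventually_gt_atTop 0] with β hβ
        rw [le_div_iff₀ (Real.sqrt_pos.2 hβ)]
        exact (Nat.le_ceil _).trans (by simp [hmm])
      · filter_upwards [eventually_gt_atTop 0] with β hβ
        have hs := Real.sqrt_pos.2 hβ
        rw [div_le_iff₀ hs, add_mul, div_mul_cancel₀ _ hs.ne']
        have := Nat.ceil_lt_add_one (show 0 ≤ R * Real.sqrt β by positivity)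
        simp only [hmm]; push_cast; linarith
    simpa using h1.inv₀ hR.ne'
  set g : ℝ → ℝ := fun β => ∑ μ ∈ Fintype.piFinset (fun _ : Fin 3 → Fin J => range (P + 1)),
      (1 - coreC J P / ((mm β : ℕ) : ℝ) ^ 3) *
        Real.exp (-((∑ x, (μ x : ℝ) * modeW n R x
          + β * (24 * (n : ℝ) ^ 2 * coreC J P / ((mm β : ℕ) : ℝ) ^ 3))
          / (1 - coreC J P / ((mm β : ℕ) : ℝ) ^ 3)) - K * (∑ x, (μ x : ℝ))) with hg
  have hglim : Tendsto g atTop (𝓝 (Real.exp (lowG n R K J P))) := by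
    rw [← exp_lowG]
    refine tendsto_finsetSum _ fun μ _ => ?_
    have h1 : Tendsto (fun β => 1 - coreC J P / ((mm β : ℕ) : ℝ) ^ 3) atTop (𝓝 1) := by
      simpa using hη.const_sub 1
    have h2 := ((((hδ.const_add (∑ x, (μ x : ℝ) * modeW n R x)).div h1 one_ne_zero).neg).sub_const
      (K * (∑ x, (μ x : ℝ)))).rexp
    have e : ∑ x, (μ x : ℝ) * (modeW n R x + K)
        = (∑ x, (μ x : ℝ) * modeW n R x) + K * ∑ x, (μ x : ℝ) := by
      rw [Finset.mul_sum, ← Finset.sum_add_distrib]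
      exact Finset.sum_congr rfl fun x _ => by ring
    have h3 := h1.mul h2
    rw [e, neg_add]
    simpa [sub_eq_add_neg] using h3
  have hlog : Tendsto (fun β => Real.log (g β) * (Real.sqrt β / ((mm β : ℕ) : ℝ)) ^ 3) atTop
      (𝓝 (lowG n R K J P / R ^ 3)) := by
    have := (hglim.log (Real.exp_pos _).ne').mul (hratio.pow 3)
    rw [Real.log_exp, one_div, inv_pow, ← div_eq_mul_inv] at this
    exact this
  filter_upwards [hlog.eventually_const_lt (sub_lt_self _ hε), eventually_gt_atTop 0,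
    hm.eventually_ge_atTop (J + 2), hη.eventually_lt_const zero_lt_one,
    hglim.eventually_const_lt (Real.exp_pos _)] with β h1 hβ hJm hη1 hgpos
  have h10 : 0 < 1 - coreC J P / ((mm β : ℕ) : ℝ) ^ 3 := by linarith
  have hpart : g β ≤ part (gadj (mm β)) n β (wall n (mm β) β K) := by
    refine le_trans (Finset.sum_le_sum fun μ _ => ?_)
      (part_lower hn (m := mm β) (by omega) hβ.le P K hη1)
    refine mul_le_mul_of_nonneg_left (Real.exp_le_exp.2 (sub_le_sub_right (neg_le_neg ?_) _)) h10.le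
    refine div_le_div_of_nonneg_right ?_ h10.le
    rw [mul_add, Finset.mul_sum]
    refine add_le_add_left (Finset.sum_le_sum fun x _ => ?_) _
    rw [mul_left_comm]
    refine mul_le_mul_of_nonneg_left ?_ (Nat.cast_nonneg _)
    rw [epsDG, modeW, Finset.mul_sum, Finset.mul_sum, Finset.mul_sum, Finset.sum_div]
    refine Finset.sum_le_sum fun i _ => ?_
    have hm1 : R * Real.sqrt β ≤ ((mm β - 1 : ℕ) : ℝ) := by
      simp only [hmm, Nat.add_sub_cancel]; exact Nat.le_ceil _
    have hm0 : 0 < R * Real.sqrt β := mul_pos hR (Real.sqrt_pos.2 hβ)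
    refine (mul_le_mul_of_nonneg_left (mul_le_mul_of_nonneg_left (epsD_le _ _)
      (by positivity)) hβ.le).trans ?_
    calc β * ((n : ℝ) / 2 * (Real.pi * (((x i).val : ℝ) + 1) / ((mm β - 1 : ℕ) : ℝ)) ^ 2)
        ≤ β * ((n : ℝ) / 2 * (Real.pi * (((x i).val : ℝ) + 1) / (R * Real.sqrt β)) ^ 2) := by
          gcongr
      _ = _ := by
          rw [div_pow, mul_pow R, Real.sq_sqrt hβ.le]
          field_simp
  have hphi := wall_le_phi (n := n) (m := mm β) (by omega) hβ.le K
  have hlg := Real.log_le_log hgpos hpart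
  refine h1.le.trans ?_
  rw [div_pow, ← mul_div_assoc, mul_comm, mul_div_assoc]
  refine mul_le_mul_of_nonneg_left ?_ (by positivity)
  exact (div_le_div_of_nonneg_right hlg (by positivity)).trans hphi

theorem gauss_sum_eventually {b ε : ℝ} (hb : 0 < b) (hε : 0 < ε) :
    ∀ᶠ J : ℕ in atTop,
      Real.sqrt (Real.pi / b) / 2 - 1 - ε ≤ ∑ j ∈ range J, Real.exp (-(b * ((j : ℝ) + 1) ^ 2)) := by
  have hint : MeasureTheory.Integrable (fun x : ℝ => Real.exp (-b * x ^ 2)) :=
    integrable_exp_neg_mul_sq hb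
  have hlim := MeasureTheory.intervalIntegral_tendsto_integral_Ioi 0 hint.integrableOn
    (tendsto_atTop_add_const_left atTop (1 : ℝ) tendsto_natCast_atTop_atTop)
  rw [integral_gaussian_Ioi] at hlim
  filter_upwards [hlim.eventually_const_lt (sub_lt_self _ hε)] with J hJ
  refine le_trans ?_ (integral_le_sum_exp_sq hb J)
  have h1 : ∀ a c : ℝ, IntervalIntegrable (fun x : ℝ => Real.exp (-b * x ^ 2))
      MeasureTheory.volume a c := fun a c => hint.intervalIntegrable
  have h2 := intervalIntegral.integral_add_adjacent_intervals (h1 0 1) (h1 1 (1 + (J : ℝ)))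
  have h3 : (∫ x in (0 : ℝ)..1, Real.exp (-b * x ^ 2)) ≤ 1 := by
    have h4 := intervalIntegral.integral_mono_on zero_le_one (h1 0 1)
      (intervalIntegrable_const (c := (1 : ℝ))) fun x _ => Real.exp_le_one_iff.2 (by nlinarith [sq_nonneg x])
    simpa using h4
  linarith

theorem tgt_base (n q : ℕ) {R : ℝ} (hR : 0 < R) :
    Real.sqrt (Real.pi / (((q : ℝ) + 1) * ((n : ℝ) / 2 * Real.pi ^ 2 / R ^ 2))) / 2
      = R * (1 / (2 * Real.sqrt (Real.pi * ((n : ℝ) / 2) * ((q : ℝ) + 1)))) := by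
  have e : Real.pi / (((q : ℝ) + 1) * ((n : ℝ) / 2 * Real.pi ^ 2 / R ^ 2))
      = R ^ 2 * (Real.pi * ((n : ℝ) / 2) * ((q : ℝ) + 1))⁻¹ := by
    field_simp
  rw [e, Real.sqrt_mul (sq_nonneg R), Real.sqrt_sq hR.le, Real.sqrt_inv]
  ring

/-- Lower bound on the pressure in a field. -/
theorem phi_field_lower {n : ℕ} (hn : 1 ≤ n) {K : ℝ} (hK : 0 ≤ K) (Q : ℕ) {ε : ℝ} (hε : 0 < ε) :
    ∀ᶠ β in atTop, ∑ q ∈ range Q, Real.exp (-K) ^ (q + 1) * tgt n q - ε
      ≤ Real.sqrt β ^ 3 * phi n β K := by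
  set zK : ℕ → ℝ := fun q => Real.exp (-K) ^ (q + 1) with hzK
  have hzK0 : ∀ q, 0 ≤ zK q := fun q => pow_nonneg (Real.exp_nonneg _) _
  set x : ℕ → ℝ := fun q => 1 / (2 * Real.sqrt (Real.pi * ((n : ℝ) / 2) * ((q : ℝ) + 1))) with hx
  -- choose the size
  have hR : Tendsto (fun R : ℝ => ∑ q ∈ range Q, zK q * ((x q - 2 / R) ^ 3 / ((q : ℝ) + 1))) atTop
      (𝓝 (∑ q ∈ range Q, zK q * tgt n q)) := by
    refine tendsto_finsetSum _ fun q _ => ?_
    have : Tendsto (fun R : ℝ => x q - 2 / R) atTop (𝓝 (x q - 0)) :=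
      (tendsto_const_nhds.div_atTop tendsto_id).const_sub _
    simpa [tgt, hx] using ((this.pow 3).div_const ((q : ℝ) + 1)).const_mul (zK q)
  obtain ⟨R, hR1, hR0⟩ :=
    ((hR.eventually_const_lt (sub_lt_self _ (half_pos hε))).and (eventually_gt_atTop 0)).exists
  set b : ℕ → ℝ := fun q => ((q : ℝ) + 1) * ((n : ℝ) / 2 * Real.pi ^ 2 / R ^ 2) with hb
  have hbpos : ∀ q, 0 < b q := fun q => by
    have : (0 : ℝ) < n := by exact_mod_cast hn
    simp only [hb]; positivity
  obtain ⟨J, hJ⟩ := ((Finset.eventually_all (range Q)).2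
    fun q _ => gauss_sum_eventually (hbpos q) one_pos).exists
  have hpos : ∀ j : Fin 3 → Fin J, Real.exp (-(modeW n R j + K)) < 1 := fun j =>
    Real.exp_lt_one_iff.2 (neg_lt_zero.2 (by linarith [modeW_pos hn hR0 j]))
  have hP : Tendsto (fun P => lowG n R K J P) atTop
      (𝓝 (∑ j : Fin 3 → Fin J, -Real.log (1 - Real.exp (-(modeW n R j + K))))) := by
    refine tendsto_finsetSum _ fun j _ => ?_
    have hy := hpos j
    have hg := (hasSum_geometric_of_lt_one (Real.exp_nonneg _) hy).tendsto_sum_nat.comp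
      (tendsto_add_atTop_nat 1)
    have := hg.log (inv_ne_zero (by linarith))
    rwa [Real.log_inv] at this
  obtain ⟨P, hP1⟩ := (hP.eventually_const_lt
    (sub_lt_self _ (show 0 < ε / 4 * R ^ 3 by positivity))).exists
  have hkey : (∑ q ∈ range Q, zK q * ((x q - 2 / R) ^ 3 / ((q : ℝ) + 1))) * R ^ 3
      ≤ ∑ j : Fin 3 → Fin J, -Real.log (1 - Real.exp (-(modeW n R j + K))) := by
    have hser : ∀ j : Fin 3 → Fin J,
        ∑ q ∈ range Q, Real.exp (-(modeW n R j + K)) ^ (q + 1) / ((q : ℝ) + 1)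
        ≤ -Real.log (1 - Real.exp (-(modeW n R j + K))) := by
      intro j
      refine sum_le_hasSum _ (fun q _ => by positivity) (Real.hasSum_pow_div_log_of_abs_lt_one ?_)
      rw [Real.abs_exp]
      exact hpos j
    refine le_trans ?_ (Finset.sum_le_sum fun j _ => hser j)
    rw [Finset.sum_comm, Finset.sum_mul]
    refine Finset.sum_le_sum fun q hq => ?_
    rw [← Finset.sum_div, mul_assoc, div_mul_eq_mul_div, ← mul_div_assoc]
    refine div_le_div_of_nonneg_right ?_ (by positivity)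
    have e0 : ∑ j : Fin 3 → Fin J, Real.exp (-(modeW n R j + K)) ^ (q + 1)
        = zK q * ∑ j : Fin 3 → Fin J, Real.exp (-(modeW n R j)) ^ (q + 1) := by
      rw [Finset.mul_sum]
      refine Finset.sum_congr rfl fun j _ => ?_
      simp only [hzK]
      rw [← mul_pow, ← Real.exp_add]
      congr 2; ring
    rw [e0]
    refine mul_le_mul_of_nonneg_left ?_ (hzK0 q)
    have e : ∑ j : Fin 3 → Fin J, Real.exp (-(modeW n R j)) ^ (q + 1)
        = (∑ i ∈ range J, Real.exp (-(b q * ((i : ℝ) + 1) ^ 2))) ^ 3 := by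
      rw [← Fin.sum_univ_eq_sum_range (fun i => Real.exp (-(b q * ((i : ℝ) + 1) ^ 2))),
        Finset.sum_pow']
      rw [Fintype.piFinset_univ]
      refine Finset.sum_congr rfl fun j _ => ?_
      rw [← Real.exp_nat_mul, ← Real.exp_sum]
      congr 1
      rw [Finset.sum_neg_distrib, ← Finset.mul_sum, modeW, hb]
      push_cast; ring
    rw [e, ← mul_pow]
    refine (Odd.strictMono_pow (by decide : Odd 3)).monotone ?_
    refine le_trans (le_of_eq ?_) (hJ q hq)
    rw [hb, tgt_base n q hR0, hx, sub_mul, div_mul_cancel₀ _ hR0.ne']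
    ring
  have hG : ∑ q ∈ range Q, zK q * tgt n q - 3 * ε / 4 ≤ lowG n R K J P / R ^ 3 := by
    rw [le_div_iff₀ (by positivity)]
    have h := mul_le_mul_of_nonneg_right hR1.le (show 0 ≤ R ^ 3 by positivity)
    rw [sub_mul] at h ⊢
    nlinarith
  filter_upwards [lower_RJP hn hR0 K J P (show 0 < ε / 4 by positivity)] with β hβ
  linarith

/-- Lower bound on the zero-field pressure. -/
theorem phi_zero_lower {n : ℕ} (hn : 1 ≤ n) (Q : ℕ) {ε : ℝ} (hε : 0 < ε) :
    ∀ᶠ β in atTop, ∑ q ∈ range Q, tgt n q - ε ≤ Real.sqrt β ^ 3 * phi n β 0 := by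
  simpa using phi_field_lower hn le_rfl Q hε

end Vale.Agent.P361
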