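import Vale.Agent.P361.Upper
import Vale.Agent.P361.AsympLower

/-!
The pressure in a field `h = K/β` is at most the ideal spin-wave one.
-/

namespace Vale.Agent.P361

open Matrix Finset Function Filter Topology
open scoped BigOperators

/-- The side `q` of the cruder tiling, as a function of `log β`. -/
noncomputable def tileQ (β : ℝ) : ℕ := ⌈Real.log β⌉₊

/-- The side of the small cube. -/
noncomputable def tileM (R β : ℝ) : ℕ := ⌊R * Real.sqrt β / (tileQ β : ℝ)⌋₊

/-- The side of the cube. -/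
noncomputable def sideL (R β : ℝ) : ℕ := tileQ β * tileM R β

/-- The cutoff on the number of magnons. -/
noncomputable def cutN (β : ℝ) : ℕ := ⌈Real.log β ^ 4⌉₊

/-- The cutoff on the energy. -/
noncomputable def cutE (β : ℝ) : ℝ := 6 * (cutN β : ℝ) * Real.log β / β

theorem sqrt_eq_exp {β : ℝ} (hβ : 0 < β) : Real.sqrt β = Real.exp (Real.log β / 2) := by
  rw [Real.exp_half, Real.exp_log hβ]

theorem log_pow_div_sqrt (k : ℕ) :
    Tendsto (fun β : ℝ => Real.log β ^ k / Real.sqrt β) atTop (𝓝 0) := by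
  have h1 : Tendsto (fun β : ℝ => Real.log β / 2) atTop atTop :=
    Real.tendsto_log_atTop.atTop_div_const two_pos
  have h2 := ((Real.tendsto_pow_mul_exp_neg_atTop_nhds_zero k).comp h1).const_mul ((2 : ℝ) ^ k)
  rw [mul_zero] at h2
  refine h2.congr' ?_
  filter_upwards [eventually_gt_atTop 0] with β hβ
  simp only [Function.comp]
  rw [sqrt_eq_exp hβ, Real.exp_neg, ← mul_assoc, ← mul_pow, ← div_eq_mul_inv]
  congr 2; ring

theorem sideL_bounds {R : ℝ} (hR : 0 < R) :
    ∀ᶠ β in atTop, 1 ≤ Real.log β ∧ 0 < tileQ β ∧ (tileQ β : ℝ) ≤ 2 * Real.log β ∧ 0 < tileM R β ∧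
      (sideL R β : ℝ) ≤ R * Real.sqrt β ∧ R * Real.sqrt β - 2 * Real.log β ≤ (sideL R β : ℝ) ∧
      R * Real.sqrt β / 2 ≤ (sideL R β : ℝ) := by
  have h0 := (log_pow_div_sqrt 1).eventually_lt_const (show (0 : ℝ) < R / 4 by positivity)
  filter_upwards [Real.tendsto_log_atTop.eventually_ge_atTop 1, eventually_gt_atTop 0, h0]
    with β hl hβ hsmall
  have hs : 0 < Real.sqrt β := Real.sqrt_pos.2 hβ
  rw [pow_one, div_lt_iff₀ hs] at hsmall
  have hq : 0 < tileQ β := Nat.ceil_pos.2 (by linarith)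
  have hq' : (0 : ℝ) < tileQ β := Nat.cast_pos.2 hq
  have hq2 : (tileQ β : ℝ) ≤ 2 * Real.log β := by
    have := Nat.ceil_lt_add_one (show 0 ≤ Real.log β by linarith)
    simp only [tileQ]; linarith
  have hRs : 0 ≤ R * Real.sqrt β := by positivity
  have hm : 0 < tileM R β := Nat.floor_pos.2 (by rw [le_div_iff₀ hq']; linarith)
  have h1 : (sideL R β : ℝ) ≤ R * Real.sqrt β := by
    rw [sideL, Nat.cast_mul, mul_comm, ← le_div_iff₀ hq']
    exact Nat.floor_le (div_nonneg hRs hq'.le)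
  have h2 : R * Real.sqrt β - 2 * Real.log β ≤ (sideL R β : ℝ) := by
    have := Nat.lt_floor_add_one (R * Real.sqrt β / (tileQ β : ℝ))
    rw [div_lt_iff₀ hq'] at this
    rw [sideL, Nat.cast_mul, tileM]
    nlinarith
  exact ⟨hl, hq, hq2, hm, h1, h2, by linarith⟩

theorem crude_tile_part {n : ℕ} (hn : 1 ≤ n) {R K : ℝ} (hR : 0 < R) (hK : 0 < K) :
    Tendsto (fun β => Real.exp (-(K * (cutN β : ℝ) / 2))
      * part (gadj (sideL R β)) n β (fun _ => K / 2)) atTop (𝓝 0) := by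
  have hn0 : (0 : ℝ) < n := by exact_mod_cast hn
  set c0 : ℝ := 2 / (1 - Real.exp (-(K / 2))) with hc0
  have he : Real.exp (-(K / 2)) < 1 := Real.exp_lt_one_iff.2 (by linarith)
  have hc1 : 1 ≤ c0 := by
    rw [hc0, le_div_iff₀ (by linarith)]
    linarith [Real.exp_nonneg (-(K / 2))]
  have hlc : 0 ≤ Real.log c0 := Real.log_nonneg hc1
  have hbot : Tendsto (fun β => -(Real.log β)) atTop atBot :=
    tendsto_neg_atTop_atBot.comp Real.tendsto_log_atTop
  refine squeeze_zero' ?_ ?_ (Real.tendsto_exp_atBot.comp hbot)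
  · exact Eventually.of_forall fun β =>
      mul_nonneg (Real.exp_nonneg _) (part_pos _ (gadj_irrefl _) β _).le
  · filter_upwards [sideL_bounds hR, eventually_ge_atTop 0,
      Real.tendsto_log_atTop.eventually_ge_atTop ((8 * Real.log c0 + 1) * 2 / K),
      Real.tendsto_log_atTop.eventually_ge_atTop (576 * R ^ 2 / n * (3 * |Real.log R| + 3))]
      with β ⟨hl, hq, hq2, hm, hle, _, _⟩ hβ0 hbig hbig2
    set L := Real.log β
    set m := tileM R β
    set q := tileQ β
    have hm' : (0 : ℝ) < m := Nat.cast_pos.2 hm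
    have hq' : (0 : ℝ) < q := Nat.cast_pos.2 hq
    have hβ : 0 < β := by
      rcases hβ0.eq_or_lt with h | h
      · subst h; simp [L, Real.log_zero] at hl; linarith
      · exact h
    have hs : 0 < Real.sqrt β := Real.sqrt_pos.2 hβ
    have hmq : (m : ℝ) * q ≤ R * Real.sqrt β := by
      have := hle; rw [sideL, Nat.cast_mul] at this; linarith
    have hqL : L ≤ (q : ℝ) := Nat.le_ceil _
    have hsmall : (m : ℝ) ^ 3 * Real.exp (-(β * n / (576 * (m : ℝ) ^ 2))) ≤ 1 / 2 := by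
      have h1 : (m : ℝ) ≤ Real.exp (|Real.log R| + L / 2) := by
        calc (m : ℝ) ≤ m * q := le_mul_of_one_le_right hm'.le (by exact_mod_cast hq)
          _ ≤ R * Real.sqrt β := hmq
          _ = Real.exp (Real.log R + L / 2) := by
              rw [Real.exp_add, Real.exp_log hR, sqrt_eq_exp hβ]
          _ ≤ _ := Real.exp_le_exp.2 (by linarith [le_abs_self (Real.log R)])
      have h2 : (n : ℝ) * L ^ 2 / (576 * R ^ 2) ≤ β * n / (576 * (m : ℝ) ^ 2) := by
        rw [div_le_div_iff₀ (by positivity) (by positivity)]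
        have h3 : ((m : ℝ) * L) ^ 2 ≤ (R * Real.sqrt β) ^ 2 :=
          pow_le_pow_left₀ (by positivity) ((mul_le_mul_of_nonneg_left hqL hm'.le).trans hmq) 2
        rw [mul_pow, mul_pow, Real.sq_sqrt hβ.le] at h3
        nlinarith [mul_le_mul_of_nonneg_left h3 (show (0:ℝ) ≤ 576 * n by positivity)]
      have h4 : 3 * |Real.log R| + 3 * L ≤ (n : ℝ) * L ^ 2 / (576 * R ^ 2) := by
        rw [le_div_iff₀ (by positivity)]
        rw [div_mul_eq_mul_div, div_le_iff₀ hn0] at hbig2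
        have h5 := mul_le_mul_of_nonneg_left hbig2 (show 0 ≤ L by linarith)
        nlinarith [mul_nonneg (mul_nonneg (show (0:ℝ) ≤ 576 * R ^ 2 by positivity)
          (abs_nonneg (Real.log R))) (show (0:ℝ) ≤ L - 1 by linarith)]
      calc (m : ℝ) ^ 3 * Real.exp (-(β * n / (576 * (m : ℝ) ^ 2)))
          ≤ Real.exp (|Real.log R| + L / 2) ^ 3 * Real.exp (-((n : ℝ) * L ^ 2 / (576 * R ^ 2))) :=
            mul_le_mul (pow_le_pow_left₀ hm'.le h1 3) (Real.exp_le_exp.2 (neg_le_neg h2))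
              (Real.exp_nonneg _) (by positivity)
        _ ≤ Real.exp (-1) := by
            rw [← Real.exp_nat_mul, ← Real.exp_add]
            refine Real.exp_le_exp.2 ?_
            push_cast; linarith
        _ ≤ 1 / 2 := by
            rw [Real.exp_neg, one_div]
            exact inv_anti₀ two_pos (by linarith [Real.add_one_le_exp (1 : ℝ)])
    have hcr := part_small_cube hn hm hβ0 (half_pos hK) hsmall
    have htile := part_tile_le (n := n) (L := sideL R β) (q := q) hm le_rfl hβ0 (K / 2)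
    have hcard : Fintype.card {x : Grid (sideL R β) // ¬ Tiled (sideL R β) q m x} = 0 := by
      have h := card_untiled (L := sideL R β) (q := q) (m := m) le_rfl
      rw [show q * m = sideL R β from rfl, sub_self] at h
      exact_mod_cast h
    rw [hcard, pow_zero, mul_one] at htile
    have hp : part (gadj (sideL R β)) n β (fun _ => K / 2) ≤ Real.exp (8 * L ^ 3 * Real.log c0) := by
      refine htile.trans ((pow_le_pow_left₀ (part_pos _ (gadj_irrefl m) β _).le hcr _).trans ?_)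
      rw [← hc0, ← Real.exp_log (show 0 < c0 by linarith), ← Real.exp_nat_mul, Real.log_exp]
      refine Real.exp_le_exp.2 (mul_le_mul_of_nonneg_right ?_ hlc)
      push_cast
      calc (q : ℝ) ^ 3 ≤ (2 * L) ^ 3 := pow_le_pow_left₀ (Nat.cast_nonneg q) hq2 3
        _ = _ := by ring
    have hN : L ^ 4 ≤ (cutN β : ℝ) := Nat.le_ceil _
    refine (mul_le_mul_of_nonneg_left hp (Real.exp_nonneg _)).trans ?_
    rw [← Real.exp_add]
    refine Real.exp_le_exp.2 ?_
    rw [div_le_iff₀ hK] at hbig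
    have h6 := mul_le_mul_of_nonneg_left hbig (show 0 ≤ L ^ 3 by positivity)
    have h7 := mul_le_mul_of_nonneg_left hN hK.le
    have h8 : L ≤ L ^ 3 := le_self_pow₀ hl (by norm_num)
    nlinarith

theorem high_energy_part {R z : ℝ} (hR : 0 < R) :
    Tendsto (fun β => Real.exp (-(β * cutE β)) * ((sideL R β : ℝ) ^ 3) ^ cutN β / (1 - z))
      atTop (𝓝 0) := by
  have hbot : Tendsto (fun β => -(Real.log β)) atTop atBot :=
    tendsto_neg_atTop_atBot.comp Real.tendsto_log_atTop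
  have h0 : Tendsto (fun β => Real.exp (-(β * cutE β)) * ((sideL R β : ℝ) ^ 3) ^ cutN β)
      atTop (𝓝 0) := by
    refine squeeze_zero' (Eventually.of_forall fun β => by positivity) ?_
      (Real.tendsto_exp_atBot.comp hbot)
    filter_upwards [sideL_bounds hR, eventually_gt_atTop 0,
      Real.tendsto_log_atTop.eventually_ge_atTop |Real.log R|] with β ⟨hl, hq, _, hm, hle, _, _⟩ hβ hbig
    set L := Real.log β
    have hN : (1 : ℝ) ≤ (cutN β : ℝ) :=
      le_trans (one_le_pow₀ hl) (Nat.le_ceil (L ^ 4))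
    have he : β * cutE β = 6 * (cutN β : ℝ) * L := by
      rw [cutE, mul_div_cancel₀ _ hβ.ne']
    have h1 : (sideL R β : ℝ) ≤ Real.exp (|Real.log R| + L / 2) := by
      refine hle.trans ?_
      rw [sqrt_eq_exp hβ, Real.exp_add]
      refine mul_le_mul_of_nonneg_right ?_ (Real.exp_nonneg _)
      calc R = Real.exp (Real.log R) := (Real.exp_log hR).symm
        _ ≤ _ := Real.exp_le_exp.2 (le_abs_self _)
    refine (mul_le_mul_of_nonneg_left (pow_le_pow_left₀ (by positivity)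
      (pow_le_pow_left₀ (Nat.cast_nonneg _) h1 3) _) (Real.exp_nonneg _)).trans ?_
    rw [← pow_mul, ← Real.exp_nat_mul, ← Real.exp_add, he]
    refine Real.exp_le_exp.2 ?_
    push_cast
    nlinarith [mul_le_mul_of_nonneg_left hbig (show (0:ℝ) ≤ (cutN β : ℝ) by linarith),
      mul_le_mul_of_nonneg_right hN (show (0:ℝ) ≤ L by linarith)]
  simpa using h0.div_const (1 - z)

theorem pair_err_part (n : ℕ) {R : ℝ} (hR : 0 < R) :
    Tendsto (fun β => β * pairErr n (sideL R β) (cutN β) (cutE β)) atTop (𝓝 0) := by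
  set C : ℝ := 1152 * (n : ℝ) ^ 2 * 4 * Real.exp 2 * R ^ 3 * (2 / R + 4) ^ 6 with hC
  have h0 := (log_pow_div_sqrt 26).const_mul C
  rw [mul_zero] at h0
  refine squeeze_zero' ?_ ?_ h0
  · filter_upwards [eventually_ge_atTop 0] with β hβ
    exact mul_nonneg hβ (pairErr_nonneg _ _ _ _)
  · filter_upwards [sideL_bounds hR, eventually_gt_atTop 0] with β ⟨hl, hq, _, hm, hle, _, hhalf⟩ hβ
    set L := Real.log β
    have hs : 0 < Real.sqrt β := Real.sqrt_pos.2 hβ
    have hN : (cutN β : ℝ) ≤ 2 * L ^ 4 := by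
      have h1 := Nat.ceil_lt_add_one (show 0 ≤ L ^ 4 by positivity)
      have h2 : (1 : ℝ) ≤ L ^ 4 := one_le_pow₀ hl
      simp only [cutN]; linarith
    have hE : cutE β ≤ 12 * L ^ 5 / β := by
      refine div_le_div_of_nonneg_right ?_ hβ.le
      nlinarith
    have hsE : Real.sqrt (cutE β) ≤ 4 * L ^ 3 / Real.sqrt β := by
      refine (Real.sqrt_le_sqrt hE).trans ?_
      rw [Real.sqrt_div' _ hβ.le]
      refine div_le_div_of_nonneg_right (Real.sqrt_le_iff.2 ⟨by positivity, ?_⟩) hs.le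
      have : L ^ 5 ≤ L ^ 6 := pow_le_pow_right₀ hl (by norm_num)
      nlinarith [show (0:ℝ) ≤ L ^ 5 by positivity]
    have hin : 1 / (sideL R β : ℝ) + Real.sqrt (cutE β) ≤ (2 / R + 4) * L ^ 3 / Real.sqrt β := by
      have h1 : 1 / (sideL R β : ℝ) ≤ 2 / R * L ^ 3 / Real.sqrt β := by
        refine (one_div_le_one_div_of_le (by positivity) hhalf).trans ?_
        rw [show 1 / (R * Real.sqrt β / 2) = 2 / R * 1 / Real.sqrt β from by field_simp]
        gcongr
        exact one_le_pow₀ hl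
      refine (add_le_add h1 hsE).trans (le_of_eq ?_)
      ring
    calc β * pairErr n (sideL R β) (cutN β) (cutE β)
        ≤ β * (1152 * (n : ℝ) ^ 2 * (2 * L ^ 4) ^ 2 * Real.exp 2 * (R * Real.sqrt β) ^ 3
          * ((2 / R + 4) * L ^ 3 / Real.sqrt β) ^ 6) := by
          unfold pairErr
          gcongr
      _ = C * (L ^ 26 / Real.sqrt β) := by
          rw [hC]
          field_simp
          rw [Real.sq_sqrt hβ.le]
          ring

/-- The one-dimensional mode sum, up to a bounded error. -/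
theorem mode_sum_le {n : ℕ} (hn : 1 ≤ n) {R δ : ℝ} (hR : 0 < R) (hδ0 : 0 < δ) (hδ1 : δ < 1) :
    ∀ᶠ β in atTop, ∀ q : ℕ,
      ∑ j ∈ range (sideL R β),
        Real.exp (-(((q : ℝ) + 1) * β * ((n : ℝ) / 2) * eps1 (sideL R β) j))
      ≤ 3 + R * (1 / (2 * Real.sqrt (Real.pi * ((n : ℝ) / 2) * (1 - δ ^ 2) * ((q : ℝ) + 1)))) := by
  have hn0 : (0 : ℝ) < n := by exact_mod_cast hn
  set κ : ℝ := (n : ℝ) / 2 * (4 * δ ^ 2 / Real.pi ^ 2) with hκ
  have hκ0 : 0 < κ := by positivity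
  have h1δ : 0 < 1 - δ ^ 2 := by nlinarith
  have hsmall : Tendsto (fun β => R * Real.sqrt β * Real.exp (-(κ * β))) atTop (𝓝 0) := by
    have h := ((Real.tendsto_pow_mul_exp_neg_atTop_nhds_zero 1).comp
      (tendsto_id.const_mul_atTop hκ0)).const_mul (R / κ)
    rw [mul_zero] at h
    refine squeeze_zero' ?_ ?_ h
    · exact Eventually.of_forall fun β => by positivity
    · filter_upwards [eventually_ge_atTop 1] with β hβ
      simp only [Function.comp, id, pow_one]
      calc R * Real.sqrt β * Real.exp (-(κ * β)) ≤ R * β * Real.exp (-(κ * β)) := by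
            gcongr
            exact Real.sqrt_le_iff.2 ⟨by linarith, by nlinarith⟩
        _ = _ := by field_simp
  filter_upwards [sideL_bounds hR, eventually_gt_atTop 0,
    hsmall.eventually_lt_const (show (0:ℝ) < 2 by norm_num)] with β ⟨_, hq, _, hm, hle, _, _⟩ hβ hsm q
  set ℓ := sideL R β
  have hl0 : 0 < ℓ := Nat.mul_pos hq hm
  have hl' : (0 : ℝ) < ℓ := Nat.cast_pos.2 hl0
  set a : ℝ := ((q : ℝ) + 1) * β * ((n : ℝ) / 2) * ((1 - δ ^ 2) * Real.pi ^ 2 / (ℓ : ℝ) ^ 2) with ha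
  have ha0 : 0 < a := by positivity
  have hterm : ∀ j ∈ range ℓ, Real.exp (-(((q : ℝ) + 1) * β * ((n : ℝ) / 2) * eps1 ℓ j))
      ≤ Real.exp (-(a * (j : ℝ) ^ 2)) + Real.exp (-(κ * β)) := by
    intro j hj
    have hc : 0 ≤ ((q : ℝ) + 1) * β * ((n : ℝ) / 2) := by positivity
    by_cases h : Real.pi * j / ℓ ≤ δ
    · refine le_add_of_le_of_nonneg (Real.exp_le_exp.2 (neg_le_neg ?_)) (Real.exp_nonneg _)
      refine le_trans (le_of_eq ?_) (mul_le_mul_of_nonneg_left (eps1_ge_small ℓ j h hδ1.le) hc)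
      rw [ha]; ring
    · refine le_add_of_nonneg_of_le (Real.exp_nonneg _) (Real.exp_le_exp.2 (neg_le_neg ?_))
      have h2 := mul_le_mul_of_nonneg_left (eps1_ge ℓ (Finset.mem_range.1 hj)) hc
      refine le_trans ?_ h2
      have h3 : δ / Real.pi ≤ (j : ℝ) / ℓ := by
        rw [not_le] at h
        rw [div_le_iff₀ Real.pi_pos]
        exact le_trans h.le (le_of_eq (by ring))
      have h4 := pow_le_pow_left₀ (by positivity) h3 2
      calc κ * β = 1 * β * ((n : ℝ) / 2) * (4 * (δ / Real.pi) ^ 2) := by rw [hκ]; ring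
        _ ≤ _ := by
            gcongr
            exact le_add_of_nonneg_left (Nat.cast_nonneg q)
  refine (Finset.sum_le_sum hterm).trans ?_
  rw [Finset.sum_add_distrib, Finset.sum_const, Finset.card_range, nsmul_eq_mul]
  have h5 := sum_exp_sq_le ha0 ℓ
  have h6 : (ℓ : ℝ) * Real.exp (-(κ * β)) ≤ 2 :=
    (mul_le_mul_of_nonneg_right hle (Real.exp_nonneg _)).trans hsm.le
  have h7 : Real.sqrt (Real.pi / a) / 2
      ≤ R * (1 / (2 * Real.sqrt (Real.pi * ((n : ℝ) / 2) * (1 - δ ^ 2) * ((q : ℝ) + 1)))) := by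
    have e : Real.pi / a = (ℓ : ℝ) ^ 2 / β
        * (Real.pi * ((n : ℝ) / 2) * (1 - δ ^ 2) * ((q : ℝ) + 1))⁻¹ := by
      rw [ha]; field_simp
    rw [e, Real.sqrt_mul (by positivity), Real.sqrt_inv, Real.sqrt_div' _ hβ.le,
      Real.sqrt_sq hl'.le]
    calc (ℓ : ℝ) / Real.sqrt β * (Real.sqrt _)⁻¹ / 2
        ≤ R * (Real.sqrt (Real.pi * ((n : ℝ) / 2) * (1 - δ ^ 2) * ((q : ℝ) + 1)))⁻¹ / 2 := by
          gcongr
          exact (div_le_iff₀ (Real.sqrt_pos.2 hβ)).2 hle
      _ = _ := by ring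
  linarith

theorem cube_shift_le {y : ℝ} (hy : 0 ≤ y) : (3 + y) ^ 3 ≤ y ^ 3 + 63 * (y + 1) ^ 2 := by
  nlinarith

theorem summable_tgt {n : ℕ} (hn : 1 ≤ n) {z : ℝ} (hz0 : 0 ≤ z) (hz1 : z < 1) :
    Summable fun q : ℕ => z ^ (q + 1) * tgt n q := by
  have hn0 : (0 : ℝ) < n := by exact_mod_cast hn
  refine Summable.of_nonneg_of_le (fun q => mul_nonneg (pow_nonneg hz0 _) ?_) (fun q => ?_)
    ((summable_geometric_of_lt_one hz0 hz1).mul_right (tgt n 0))
  · unfold tgt; positivity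
  · refine mul_le_mul (pow_le_pow_of_le_one hz0 hz1.le (Nat.le_succ q)) ?_ (by unfold tgt; positivity)
      (pow_nonneg hz0 q)
    unfold tgt
    have hq : (0 : ℝ) ≤ q := Nat.cast_nonneg q
    gcongr <;> simp

/-- Upper bound on the pressure in a field. -/
theorem phi_field_upper {n : ℕ} (hn : 1 ≤ n) {K : ℝ} (hK : 0 < K) {ε : ℝ} (hε : 0 < ε) :
    ∀ᶠ β in atTop, Real.sqrt β ^ 3 * phi n β K
      ≤ ∑' q : ℕ, Real.exp (-K) ^ (q + 1) * tgt n q + ε := by
  have hn0 : (0 : ℝ) < n := by exact_mod_cast hn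
  set z := Real.exp (-K) with hz
  have hz0 : 0 ≤ z := Real.exp_nonneg _
  have hz1 : z < 1 := Real.exp_lt_one_iff.2 (by linarith)
  have hsum := summable_tgt hn hz0 hz1
  set T := ∑' q : ℕ, z ^ (q + 1) * tgt n q with hT
  -- choose `δ`
  have hδlim : Tendsto (fun δ : ℝ => T / Real.sqrt (1 - δ ^ 2) ^ 3) (𝓝[>] 0) (𝓝 T) := by
    have : ContinuousAt (fun δ : ℝ => T / Real.sqrt (1 - δ ^ 2) ^ 3) 0 :=
      ContinuousAt.div continuousAt_const (by fun_prop) (by simp)
    simpa using this.tendsto.mono_left nhdsWithin_le_nhds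
  obtain ⟨δ, hδT, hδ0, hδ1⟩ := ((hδlim.eventually_lt_const
    (show T < T + ε / 2 by linarith)).and (Ioo_mem_nhdsGT one_pos)).exists
  have h1δ : 0 < 1 - δ ^ 2 := by nlinarith
  set x0 : ℝ := 1 / (2 * Real.sqrt (Real.pi * ((n : ℝ) / 2) * (1 - δ ^ 2))) with hx0
  have hx00 : 0 ≤ x0 := by positivity
  set U : ℝ → ℝ := fun R => (Real.log 2 + 1 + R ^ 3 * (T / Real.sqrt (1 - δ ^ 2) ^ 3)
      + 63 * (R * x0 + 1) ^ 2 * (z / (1 - z))) / R ^ 3 with hU
  have hUlim : Tendsto U atTop (𝓝 (T / Real.sqrt (1 - δ ^ 2) ^ 3)) := by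
    have e : (fun R : ℝ => (Real.log 2 + 1) * (R⁻¹) ^ 3 + T / Real.sqrt (1 - δ ^ 2) ^ 3
        + 63 * (x0 + R⁻¹) ^ 2 * (z / (1 - z)) * R⁻¹) =ᶠ[atTop] U := by
      filter_upwards [eventually_gt_atTop 0] with R hR
      simp only [hU]
      field_simp
    refine Tendsto.congr' e ?_
    have hi : Tendsto (fun R : ℝ => R⁻¹) atTop (𝓝 0) := tendsto_inv_atTop_zero
    have h := (((hi.pow 3).const_mul (Real.log 2 + 1)).add_const
      (T / Real.sqrt (1 - δ ^ 2) ^ 3)).add
        (((((hi.const_add x0).pow 2).const_mul 63).mul_const (z / (1 - z))).mul hi)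
    simpa using h
  obtain ⟨R, hRU, hR⟩ := ((hUlim.eventually_lt_const hδT).and (eventually_gt_atTop 0)).exists
  have hratio : Tendsto (fun β => Real.sqrt β / (sideL R β : ℝ)) atTop (𝓝 (1 / R)) := by
    have h1 : Tendsto (fun β => (sideL R β : ℝ) / Real.sqrt β) atTop (𝓝 R) := by
      refine tendsto_of_tendsto_of_tendsto_of_le_of_le'
        (g := fun β : ℝ => R - 2 * (Real.log β ^ 1 / Real.sqrt β)) (h := fun _ => R)
        (by simpa using ((log_pow_div_sqrt 1).const_mul 2).const_sub R) tendsto_const_nhds ?_ ?_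
      · filter_upwards [sideL_bounds hR, eventually_gt_atTop 0] with β ⟨_, _, _, _, _, h, _⟩ hβ
        have hs := Real.sqrt_pos.2 hβ
        rw [le_div_iff₀ hs, pow_one, sub_mul, mul_assoc, div_mul_cancel₀ _ hs.ne']
        exact h
      · filter_upwards [sideL_bounds hR, eventually_gt_atTop 0] with β ⟨_, _, _, _, h, _, _⟩ hβ
        rw [div_le_iff₀ (Real.sqrt_pos.2 hβ)]
        exact h
    simpa using h1.inv₀ hR.ne'
  set G : ℝ := Real.log 2 + 1 + R ^ 3 * (T / Real.sqrt (1 - δ ^ 2) ^ 3)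
      + 63 * (R * x0 + 1) ^ 2 * (z / (1 - z)) with hG
  have hlim : Tendsto (fun β => (Real.sqrt β / (sideL R β : ℝ)) ^ 3 * G) atTop (𝓝 (U R)) := by
    have := (hratio.pow 3).mul_const G
    simp only [one_div, inv_pow, inv_mul_eq_div] at this
    exact this
  have herr : Tendsto (fun β => Real.exp (-(K * (cutN β : ℝ) / 2))
        * part (gadj (sideL R β)) n β (fun _ => K / 2)
      + Real.exp (-(β * cutE β)) * ((sideL R β : ℝ) ^ 3) ^ cutN β / (1 - z)) atTop (𝓝 0) := by
    simpa using (crude_tile_part hn hR hK).add (high_energy_part (z := z) hR)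
  filter_upwards [hlim.eventually_lt_const (show U R < T + ε by linarith), sideL_bounds hR,
    eventually_gt_atTop 0, mode_sum_le hn hR hδ0 hδ1, herr.eventually_lt_const one_pos,
    (pair_err_part n hR).eventually_lt_const one_pos]
    with β hfin ⟨hl, hq, _, hm, _, _, _⟩ hβ hmode herr1 hpe
  set ℓ := sideL R β
  have hl0 : 0 < ℓ := Nat.mul_pos hq hm
  have hN1 : (0 : ℝ) < (cutN β : ℝ) :=
    lt_of_lt_of_le (pow_pos (by linarith) 4) (Nat.le_ceil _)
  have hE : 0 < cutE β := div_pos (mul_pos (by linarith) (by linarith)) hβ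
  have hup := part_upper hn hl0 hβ.le hK hE (cutN β)
  rw [add_assoc] at hup
  set A := Real.exp (β * pairErr n ℓ (cutN β) (cutE β))
      * ∏ m : Grid ℓ, (1 - z * Real.exp (-(β * epsG n ℓ m)))⁻¹ with hA
  set y : Grid ℓ → ℝ := fun m => z * Real.exp (-(β * epsG n ℓ m)) with hy
  have hy0 : ∀ m, 0 ≤ y m := fun m => mul_nonneg hz0 (Real.exp_nonneg _)
  have hy1 : ∀ m, y m < 1 := fun m => lt_of_le_of_lt (mul_le_of_le_one_right hz0
    (Real.exp_le_one_iff.2 (neg_nonpos.2 (mul_nonneg hβ.le (epsG_nonneg n ℓ m))))) hz1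
  have hpi : 0 < ∏ m : Grid ℓ, (1 - y m)⁻¹ :=
    Finset.prod_pos fun m _ => inv_pos.2 (by linarith [hy1 m])
  have hA1 : 1 ≤ A := by
    refine one_le_mul_of_one_le_of_one_le
      (Real.one_le_exp (mul_nonneg hβ.le (pairErr_nonneg _ _ _ _)))
      (Finset.one_le_prod fun m _ => ?_)
    rw [one_le_inv₀ (by linarith [hy1 m])]
    linarith [hy0 m]
  have hpart : part (gadj ℓ) n β (fun _ => K) ≤ 2 * A := hup.trans (by linarith)
  have hlogA : Real.log A ≤ 1 + ∑ m : Grid ℓ, -Real.log (1 - y m) := by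
    rw [hA, Real.log_mul (Real.exp_pos _).ne' hpi.ne', Real.log_exp,
      Real.log_prod fun m _ => (inv_pos.2 (show (0:ℝ) < 1 - y m by linarith [hy1 m])).ne']
    refine add_le_add hpe.le (le_of_eq (Finset.sum_congr rfl fun m _ => ?_))
    exact Real.log_inv _
  have hbig : ∑ m : Grid ℓ, -Real.log (1 - y m)
      ≤ R ^ 3 * (T / Real.sqrt (1 - δ ^ 2) ^ 3) + 63 * (R * x0 + 1) ^ 2 * (z / (1 - z)) := by
    have hl1 : HasSum (fun q : ℕ => ∑ m : Grid ℓ, y m ^ (q + 1) / ((q : ℝ) + 1))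
        (∑ m : Grid ℓ, -Real.log (1 - y m)) :=
      hasSum_sum fun m _ => Real.hasSum_pow_div_log_of_abs_lt_one
        (by rw [abs_of_nonneg (hy0 m)]; exact hy1 m)
    have hgeom : HasSum (fun q : ℕ => z ^ (q + 1)) (z / (1 - z)) := by
      simpa [pow_succ', div_eq_mul_inv] using (hasSum_geometric_of_lt_one hz0 hz1).mul_left z
    have hl2 := ((hsum.hasSum.div_const (Real.sqrt (1 - δ ^ 2) ^ 3)).mul_left (R ^ 3)).add
      (hgeom.mul_left (63 * (R * x0 + 1) ^ 2))
    refine hasSum_le (fun q => ?_) hl1 hl2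
    have hq1 : (0 : ℝ) < (q : ℝ) + 1 := by positivity
    have e : ∑ m : Grid ℓ, y m ^ (q + 1) / ((q : ℝ) + 1)
        = z ^ (q + 1) / ((q : ℝ) + 1) * (∑ j ∈ range ℓ,
            Real.exp (-(((q : ℝ) + 1) * β * ((n : ℝ) / 2) * eps1 ℓ j))) ^ 3 := by
      rw [← sum_exp_epsG, Finset.mul_sum]
      refine Finset.sum_congr rfl fun m _ => ?_
      simp only [hy, mul_pow]
      rw [← Real.exp_nat_mul (-(β * epsG n ℓ m)), show ((q + 1 : ℕ) : ℝ) * -(β * epsG n ℓ m)
        = -(((q : ℝ) + 1) * β * epsG n ℓ m) from by push_cast; ring]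
      ring
    rw [e]
    set xq : ℝ := 1 / (2 * Real.sqrt (Real.pi * ((n : ℝ) / 2) * (1 - δ ^ 2) * ((q : ℝ) + 1)))
    have hxq : 0 ≤ R * xq := by positivity
    have hxq0 : R * xq ≤ R * x0 := by
      refine mul_le_mul_of_nonneg_left (one_div_le_one_div_of_le (by positivity) ?_) hR.le
      refine mul_le_mul_of_nonneg_left (Real.sqrt_le_sqrt ?_) two_pos.le
      exact le_mul_of_one_le_right (by positivity) (le_add_of_nonneg_left (Nat.cast_nonneg q))
    have hcube : (∑ j ∈ range ℓ, Real.exp (-(((q : ℝ) + 1) * β * ((n : ℝ) / 2) * eps1 ℓ j))) ^ 3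
        ≤ (R * xq) ^ 3 + 63 * (R * x0 + 1) ^ 2 := by
      refine (pow_le_pow_left₀ (Finset.sum_nonneg fun j _ => Real.exp_nonneg _) (hmode q) 3).trans
        ((cube_shift_le hxq).trans ?_)
      gcongr
    refine (mul_le_mul_of_nonneg_left hcube (by positivity)).trans ?_
    rw [mul_add]
    refine add_le_add (le_of_eq ?_) ?_
    · rw [tgt, show Real.pi * ((n : ℝ) / 2) * ((q : ℝ) + 1)
        = Real.pi * ((n : ℝ) / 2) * ((q : ℝ) + 1) from rfl]
      simp only [xq]
      rw [show Real.pi * ((n : ℝ) / 2) * (1 - δ ^ 2) * ((q : ℝ) + 1)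
          = Real.pi * ((n : ℝ) / 2) * ((q : ℝ) + 1) * (1 - δ ^ 2) from by ring,
        Real.sqrt_mul (by positivity)]
      field_simp
    · rw [div_mul_eq_mul_div, mul_comm (z ^ (q + 1))]
      exact div_le_self (by positivity) (le_add_of_nonneg_left (Nat.cast_nonneg q))
  have hlog : Real.log (part (gadj ℓ) n β fun _ => K) ≤ G := by
    refine (Real.log_le_log (part_pos _ (gadj_irrefl ℓ) β _) hpart).trans ?_
    rw [Real.log_mul two_ne_zero (by linarith)]
    linarith
  calc Real.sqrt β ^ 3 * phi n β K ≤ Real.sqrt β ^ 3 * dens n β K ℓ :=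
        mul_le_mul_of_nonneg_left (phi_le_dens n β K hl0) (by positivity)
    _ ≤ Real.sqrt β ^ 3 * (G / (ℓ : ℝ) ^ 3) :=
        mul_le_mul_of_nonneg_left (div_le_div_of_nonneg_right hlog (by positivity)) (by positivity)
    _ = (Real.sqrt β / (ℓ : ℝ)) ^ 3 * G := by ring
    _ ≤ _ := hfin.le

end Vale.Agent.P361
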