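import Vale.Agent.P361.Sector

/-!
Cutting a graph into blocks; isomorphisms; monotonicity.
-/

namespace Vale.Agent.P361

open Matrix Finset Function
open scoped BigOperators

/-- Reindexing does not change `Zf`. -/
theorem zf_submatrix {ι κ : Type*} [Fintype ι] [DecidableEq ι] [Fintype κ] [DecidableEq κ]
    (e : κ ≃ ι) {A : Matrix ι ι ℝ} (hA : A.IsSymm) : Zf (A.submatrix e e) = Zf A := by
  obtain ⟨U, d, h⟩ := exists_eig hA
  have h' : Eig (A.submatrix e e) (U.submatrix e e) (d ∘ e) := by
    constructor
    · rw [transpose_submatrix, submatrix_mul_equiv, h.1, submatrix_one_equiv]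
    · rw [h.2, ← submatrix_diagonal_equiv d e, transpose_submatrix, submatrix_mul_equiv,
        submatrix_mul_equiv]
  rw [h'.zf, h.zf]
  exact Equiv.sum_comp e fun i => Real.exp (-(d i))

/-- The partition function of uncoupled blocks. -/
theorem zf_sum_atSite {B : Type*} [Fintype B] [DecidableEq B] {ι : B → Type*}
    [∀ b, Fintype (ι b)] [∀ b, DecidableEq (ι b)] (A : ∀ b, Matrix (ι b) (ι b) ℝ)
    (hA : ∀ b, (A b).IsSymm) : Zf (∑ b, atSite b (A b)) = ∏ b, Zf (A b) := by
  choose U d h using fun b => exists_eig (hA b)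
  have hU : ∀ b, (U b)ᵀ * U b = 1 := fun b => (h b).1
  have hconj : ∀ b, (U b)ᵀ * A b * U b = diagonal (d b) := by
    intro b
    calc (U b)ᵀ * A b * U b
        = (U b)ᵀ * U b * diagonal (d b) * ((U b)ᵀ * U b) := by
          conv_lhs => rw [(h b).2]
          simp only [Matrix.mul_assoc]
      _ = diagonal (d b) := by rw [hU b, Matrix.one_mul, Matrix.mul_one]
  have hc := prodMat_conj_sum_diagonal U hU A d hconj
  have hE : Eig (∑ b, atSite b (A b)) (prodMat U) (fun η => ∑ b, d b (η b)) := by
    refine ⟨prodMat_orth U hU, ?_⟩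
    have hi : prodMat U * (prodMat U)ᵀ = 1 := mul_eq_one_comm.1 (prodMat_orth U hU)
    rw [← hc]
    simp only [← Matrix.mul_assoc, hi, Matrix.one_mul]
    rw [Matrix.mul_assoc, hi, Matrix.mul_one]
  rw [hE.zf, Finset.prod_congr rfl fun b _ => (h b).zf, Fintype.prod_sum]
  exact Finset.sum_congr rfl fun η _ => by rw [← Finset.sum_neg_distrib, Real.exp_sum]

variable {n : ℕ} {V : Type*} [Fintype V] [DecidableEq V]

/-- Relabelling configurations along a bijection of sites. -/
def relabel {W : Type*} (e : W ≃ V) : Cfg n V ≃ Cfg n W where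
  toFun η w := η (e w)
  invFun ξ x := ξ (e.symm x)
  left_inv η := funext fun x => by simp
  right_inv ξ := funext fun w => by simp

theorem bond_relabel {W : Type*} [Fintype W] [DecidableEq W] (e : W ≃ V) (x y : W) :
    (bond n x y).submatrix (relabel e) (relabel e) = bond n (e x) (e y) := by
  have hat : ∀ (x : W) (A : Matrix (Fin (n + 1)) (Fin (n + 1)) ℝ),
      (atSite x A : Matrix (Cfg n W) (Cfg n W) ℝ).submatrix (relabel e) (relabel e)
        = atSite (e x) A := by
    intro x A
    ext η η'
    simp only [Matrix.submatrix_apply, atSite_apply, relabel, Equiv.coe_fn_mk]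
    refine if_congr ?_ rfl rfl
    constructor
    · intro h z hz
      have := h (e.symm z) fun hh => hz (by rw [← hh, e.apply_symm_apply])
      simpa using this
    · intro h z hz
      exact h (e z) fun hh => hz (e.injective hh)
  simp only [bond, submatrix_sub, submatrix_add, submatrix_smul, Pi.sub_apply, Pi.add_apply,
    Pi.smul_apply, submatrix_one_equiv, ← submatrix_mul_equiv _ _ _ (relabel e), hat]

/-- Isomorphic graphs have the same partition function. -/
theorem part_relabel {W : Type*} [Fintype W] [DecidableEq W] (e : W ≃ V)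
    (adj : V → V → Prop) [DecidableRel adj] (hirr : ∀ x, ¬ adj x x)
    (adj' : W → W → Prop) [DecidableRel adj'] (hadj : ∀ x y, adj' x y ↔ adj (e x) (e y))
    (β : ℝ) (pot : V → ℝ) (pot' : W → ℝ) (hpot : ∀ x, pot' x = pot (e x)) :
    part adj' n β pot' = part adj n β pot := by
  have hirr' : ∀ x, ¬ adj' x x := fun x h => hirr _ ((hadj x x).1 h)
  have hk : (kin adj' n).submatrix (relabel e) (relabel e) = (kin adj n : Matrix (Cfg n V) (Cfg n V) ℝ) := by
    ext η η'
    simp only [Matrix.submatrix_apply, kin, Matrix.smul_apply, Matrix.sum_apply]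
    congr 1
    refine Fintype.sum_equiv e _ _ fun x => Fintype.sum_equiv e _ _ fun y => ?_
    rw [← bond_relabel e x y]
    by_cases h : adj' x y
    · rw [if_pos h, if_pos ((hadj x y).1 h)]; rfl
    · rw [if_neg h, if_neg fun hh => h ((hadj x y).2 hh)]; rfl
  have hh : (ham adj' n β pot').submatrix (relabel e) (relabel e) = ham adj n β pot := by
    ext η η'
    simp only [Matrix.submatrix_apply, ham, Matrix.add_apply, Matrix.smul_apply]
    rw [← hk, Matrix.submatrix_apply]
    congr 1
    simp only [potMat, Matrix.diagonal_apply, (relabel (n := n) e).injective.eq_iff]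
    refine if_congr Iff.rfl ?_ rfl
    exact Fintype.sum_equiv e _ _ fun x => by simp [relabel, hpot]
  rw [part, part, ← hh, zf_submatrix _ (ham_symm adj' hirr' β pot')]

section blocks

variable {B : Type*} [Fintype B] [DecidableEq B] (π : V → B)

/-- Sites of the block `b`. -/
abbrev Blk (b : B) : Type _ := {x : V // π x = b}

/-- Configurations as tuples of block configurations. -/
def splitCfg : Cfg n V ≃ (∀ b, Cfg n (Blk π b)) where
  toFun η _ x := η x.1
  invFun ξ x := ξ (π x) ⟨x, rfl⟩
  left_inv η := rfl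
  right_inv ξ := by
    funext b ⟨x, hx⟩
    subst hx
    rfl

theorem atSite_split (b : B) (x : Blk π b) (A : Matrix (Fin (n + 1)) (Fin (n + 1)) ℝ) :
    (atSite (ι := fun b => Cfg n (Blk π b)) b (atSite x A)).submatrix (splitCfg π) (splitCfg π)
      = (atSite x.1 A : Matrix (Cfg n V) (Cfg n V) ℝ) := by
  ext η η'
  simp only [Matrix.submatrix_apply, atSite_apply, splitCfg, Equiv.coe_fn_mk]
  by_cases h : ∀ z, z ≠ x.1 → η z = η' z
  · rw [if_pos h, if_pos, if_pos]
    · exact fun z hz => h z.1 fun e => hz (Subtype.ext e)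
    · intro b' hb'
      funext z
      exact h z.1 fun e => hb' (by rw [← z.2, e, x.2])
  · rw [if_neg h]
    split_ifs with h1 h2
    · refine absurd (fun z hz => ?_) h
      by_cases hb : π z = b
      · exact h2 ⟨z, hb⟩ fun e => hz (congrArg Subtype.val e)
      · exact congrFun (h1 (π z) hb) ⟨z, rfl⟩
    · rfl
    · rfl

theorem bond_split (b : B) (x y : Blk π b) :
    (atSite (ι := fun b => Cfg n (Blk π b)) b (bond n x y)).submatrix (splitCfg π) (splitCfg π)
      = (bond n x.1 y.1 : Matrix (Cfg n V) (Cfg n V) ℝ) := by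
  simp only [bond, atSite_sub, atSite_add, atSite_smul, atSite_one, ← atSite_mul_same,
    submatrix_sub, submatrix_add, submatrix_smul, Pi.sub_apply, Pi.add_apply, Pi.smul_apply,
    submatrix_one_equiv, ← submatrix_mul_equiv _ _ _ (splitCfg (n := n) π), atSite_split]

variable (adj : V → V → Prop) [DecidableRel adj]

/-- The edges inside the blocks. -/
def Inner (x y : V) : Prop := adj x y ∧ π x = π y

instance : DecidableRel (Inner π adj) := fun _ _ => inferInstanceAs (Decidable (_ ∧ _))

/-- The edges of the block `b`. -/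
def BlkAdj (b : B) (x y : Blk π b) : Prop := adj x.1 y.1

instance (b : B) : DecidableRel (BlkAdj π adj b) := fun x y =>
  inferInstanceAs (Decidable (adj x.1 y.1))

theorem sum_blk (F : V → ℝ) : ∑ b, ∑ x : Blk π b, F x.1 = ∑ x, F x :=
  Fintype.sum_fiberwise π F

theorem part_inner (hirr : ∀ x, ¬ adj x x) (β : ℝ) (pot : V → ℝ) :
    part (Inner π adj) n β pot
      = ∏ b, part (BlkAdj π adj b) n β (fun x => pot x.1) := by
  have hs : ∀ b, (ham (BlkAdj π adj b) n β (fun x => pot x.1)).IsSymm := fun b =>
    ham_symm _ (fun x => hirr x.1) β _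
  have hsum : (∑ b, atSite (ι := fun b => Cfg n (Blk π b)) b
        (ham (BlkAdj π adj b) n β (fun x => pot x.1))).IsSymm := by
    rw [Matrix.IsSymm, transpose_sum]
    exact Finset.sum_congr rfl fun b _ => by rw [atSite_transpose, (hs b).eq]
  have hk : ∀ η η', (kin (Inner π adj) n : Matrix (Cfg n V) (Cfg n V) ℝ) η η'
      = ∑ b, atSite (ι := fun b => Cfg n (Blk π b)) b (kin (BlkAdj π adj b) n)
          (splitCfg π η) (splitCfg π η') := by
    intro η η'
    simp only [kin, atSite_smul, atSite_sum, Matrix.smul_apply, Matrix.sum_apply]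
    rw [← Finset.smul_sum]
    congr 1
    rw [← sum_blk π]
    refine Finset.sum_congr rfl fun b _ => Finset.sum_congr rfl fun x _ => ?_
    rw [sum_eq_subtype (fun y => π y = b) _ fun y hy => by
      rw [if_neg fun h : Inner π adj x.1 y => hy (by rw [← h.2, x.2])]; rfl]
    refine Finset.sum_congr rfl fun y _ => ?_
    by_cases h : adj x.1 y.1
    · rw [if_pos ⟨h, x.2.trans y.2.symm⟩, if_pos (show BlkAdj π adj b x y from h), ← bond_split π b x y]; rfl
    · rw [if_neg fun hh : Inner π adj x.1 y.1 => h hh.1, if_neg (show ¬ BlkAdj π adj b x y from h),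
        atSite_zero]; rfl
  have heq : (∑ b, atSite (ι := fun b => Cfg n (Blk π b)) b
      (ham (BlkAdj π adj b) n β (fun x => pot x.1))).submatrix (splitCfg π) (splitCfg π)
        = ham (Inner π adj) n β pot := by
    ext η η'
    simp only [ham, atSite_add, atSite_smul, Finset.sum_add_distrib, Matrix.submatrix_apply,
      Matrix.add_apply, Matrix.sum_apply, Matrix.smul_apply, ← Finset.smul_sum]
    rw [← hk]
    congr 1
    simp only [potMat, atSite_diagonal]
    by_cases he : η = η'
    · subst he
      simp only [diagonal_apply_eq]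
      exact sum_blk π fun x => pot x * ((η x).val : ℝ)
    · rw [diagonal_apply_ne _ he]
      refine Finset.sum_eq_zero fun b _ => ?_
      rw [diagonal_apply_ne _ fun e => he ((splitCfg (n := n) π).injective e)]
  rw [part, ← heq, zf_submatrix _ hsum, zf_sum_atSite _ hs]
  rfl

theorem quad_inner_le (hirr : ∀ x, ¬ adj x x) (f : Cfg n V → ℝ) :
    quad (kin (Inner π adj) n) f ≤ quad (kin adj n) f := by
  rw [quad_kin (Inner π adj) fun x h => hirr x h.1, quad_kin adj hirr]
  refine mul_le_mul_of_nonneg_left (Finset.sum_le_sum fun x _ => Finset.sum_le_sum fun y _ => ?_)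
    (by norm_num)
  by_cases h : adj x y
  · by_cases h' : π x = π y
    · rw [if_pos ⟨h, h'⟩, if_pos h]
    · rw [if_neg fun hh : Inner π adj x y => h' hh.2, if_pos h]
      exact transForm_nonneg x y f
  · rw [if_neg h, if_neg fun hh : Inner π adj x y => h hh.1]

theorem part_le_inner (hirr : ∀ x, ¬ adj x x) {β : ℝ} (hβ : 0 ≤ β) (pot : V → ℝ) :
    part adj n β pot ≤ ∏ b, part (BlkAdj π adj b) n β (fun x => pot x.1) := by
  rw [← part_inner π adj hirr]
  refine zf_anti (ham_symm _ (fun x h => hirr x h.1) β pot) (ham_symm _ hirr β pot) fun f => ?_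
  rw [quad_ham, quad_ham]
  gcongr
  exact quad_inner_le π adj hirr f

theorem transForm_le {x y : V} (h : x ≠ y) (f : Cfg n V → ℝ) :
    transForm x y f f ≤ 2 * (n : ℝ) * ∑ η, (((η x).val : ℝ) + ((η y).val : ℝ)) * f η ^ 2 := by
  have e1 : (∑ η, if Can x y η then rate' x y η * f (mv x y η) ^ 2 else 0)
      = ∑ η, rate y x η * f η ^ 2 := by
    rw [show (∑ η, rate y x η * f η ^ 2)
        = ∑ η, if Can y x η then rate y x η * f η ^ 2 else 0 from
      Finset.sum_congr rfl fun η _ => by
        split_ifs with hc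
        · rfl
        · simp [rate_eq_zero hc]]
    rw [sum_can_swap (Ne.symm h) fun a _ => rate y x a * f a ^ 2]
    exact Finset.sum_congr rfl fun η _ => by
      split_ifs with hc
      · rw [rate_mv h hc]
      · rfl
  calc transForm x y f f
      ≤ ∑ η, (2 * (rate x y η * f η ^ 2) +
          2 * if Can x y η then rate' x y η * f (mv x y η) ^ 2 else 0) := by
        refine Finset.sum_le_sum fun η _ => ?_
        split_ifs with hc
        · have s1 := Real.mul_self_sqrt (rate_nonneg x y η)
          have s2 := Real.mul_self_sqrt (rate'_nonneg x y η)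
          nlinarith [sq_nonneg (Real.sqrt (rate x y η) * f η +
            Real.sqrt (rate' x y η) * f (mv x y η))]
        · simp [rate_eq_zero hc]
    _ = ∑ η, 2 * ((rate x y η + rate y x η) * f η ^ 2) := by
        rw [Finset.sum_add_distrib, ← Finset.mul_sum, ← Finset.mul_sum, e1, ← Finset.mul_sum,
          ← mul_add, ← Finset.sum_add_distrib]
        congr 1
        exact Finset.sum_congr rfl fun η _ => by ring
    _ ≤ _ := by
        rw [Finset.mul_sum]
        refine Finset.sum_le_sum fun η _ => ?_
        have : rate x y η + rate y x η ≤ (n : ℝ) * (((η x).val : ℝ) + ((η y).val : ℝ)) := by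
          have ha : (0 : ℝ) ≤ (η x).val := Nat.cast_nonneg _
          have hb : (0 : ℝ) ≤ (η y).val := Nat.cast_nonneg _
          simp only [rate]; nlinarith [mul_nonneg ha hb]
        nlinarith [mul_le_mul_of_nonneg_right this (sq_nonneg (f η))]

/-- Number of neighbours outside the own block. -/
def extDeg (x : V) : ℕ := (univ.filter fun y => adj x y ∧ π y ≠ π x).card

theorem quad_le_inner (hirr : ∀ x, ¬ adj x x) (hsym : ∀ x y, adj x y → adj y x)
    (f : Cfg n V → ℝ) :
    quad (kin adj n) f ≤ quad (kin (Inner π adj) n) f +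
      ∑ η, (∑ x, (n : ℝ) * (extDeg π adj x : ℝ) * ((η x).val : ℝ)) * f η ^ 2 := by
  rw [quad_kin (Inner π adj) fun x h => hirr x h.1, quad_kin adj hirr]
  set w : V → ℝ := fun x => ∑ η, ((η x).val : ℝ) * f η ^ 2 with hw
  have hb : ∀ x y, (if adj x y then transForm x y f f else 0)
      ≤ (if Inner π adj x y then transForm x y f f else 0)
        + (if adj x y ∧ π y ≠ π x then 2 * (n : ℝ) * (w x + w y) else 0) := by
    intro x y
    by_cases h : adj x y
    · by_cases h' : π x = π y
      · rw [if_pos h, if_pos (show Inner π adj x y from ⟨h, h'⟩), if_neg fun hh => hh.2 h'.symm,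
          add_zero]
      · rw [if_pos h, if_neg fun hh : Inner π adj x y => h' hh.2,
          if_pos ⟨h, Ne.symm h'⟩, zero_add]
        refine (transForm_le (fun e : x = y => h' (congrArg π e)) f).trans (le_of_eq ?_)
        simp only [hw, ← Finset.sum_add_distrib, add_mul]
    · rw [if_neg h, if_neg fun hh : Inner π adj x y => h hh.1, if_neg fun hh => h hh.1, add_zero]
  have hw1 : ∑ x, ∑ y, (if adj x y ∧ π y ≠ π x then 2 * (n : ℝ) * (w x + w y) else 0)
      = 4 * ∑ x, (n : ℝ) * (extDeg π adj x : ℝ) * w x := by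
    have e : ∀ x y, (if adj x y ∧ π y ≠ π x then 2 * (n : ℝ) * (w x + w y) else 0)
        = (if adj x y ∧ π y ≠ π x then 2 * (n : ℝ) * w x else 0)
          + (if adj x y ∧ π y ≠ π x then 2 * (n : ℝ) * w y else 0) := by
      intro x y; split_ifs <;> ring
    simp only [e, Finset.sum_add_distrib]
    conv_lhs => arg 2; rw [Finset.sum_comm]
    simp only [← Finset.sum_filter, Finset.sum_const, nsmul_eq_mul]
    rw [← Finset.sum_add_distrib, Finset.mul_sum]
    refine Finset.sum_congr rfl fun x _ => ?_
    rw [show (univ.filter fun a => adj a x ∧ π x ≠ π a) = univ.filter fun a => adj x a ∧ π a ≠ π x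
      from Finset.filter_congr fun a _ =>
        ⟨fun h => ⟨hsym _ _ h.1, Ne.symm h.2⟩, fun h => ⟨hsym _ _ h.1, Ne.symm h.2⟩⟩]
    simp only [extDeg]; ring
  have hR : ∑ x, (n : ℝ) * (extDeg π adj x : ℝ) * w x
      = ∑ η, (∑ x, (n : ℝ) * (extDeg π adj x : ℝ) * ((η x).val : ℝ)) * f η ^ 2 := by
    simp only [hw, Finset.mul_sum, Finset.sum_mul]
    rw [Finset.sum_comm]
    exact Finset.sum_congr rfl fun η _ => Finset.sum_congr rfl fun x _ => by ring
  have hS := Finset.sum_le_sum fun x (_ : x ∈ (univ : Finset V)) =>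
    Finset.sum_le_sum fun y (_ : y ∈ (univ : Finset V)) => hb x y
  simp only [Finset.sum_add_distrib] at hS
  rw [← hR]
  linarith

/-- Lower bound by blocks with a wall penalty. -/
theorem prod_le_part (hirr : ∀ x, ¬ adj x x) (hsym : ∀ x y, adj x y → adj y x) {β : ℝ}
    (hβ : 0 ≤ β) (pot pot' : V → ℝ)
    (hp : ∀ x, pot x + β * (n : ℝ) * (extDeg π adj x : ℝ) ≤ pot' x) :
    ∏ b, part (BlkAdj π adj b) n β (fun x => pot' x.1) ≤ part adj n β pot := by
  rw [← part_inner π adj hirr]
  refine zf_anti (ham_symm _ hirr β pot) (ham_symm _ (fun x h => hirr x h.1) β pot') fun f => ?_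
  rw [quad_ham, quad_ham]
  have h1 := mul_le_mul_of_nonneg_left (quad_le_inner π adj hirr hsym f) hβ
  have h2 : β * (∑ η, (∑ x, (n : ℝ) * (extDeg π adj x : ℝ) * ((η x).val : ℝ)) * f η ^ 2)
      + ∑ η, (∑ x, pot x * ((η x).val : ℝ)) * f η ^ 2
      ≤ ∑ η, (∑ x, pot' x * ((η x).val : ℝ)) * f η ^ 2 := by
    rw [Finset.mul_sum, ← Finset.sum_add_distrib]
    refine Finset.sum_le_sum fun η _ => ?_
    rw [← mul_assoc, ← add_mul, Finset.mul_sum, ← Finset.sum_add_distrib]
    refine mul_le_mul_of_nonneg_right (Finset.sum_le_sum fun x _ => ?_) (sq_nonneg _)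
    have := mul_le_mul_of_nonneg_right (hp x) (Nat.cast_nonneg (η x).val : (0 : ℝ) ≤ (η x).val)
    nlinarith
  nlinarith

end blocks

/-- Larger potential, smaller partition function. -/
theorem part_anti (adj : V → V → Prop) [DecidableRel adj] (hirr : ∀ x, ¬ adj x x) (β : ℝ)
    {pot pot' : V → ℝ} (h : ∀ x, pot x ≤ pot' x) : part adj n β pot' ≤ part adj n β pot := by
  refine zf_anti (ham_symm _ hirr β pot) (ham_symm _ hirr β pot') fun f => ?_
  rw [quad_ham, quad_ham]
  gcongr with η _ x _
  exact h x

theorem part_pos (adj : V → V → Prop) [DecidableRel adj] (hirr : ∀ x, ¬ adj x x) (β : ℝ)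
    (pot : V → ℝ) : 0 < part adj n β pot := zf_pos (ham_symm adj hirr β pot)

/-- The vacuum has energy zero. -/
theorem one_le_part (adj : V → V → Prop) [DecidableRel adj] (hirr : ∀ x, ¬ adj x x) (β : ℝ)
    (pot : V → ℝ) : 1 ≤ part adj n β pot := by
  set v : Cfg n V → ℝ := fun η => if η = 0 then 1 else 0 with hv
  have hq : quad (ham adj n β pot) v = 0 := by
    rw [quad_ham, quad_kin adj hirr]
    have hz : ∀ x y, (if adj x y then transForm x y v v else 0) = 0 := by
      intro x y
      split_ifs with h
      · have hxy : x ≠ y := fun e => hirr x (e.symm ▸ h)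
        refine Finset.sum_eq_zero fun η _ => ?_
        split_ifs with hc
        · have h1 : η ≠ 0 := fun e => by simp [Can, e] at hc
          have h2 : mv x y η ≠ 0 := by
            intro e
            have := can_mv hxy hc
            simp [Can, e] at this
          simp [hv, h1, h2]
        · rfl
      · rfl
    simp only [hz, Finset.sum_const_zero, mul_zero, zero_add]
    refine Finset.sum_eq_zero fun η _ => ?_
    by_cases h : η = 0
    · subst h; simp
    · simp [hv, h]
  have := sum_exp_quad_le (ham_symm adj hirr β pot) (Finset.univ : Finset Unit) (fun _ => v)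
    (fun i _ j _ => by simp [hv, dotProduct])
  simpa [hq, part] using this

/-- Log-convexity in the potential. -/
theorem log_part_convex (adj : V → V → Prop) [DecidableRel adj] (hirr : ∀ x, ¬ adj x x) (β : ℝ)
    {a b : ℝ} (ha : 0 < a) (hb : 0 < b) (hab : a + b = 1) (p q : V → ℝ) :
    Real.log (part adj n β fun x => a * p x + b * q x)
      ≤ a * Real.log (part adj n β p) + b * Real.log (part adj n β q) := by
  refine zf_convex_comb (ham_symm adj hirr β p) (ham_symm adj hirr β q) (ham_symm adj hirr β _)
    ha hb hab fun v => ?_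
  rw [quad_ham, quad_ham, quad_ham, mul_add, mul_add, Finset.mul_sum (a := a), Finset.mul_sum (a := b)]
  have e : ∀ η : Cfg n V, (∑ x, (a * p x + b * q x) * ((η x).val : ℝ)) * v η ^ 2
      = a * ((∑ x, p x * ((η x).val : ℝ)) * v η ^ 2)
        + b * ((∑ x, q x * ((η x).val : ℝ)) * v η ^ 2) := by
    intro η
    rw [Finset.sum_congr rfl fun x _ => show (a * p x + b * q x) * ((η x).val : ℝ)
      = a * (p x * ((η x).val : ℝ)) + b * (q x * ((η x).val : ℝ)) from by ring,
      Finset.sum_add_distrib, ← Finset.mul_sum, ← Finset.mul_sum]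
    ring
  rw [Finset.sum_congr rfl fun η _ => e η, Finset.sum_add_distrib]
  linear_combination (-(β * quad (kin adj n) v)) * hab

end Vale.Agent.P361
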