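import Vale.Agent.P361.Sector

/-!
The complete-graph ferromagnet is a function of the total spin; its sector traces are small.
-/

namespace Vale.Agent.P361

open Matrix Finset Function
open scoped BigOperators

variable {n : ℕ} {V : Type*} [Fintype V] [DecidableEq V]

theorem upR_mul_transpose (n : ℕ) :
    upR n * (upR n)ᵀ = diagonal fun i : Fin (n + 1) => ((i.val : ℝ) + 1) * ((n : ℝ) - i.val) := by
  ext i j
  rw [Matrix.mul_apply, sum_upR i fun a => (upR n)ᵀ a j, Matrix.diagonal_apply]
  simp only [Matrix.transpose_apply, upR, Matrix.of_apply, inc]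
  by_cases h : i.val < n
  · rw [if_pos h, min_eq_left (by omega : i.val + 1 ≤ n)]
    by_cases e : i = j
    · subst e
      rw [if_pos rfl, if_pos rfl]
      have hc : ((i.val + 1 : ℕ) : ℝ) = (i.val : ℝ) + 1 := by push_cast; rfl
      have : (0 : ℝ) ≤ ((i.val : ℝ) + 1) * ((n : ℝ) - i.val) := by
        have : (i.val : ℝ) ≤ n := by exact_mod_cast h.le
        exact mul_nonneg (by positivity) (sub_nonneg.2 this)
      rw [hc, show (n : ℝ) + 1 - ((i.val : ℝ) + 1) = (n : ℝ) - i.val from by ring,
        Real.mul_self_sqrt this]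
    · rw [if_neg e, if_neg (fun hh : j.val + 1 = i.val + 1 => e (Fin.ext (by omega))), mul_zero]
  · rw [if_neg h]
    split_ifs with e
    · have : (i.val : ℝ) = n := by exact_mod_cast (by omega : i.val = n)
      rw [this]; ring
    · rfl

theorem transpose_mul_upR (n : ℕ) :
    (upR n)ᵀ * upR n = diagonal fun i : Fin (n + 1) => (i.val : ℝ) * ((n : ℝ) + 1 - i.val) := by
  ext i j
  rw [Matrix.mul_apply, sum_upR_transpose i fun a => upR n a j, Matrix.diagonal_apply]
  simp only [upR, Matrix.of_apply, dec]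
  by_cases h : 0 < i.val
  · rw [if_pos h]
    by_cases e : i = j
    · subst e
      rw [if_pos rfl, if_pos (by omega), Real.mul_self_sqrt]
      have : (i.val : ℝ) ≤ n := by exact_mod_cast Nat.lt_succ_iff.1 i.isLt
      exact mul_nonneg (Nat.cast_nonneg _) (by linarith)
    · rw [if_neg e, if_neg (fun hh : i.val - 1 + 1 = j.val => e (Fin.ext (by omega))), mul_zero]
  · rw [if_neg h]
    split_ifs with e
    · simp [Nat.eq_zero_of_not_pos h]
    · rfl

theorem upR_comm (n : ℕ) :
    upR n * (upR n)ᵀ - (upR n)ᵀ * upR n = (2 : ℝ) • szR n := by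
  rw [upR_mul_transpose, transpose_mul_upR, szR, diagonal_sub, ← diagonal_smul]
  congr 1
  funext i; simp only [Pi.smul_apply, smul_eq_mul]; ring

theorem szR_upR (n : ℕ) : szR n * upR n - upR n * szR n = upR n := by
  ext i j
  simp only [szR, Matrix.sub_apply, Matrix.diagonal_mul, Matrix.mul_diagonal, upR, Matrix.of_apply]
  split_ifs with h
  · have : (j.val : ℝ) = (i.val : ℝ) + 1 := by exact_mod_cast h.symm
    rw [this]; ring
  · ring

theorem casimir_site (n : ℕ) :
    szR n * szR n + (1 / 2 : ℝ) • (upR n * (upR n)ᵀ + (upR n)ᵀ * upR n)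
      = ((n : ℝ) / 2 * ((n : ℝ) / 2 + 1)) • (1 : Matrix (Fin (n + 1)) (Fin (n + 1)) ℝ) := by
  rw [upR_mul_transpose, transpose_mul_upR, szR, diagonal_mul_diagonal, diagonal_add,
    ← diagonal_smul, diagonal_add, ← diagonal_one, ← diagonal_smul]
  congr 1
  funext i; simp only [Pi.smul_apply, smul_eq_mul]; ring

/-- Total spin component. -/
noncomputable def totOp (V : Type*) [Fintype V] [DecidableEq V]
    (A : Matrix (Fin (n + 1)) (Fin (n + 1)) ℝ) : Matrix (Cfg n V) (Cfg n V) ℝ :=
  ∑ x : V, atSite x A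

theorem totOp_transpose (A : Matrix (Fin (n + 1)) (Fin (n + 1)) ℝ) :
    (totOp V A)ᵀ = totOp V Aᵀ := by
  rw [totOp, totOp, transpose_sum]
  exact Finset.sum_congr rfl fun x _ => atSite_transpose (ι := fun _ : V => Fin (n + 1)) x A

theorem totOp_comm (A B : Matrix (Fin (n + 1)) (Fin (n + 1)) ℝ) :
    totOp V A * totOp V B - totOp V B * totOp V A = totOp V (A * B - B * A) := by
  simp only [totOp, Finset.sum_mul, Finset.mul_sum]
  conv_lhs => arg 1; rw [Finset.sum_comm]
  rw [← Finset.sum_sub_distrib]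
  refine Finset.sum_congr rfl fun x _ => ?_
  rw [← Finset.sum_sub_distrib, Finset.sum_eq_single x]
  · rw [atSite_mul_same, atSite_mul_same, atSite_sub]
  · intro y _ hy
    rw [atSite_comm (Ne.symm hy)]
    exact sub_self _
  · simp

/-- The total spin squared. -/
noncomputable def cas (n : ℕ) (V : Type*) [Fintype V] [DecidableEq V] :
    Matrix (Cfg n V) (Cfg n V) ℝ :=
  totOp V (szR n) * totOp V (szR n) + (1 / 2 : ℝ) •
    (totOp V (upR n) * totOp V (upR n)ᵀ + totOp V (upR n)ᵀ * totOp V (upR n))

theorem kin_complete :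
    (2 : ℝ) • kin (fun x y : V => x ≠ y) n
      = ((n : ℝ) / 2 * Fintype.card V * ((n : ℝ) / 2 * Fintype.card V + 1)) •
          (1 : Matrix (Cfg n V) (Cfg n V) ℝ) - cas n V := by
  have hE : ∀ x : V, bond n x x
      = (-((n : ℝ) / 2)) • (1 : Matrix (Cfg n V) (Cfg n V) ℝ) := by
    intro x
    rw [bond, atSite_mul_same, atSite_mul_same, atSite_mul_same, ← atSite_add, ← atSite_smul,
      ← atSite_add, casimir_site, atSite_smul, atSite_one, ← sub_smul]
    congr 1; ring
  have h1 : ∀ x : V, (∑ y, if x ≠ y then bond n x y else 0)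
      = (∑ y, bond n x y) - bond n x x := by
    intro x
    have e : ∀ y, (if x ≠ y then bond n x y else 0)
        = bond n x y - (if x = y then bond n x y else 0) := fun y => by
      by_cases h : x = y <;> simp [h]
    simp [e, Finset.sum_sub_distrib]
  rw [kin, smul_smul, show (2 : ℝ) * (1 / 2) = 1 by norm_num, one_smul,
    Finset.sum_congr rfl fun x _ => h1 x, Finset.sum_sub_distrib]
  simp only [hE, Finset.sum_const, Finset.card_univ]
  have h2 : ∑ x : V, ∑ y : V, bond n x y
      = ((Fintype.card V : ℝ) * Fintype.card V * ((n : ℝ) / 2) ^ 2) •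
          (1 : Matrix (Cfg n V) (Cfg n V) ℝ) - cas n V := by
    have hsum : ∀ A B : Matrix (Fin (n + 1)) (Fin (n + 1)) ℝ,
        ∑ x : V, ∑ y : V, (atSite x A * atSite y B : Matrix (Cfg n V) (Cfg n V) ℝ)
          = totOp V A * totOp V B := fun A B => by
      rw [totOp, totOp, Finset.sum_mul_sum]
    calc ∑ x : V, ∑ y : V, bond n x y
        = (∑ _x : V, ∑ _y : V, (((n : ℝ) / 2) ^ 2) • (1 : Matrix (Cfg n V) (Cfg n V) ℝ))
          - ∑ x : V, ∑ y : V, (atSite x (szR n) * atSite y (szR n) + (1 / 2 : ℝ) •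
              (atSite x (upR n) * atSite y (upR n)ᵀ + atSite x (upR n)ᵀ * atSite y (upR n))) := by
            rw [← Finset.sum_sub_distrib]
            refine Finset.sum_congr rfl fun x _ => ?_
            rw [← Finset.sum_sub_distrib]
            exact Finset.sum_congr rfl fun y _ => rfl
      _ = _ := by
            congr 1
            · simp only [Finset.sum_const, Finset.card_univ]
              rw [← Nat.cast_smul_eq_nsmul ℝ, ← Nat.cast_smul_eq_nsmul ℝ, smul_smul, smul_smul]
            · rw [Finset.sum_congr rfl fun x _ => Finset.sum_add_distrib, Finset.sum_add_distrib,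
                hsum]
              rw [cas]
              congr 1
              rw [Finset.sum_congr rfl fun x _ => (Finset.smul_sum).symm, ← Finset.smul_sum]
              congr 1
              rw [Finset.sum_congr rfl fun x _ => Finset.sum_add_distrib, Finset.sum_add_distrib,
                hsum, hsum]
  rw [h2, ← Nat.cast_smul_eq_nsmul ℝ, smul_smul]
  module

theorem totOp_mulVec_diag (f : Cfg n V → ℝ) (η : Cfg n V) :
    (totOp V (szR n) *ᵥ f) η
      = ((n : ℝ) / 2 * Fintype.card V - (tot η : ℝ)) * f η := by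
  have : totOp V (szR n) = diagonal fun η : Cfg n V => ∑ x, ((n : ℝ) / 2 - ((η x).val : ℝ)) := by
    rw [totOp, szR, sum_atSite_diagonal (ι := fun _ : V => Fin (n + 1))
      fun (_ : V) (i : Fin (n + 1)) => (n : ℝ) / 2 - (i.val : ℝ)]
  rw [this, mulVec_diagonal, Finset.sum_sub_distrib, tot, Nat.cast_sum, Finset.sum_const,
    Finset.card_univ, nsmul_eq_mul]
  ring

/-- One step down the ladder of sectors. -/
theorem complete_ladder {U : Matrix (Cfg n V) (Cfg n V) ℝ} {d : Cfg n V → ℝ}
    (hE : Eig (kin (fun x y : V => x ≠ y) n) U d) (hU : ∀ η i, tot η ≠ tot i → U η i = 0)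
    {γ : ℝ} (hγ : 0 ≤ γ) (k : ℕ) :
    (∑ i ∈ univ.filter (fun i : Cfg n V => tot i = k + 1), Real.exp (-(γ * d i)))
      ≤ (∑ i ∈ univ.filter (fun i : Cfg n V => tot i = k), Real.exp (-(γ * d i)))
        + ((univ.filter fun i : Cfg n V => tot i = k + 1).card : ℝ) *
            Real.exp (-(γ * (((k + 1 : ℕ) : ℝ) * ((n : ℝ) / 2 * Fintype.card V) / 2))) := by
  set Sm : ℝ := (n : ℝ) / 2 * Fintype.card V with hSm
  set P := totOp V (upR n) with hP
  set Q := totOp V (upR n)ᵀ with hQ
  set Z := totOp V (szR n) with hZ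
  set K := kin (fun x y : V => x ≠ y) n with hK
  set Pz : Cfg n V → Cfg n V → ℝ := fun i => P *ᵥ fun η => U η i with hPz
  have hQT : Pᵀ = Q := totOp_transpose _
  have hPQ : P * Q - Q * P = (2 : ℝ) • Z := by
    rw [hP, hQ, totOp_comm, upR_comm]
    simp only [totOp, atSite_smul, ← Finset.smul_sum, hZ]
  have hZP : Z * P - P * Z = P := by rw [hP, hZ, totOp_comm, szR_upR]
  have hC : cas n V = Q * P + Z * Z + Z := by
    change Z * Z + (1 / 2 : ℝ) • (P * Q + Q * P) = _
    rw [show P * Q = Q * P + (2 : ℝ) • Z from by rw [← hPQ]; abel]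
    module
  have hCP : cas n V * P = P * cas n V := by
    have e1 : P * Z = Z * P - P := by
      have := sub_eq_iff_eq_add.1 hZP
      rw [this]; abel
    have e2 : P * Q = Q * P + (2 : ℝ) • Z := by rw [← hPQ]; abel
    rw [hC, Matrix.mul_add, Matrix.mul_add, ← Matrix.mul_assoc, e2, ← Matrix.mul_assoc P Z Z, e1]
    simp only [Matrix.add_mul, Matrix.sub_mul, Matrix.smul_mul, Matrix.mul_assoc, e1,
      Matrix.mul_sub]
    module
  have hK2 : (2 : ℝ) • K = (Sm * (Sm + 1)) • (1 : Matrix (Cfg n V) (Cfg n V) ℝ) - cas n V :=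
    kin_complete
  have hKP : K * P = P * K := by
    have h2 : ((2 : ℝ) • K) * P = P * ((2 : ℝ) • K) := by
      rw [hK2, Matrix.sub_mul, Matrix.mul_sub, hCP, Matrix.smul_mul, Matrix.mul_smul,
        Matrix.one_mul, Matrix.mul_one]
    rw [Matrix.smul_mul, Matrix.mul_smul] at h2
    exact (smul_right_injective _ (two_ne_zero (α := ℝ))) h2
  have hZu : ∀ i, Z *ᵥ (fun η => U η i) = (Sm - (tot i : ℝ)) • fun η => U η i := by
    intro i; funext η
    rw [hZ, totOp_mulVec_diag]
    by_cases h : tot η = tot i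
    · simp [h, hSm]
    · simp [hU η i h]
  have hsupp : ∀ i, tot i = k + 1 → ∀ η, tot η ≠ k → Pz i η = 0 := by
    intro i hi η hη
    have h1 : Z *ᵥ Pz i = (Sm - (k : ℝ)) • Pz i := by
      have e : Z * P = P * Z + P := by rw [← sub_eq_iff_eq_add'.1 hZP]
      rw [hPz, mulVec_mulVec, e, add_mulVec, ← mulVec_mulVec, hZu, mulVec_smul, hi]
      push_cast
      module
    have h2 := congrFun h1 η
    rw [hZ, totOp_mulVec_diag, Pi.smul_apply, smul_eq_mul, ← hSm] at h2
    have h3 : ((k : ℝ) - (tot η : ℝ)) * Pz i η = 0 := by linarith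
    exact (mul_eq_zero.1 h3).resolve_left (sub_ne_zero.2 (by exact_mod_cast (Ne.symm hη)))
  set c : Cfg n V → ℝ := fun i =>
    Sm * (Sm + 1) - 2 * d i - (Sm - (tot i : ℝ)) ^ 2 - (Sm - (tot i : ℝ)) with hc
  have hdot : ∀ i j, Pz i ⬝ᵥ Pz j = c j * if i = j then 1 else 0 := by
    intro i j
    have e : Pz i ⬝ᵥ Pz j = (fun η => U η i) ⬝ᵥ (Q * P) *ᵥ (fun η => U η j) := by
      rw [← mulVec_mulVec, ← hQT, dotProduct_mulVec _ Pᵀ, vecMul_transpose]
    have e2 : Q * P = (Sm * (Sm + 1)) • (1 : Matrix (Cfg n V) (Cfg n V) ℝ) - (2 : ℝ) • K - Z * Z - Z := by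
      rw [hK2, hC]; abel
    rw [e, e2, sub_mulVec, sub_mulVec, sub_mulVec, smul_mulVec, smul_mulVec, one_mulVec,
      hE.mulVec_col, ← mulVec_mulVec, hZu, mulVec_smul, hZu]
    have : (fun x => d j * U x j) = d j • (fun x => U x j) := rfl
    rw [this]
    simp only [dotProduct_sub, dotProduct_smul, smul_eq_mul, hE.col_dot]
    by_cases hij : i = j
    · subst hij; simp [hc]; ring
    · simp [hij]
  have heig : ∀ i, K *ᵥ Pz i = d i • Pz i := by
    intro i
    rw [hPz, mulVec_mulVec, hKP, ← mulVec_mulVec, hE.mulVec_col,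
      show (fun x => d i * U x i) = d i • (fun x => U x i) from rfl, mulVec_smul]
  have hcnn : ∀ i, 0 ≤ c i := by
    intro i
    have := hdot i i
    rw [if_pos rfl, mul_one] at this
    rw [← this]
    exact Finset.sum_nonneg fun x _ => mul_self_nonneg _
  set A := univ.filter fun i : Cfg n V => tot i = k + 1 with hA
  set A0 := A.filter fun i => c i = 0 with hA0
  set A1 := A.filter fun i => ¬ c i = 0 with hA1
  rw [← Finset.sum_filter_add_sum_filter_not A (fun i => c i = 0), add_comm]
  refine add_le_add ?_ ?_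
  · set w : Cfg n V → Cfg n V → ℝ := fun i => (Real.sqrt (c i))⁻¹ • Pz i with hw
    have horth : ∀ i ∈ A1, ∀ j ∈ A1, w i ⬝ᵥ w j = if i = j then 1 else 0 := by
      intro i hi j hj
      rw [hw, smul_dotProduct, dotProduct_smul, hdot]
      by_cases hij : i = j
      · subst hij
        have h0 : 0 < c i := lt_of_le_of_ne (hcnn i) (Ne.symm (Finset.mem_filter.1 hi).2)
        simp only [if_true, mul_one, smul_eq_mul]
        have := Real.mul_self_sqrt h0.le
        field_simp
        linarith
      · simp [hij]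
    have hsc : ∀ i ∈ A1, ∀ l, l ∉ univ.filter (fun i : Cfg n V => tot i = k) →
        (w i ᵥ* U) l = 0 := by
      intro i hi l hl
      simp only [Finset.mem_filter, Finset.mem_univ, true_and] at hl
      refine Finset.sum_eq_zero fun η _ => ?_
      by_cases h : tot η = k
      · simp [hU η l (fun e => hl (e.symm.trans h))]
      · have : tot i = k + 1 := by
          have := (Finset.mem_filter.1 hi).1
          exact (Finset.mem_filter.1 this).2
        simp [hw, hsupp i this η h]
    have hscaled : Eig (γ • K) U (fun i => γ * d i) := by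
      refine ⟨hE.1, ?_⟩
      rw [show (diagonal fun i => γ * d i) = γ • diagonal d from by rw [← diagonal_smul]; rfl,
        Matrix.mul_smul, Matrix.smul_mul, ← hE.2]
    have hp := hscaled.peierls A1 w (bessel A1 w horth)
      (univ.filter fun i : Cfg n V => tot i = k) hsc
    refine le_trans (le_of_eq (Finset.sum_congr rfl fun i hi => ?_)) hp
    have h1 := horth i hi i hi
    rw [if_pos rfl] at h1
    rw [h1, one_mul, div_one, quad, smul_mulVec, dotProduct_smul, smul_eq_mul]
    have h2 : K *ᵥ w i = d i • w i := by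
      simp only [hw, mulVec_smul, heig]; rw [smul_comm]
    rw [h2, dotProduct_smul, h1]; simp
  · calc ∑ i ∈ A0, Real.exp (-(γ * d i))
        ≤ ∑ _i ∈ A0, Real.exp (-(γ * (((k + 1 : ℕ) : ℝ) * Sm / 2))) := by
          refine Finset.sum_le_sum fun i hi => ?_
          refine Real.exp_le_exp.2 (neg_le_neg (mul_le_mul_of_nonneg_left ?_ hγ))
          obtain ⟨hiA, hc0⟩ := Finset.mem_filter.1 hi
          have hti : tot i = k + 1 := (Finset.mem_filter.1 hiA).2
          have hq : (fun η => U η i) ⬝ᵥ (P * Q) *ᵥ (fun η => U η i)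
              = c i + 2 * (Sm - (tot i : ℝ)) := by
            rw [show P * Q = Q * P + (2 : ℝ) • Z from by rw [← hPQ]; abel, add_mulVec,
              dotProduct_add, smul_mulVec, hZu]
            have := hdot i i
            rw [if_pos rfl, mul_one] at this
            rw [← this, ← mulVec_mulVec, ← hQT, dotProduct_mulVec _ Pᵀ, vecMul_transpose,
              dotProduct_smul, dotProduct_smul, hE.col_dot, if_pos rfl]
            simp only [hPz, smul_eq_mul, mul_one]
          have hpos : 0 ≤ (fun η => U η i) ⬝ᵥ (P * Q) *ᵥ (fun η => U η i) := by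
            rw [← mulVec_mulVec, dotProduct_mulVec]
            have : (fun η => U η i) ᵥ* P = Q *ᵥ fun η => U η i := by
              rw [← hQT, mulVec_transpose]
            rw [this]
            exact Finset.sum_nonneg fun x _ => mul_self_nonneg _
          rw [hq, hc0] at hpos
          simp only [hc] at hc0
          rw [← hti]
          have h0 : (0 : ℝ) ≤ (tot i : ℝ) := Nat.cast_nonneg _
          nlinarith
      _ ≤ (A.card : ℝ) * Real.exp (-(γ * (((k + 1 : ℕ) : ℝ) * Sm / 2))) := by
          rw [Finset.sum_const, nsmul_eq_mul]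
          refine mul_le_mul_of_nonneg_right ?_ (Real.exp_nonneg _)
          exact_mod_cast Finset.card_filter_le A _

end Vale.Agent.P361
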