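import Vale.Agent.P361.Defs
import Vale.Agent.P361.Limit
import Vale.Agent.P361.Casimir

/-!
The pressure of the Heisenberg ferromagnet in terms of magnons.
-/

namespace Vale.Agent.P361

open Matrix Finset Function Filter Topology
open scoped BigOperators

/-- The real-to-complex map. -/
noncomputable abbrev toC : ℝ →+* ℂ := Complex.ofRealHom

theorem spinRaise_eq (n : ℕ) : spinRaise n = (upR n).map toC := by
  ext i j
  simp only [spinRaise, upR, Matrix.of_apply, Matrix.map_apply, toC, Complex.ofRealHom_eq_coe]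
  split_ifs <;> simp

theorem spinComp_two (n : ℕ) : spinComp n 2 = (szR n).map toC := by
  change Matrix.diagonal _ = _
  rw [szR, diagonal_map (map_zero toC)]
  congr 1
  funext i
  simp [toC]

theorem spinComp_zero (n : ℕ) :
    spinComp n 0 = (1 / 2 : ℂ) • (spinRaise n + (spinRaise n)ᵀ) := rfl

theorem spinComp_one (n : ℕ) :
    spinComp n 1 = (1 / (2 * Complex.I)) • (spinRaise n - (spinRaise n)ᵀ) := rfl

theorem spinComp_herm (n : ℕ) (a : Fin 3) : (spinComp n a).IsHermitian := by
  have hU : (spinRaise n)ᴴ = (spinRaise n)ᵀ := by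
    ext i j
    simp only [conjTranspose_apply, transpose_apply, spinRaise, Matrix.of_apply]
    split_ifs <;> simp
  have hU' : ((spinRaise n)ᵀ)ᴴ = spinRaise n := by
    rw [← hU, conjTranspose_conjTranspose]
  unfold Matrix.IsHermitian
  fin_cases a
  · change ((1 / 2 : ℂ) • (spinRaise n + (spinRaise n)ᵀ))ᴴ = _
    rw [conjTranspose_smul, conjTranspose_add, hU, hU', add_comm (spinRaise n)ᵀ]
    congr 1
    simp
  · change ((1 / (2 * Complex.I)) • (spinRaise n - (spinRaise n)ᵀ))ᴴ
      = (1 / (2 * Complex.I)) • (spinRaise n - (spinRaise n)ᵀ)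
    rw [conjTranspose_smul, conjTranspose_sub, hU, hU', ← neg_sub (spinRaise n), smul_neg,
      ← neg_smul]
    congr 1
    simp [neg_div]
  · change (Matrix.diagonal _)ᴴ = Matrix.diagonal _
    rw [diagonal_conjTranspose]
    congr 1
    funext i
    simp [Pi.star_def]

theorem hop_identity {A : Type*} [Ring A] [Algebra ℂ A] (a a' b b' : A) :
    ((1 / 2 : ℂ) • (a + a')) * ((1 / 2 : ℂ) • (b + b'))
      + ((1 / (2 * Complex.I)) • (a - a')) * ((1 / (2 * Complex.I)) • (b - b'))
      = (1 / 2 : ℂ) • (a * b' + a' * b) := by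
  have eI : (1 / (2 * Complex.I)) * (1 / (2 * Complex.I)) = -(1 / 4 : ℂ) := by
    field_simp
    linear_combination (4 : ℂ) * Complex.I_sq
  rw [smul_mul_smul_comm, smul_mul_smul_comm, eI]
  simp only [add_mul, mul_add, sub_mul, mul_sub]
  module

theorem spin_casimir (n : ℕ) :
    ∑ a, spinComp n a * spinComp n a = (((n : ℂ) / 2) * ((n : ℂ) / 2 + 1)) • 1 := by
  have h := congrArg (fun M : Matrix (Fin (n + 1)) (Fin (n + 1)) ℝ => M.map toC) (casimir_site n)
  simp only [Matrix.map_add _ (map_add toC), Matrix.map_mul, Matrix.transpose_map,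
    Matrix.map_smulₛₗ _ toC _ (fun a => map_mul toC _ a),
    Matrix.map_one _ (map_zero toC) (map_one toC), ← spinRaise_eq, ← spinComp_two] at h
  rw [Fin.sum_univ_three]
  have e : (((n : ℂ) / 2) * ((n : ℂ) / 2 + 1)) = toC ((n : ℝ) / 2 * ((n : ℝ) / 2 + 1)) := by
    simp [toC]
  have e2 : toC (1 / 2 : ℝ) = (1 / 2 : ℂ) := by simp [toC]
  rw [e, ← h, e2]
  change ((1 / 2 : ℂ) • (spinRaise n + (spinRaise n)ᵀ)) * ((1 / 2 : ℂ) • (spinRaise n + (spinRaise n)ᵀ))
    + ((1 / (2 * Complex.I)) • (spinRaise n - (spinRaise n)ᵀ))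
      * ((1 / (2 * Complex.I)) • (spinRaise n - (spinRaise n)ᵀ))
    + spinComp n 2 * spinComp n 2 = _
  rw [hop_identity]
  exact add_comm _ _

variable {n N : ℕ}

theorem siteOp_eq (x : {x // x ∈ box N}) (A : Matrix (Fin (n + 1)) (Fin (n + 1)) ℂ) :
    siteOp x A = atSite x A := rfl

theorem map_atSite {V : Type*} [DecidableEq V] [Fintype V] (x : V)
    (A : Matrix (Fin (n + 1)) (Fin (n + 1)) ℝ) :
    (atSite x A : Matrix (Cfg n V) (Cfg n V) ℝ).map toC = atSite x (A.map toC) := by
  ext η η'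
  simp only [Matrix.map_apply, atSite_apply]
  split_ifs <;> simp

theorem exchange_eq (x y : {x // x ∈ box N}) :
    (bond n x y).map toC = (((n : ℂ) / 2) ^ 2) • 1 - exchange n x y := by
  have e1 : toC (((n : ℝ) / 2) ^ 2) = ((n : ℂ) / 2) ^ 2 := by simp [toC]
  have e2 : toC (1 / 2 : ℝ) = (1 / 2 : ℂ) := by simp [toC]
  simp only [bond, Matrix.map_sub _ (map_sub toC), Matrix.map_add _ (map_add toC), Matrix.map_mul,
    Matrix.map_smulₛₗ _ toC _ (fun a => map_mul toC _ a),
    Matrix.map_one _ (map_zero toC) (map_one toC), map_atSite, Matrix.transpose_map, e1, e2,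
    ← spinRaise_eq, ← spinComp_two]
  rw [sub_right_inj]
  rw [exchange, Fin.sum_univ_three]
  simp only [siteOp_eq, spinComp_zero, spinComp_one]
  rw [atSite_smul, atSite_smul, atSite_add, atSite_add, atSite_smul, atSite_smul, atSite_sub,
    atSite_sub, hop_identity]
  exact add_comm _ _

/-- Nearest neighbours in the box. -/
def badj (N : ℕ) (x y : {x // x ∈ box N}) : Prop := (∑ j : Fin 3, |x.1 j - y.1 j|) = 1

instance (N : ℕ) : DecidableRel (badj N) := fun _ _ => inferInstanceAs (Decidable (_ = _))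

/-- The number of ordered nearest-neighbour pairs. -/
noncomputable def bondCount (N : ℕ) : ℝ :=
  ∑ x : {x // x ∈ box N}, ∑ y, if badj N x y then (1 : ℝ) else 0

theorem hamiltonian_eq (n N : ℕ) :
    hamiltonian n N = (kin (badj N) n).map toC
      - ((toC (((n : ℝ) / 2) ^ 2 * bondCount N / 2))) • 1 := by
  have h : (kin (badj N) n).map toC
      = (1 / 2 : ℂ) • ∑ x : {x // x ∈ box N}, ∑ y : {x // x ∈ box N},
          if badj N x y then ((((n : ℂ) / 2) ^ 2) • (1 : Matrix (State n N) (State n N) ℂ)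
            - exchange n x y) else 0 := by
    rw [kin, Matrix.map_smulₛₗ _ toC _ (fun a => map_mul toC _ a)]
    congr 1
    · simp [toC]
    ext η η'
    simp only [Matrix.map_apply, Matrix.sum_apply, map_sum]
    refine Finset.sum_congr rfl fun x _ => Finset.sum_congr rfl fun y _ => ?_
    split_ifs
    · rw [← exchange_eq]; rfl
    · simp
  have hs : ∑ x : {x // x ∈ box N}, ∑ y : {x // x ∈ box N},
      (if badj N x y then ((((n : ℂ) / 2) ^ 2) • (1 : Matrix (State n N) (State n N) ℂ)
            - exchange n x y) else 0)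
      = (((n : ℂ) / 2) ^ 2 * (bondCount N : ℂ)) • (1 : Matrix (State n N) (State n N) ℂ)
        - ∑ x, ∑ y, if badj N x y then exchange n x y else 0 := by
    rw [bondCount]
    push_cast
    rw [Finset.mul_sum, Finset.sum_smul, ← Finset.sum_sub_distrib]
    refine Finset.sum_congr rfl fun x _ => ?_
    rw [Finset.mul_sum, Finset.sum_smul, ← Finset.sum_sub_distrib]
    refine Finset.sum_congr rfl fun y _ => ?_
    split_ifs <;> simp
  rw [h, hs, hamiltonian, smul_sub, smul_smul]
  have : toC (((n : ℝ) / 2) ^ 2 * bondCount N / 2)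
      = 1 / 2 * (((n : ℂ) / 2) ^ 2 * (bondCount N : ℂ)) := by
    simp [toC]; ring
  rw [this]
  simp only [badj]
  abel

theorem magnetization_eq (n N : ℕ) :
    magnetization n N = (toC ((n : ℝ) / 2 * (box N).card)) • (1 : Matrix (State n N) (State n N) ℂ)
      - (potMat n fun _ : {x // x ∈ box N} => (1 : ℝ)).map toC := by
  rw [magnetization]
  simp only [siteOp_eq]
  change ∑ x, atSite x (Matrix.diagonal fun i : Fin (n + 1) => (n : ℂ) / 2 - (i.val : ℂ)) = _
  rw [sum_atSite_diagonal, potMat, diagonal_map (map_zero toC), ← diagonal_one, ← diagonal_smul,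
    diagonal_sub]
  congr 1
  funext η
  simp [toC, Finset.sum_sub_distrib]
  ring

theorem trace_exp_map {ι : Type*} [Fintype ι] [DecidableEq ι] {A : Matrix ι ι ℝ} (hA : A.IsSymm)
    (c : ℝ) :
    ((NormedSpace.exp ((toC c) • (1 : Matrix ι ι ℂ) - A.map toC)).trace).re
      = Real.exp c * Zf A := by
  obtain ⟨U, d, h⟩ := exists_eig hA
  have h1 : (U.map toC)ᵀ * U.map toC = 1 := by
    rw [← Matrix.transpose_map, ← Matrix.map_mul, h.1, Matrix.map_one _ (map_zero toC) (map_one toC)]
  have h2 : U.map toC * (U.map toC)ᵀ = 1 := mul_eq_one_comm.1 h1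
  have e : (toC c) • (1 : Matrix ι ι ℂ) - A.map toC
      = U.map toC * diagonal (fun i => toC (c - d i)) * (U.map toC)⁻¹ := by
    rw [Matrix.inv_eq_right_inv h2]
    rw [show (diagonal fun i => toC (c - d i)) = (toC c) • (1 : Matrix ι ι ℂ) - (diagonal d).map toC
      from by
        rw [diagonal_map (map_zero toC), ← diagonal_one, ← diagonal_smul, diagonal_sub]
        congr 1
        funext i; simp]
    rw [Matrix.mul_sub, Matrix.sub_mul, Matrix.mul_smul, Matrix.mul_one, Matrix.smul_mul, h2,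
      ← Matrix.transpose_map, ← Matrix.map_mul, ← Matrix.map_mul, ← h.2]
  rw [e, Matrix.exp_conj _ _ (IsUnit.of_mul_eq_one _ h2), Matrix.exp_diagonal,
    Matrix.trace_mul_comm, ← Matrix.mul_assoc, Matrix.inv_eq_right_inv h2, h1, Matrix.one_mul,
    trace_diagonal, h.zf, Complex.re_sum, Finset.mul_sum]
  refine Finset.sum_congr rfl fun i _ => ?_
  rw [← Real.exp_add, Pi.coe_exp, ← Complex.exp_eq_exp_ℂ]
  simp only [toC, Complex.ofRealHom_eq_coe, Complex.exp_ofReal_re]
  ring_nf

/-- The box is a cube. -/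
noncomputable def boxEquiv (N : ℕ) : Grid (2 * N + 1) ≃ {x // x ∈ box N} where
  toFun w := ⟨fun j => ((w j).val : ℤ) - N, Fintype.mem_piFinset.2 fun j => by
    rw [Finset.mem_Icc]; have := (w j).isLt; omega⟩
  invFun x := fun j => ⟨(x.1 j + N).toNat, by
    have := Finset.mem_Icc.1 (Fintype.mem_piFinset.1 x.2 j); omega⟩
  left_inv w := by funext j; ext; simp
  right_inv x := by
    refine Subtype.ext (funext fun j => ?_)
    have := Finset.mem_Icc.1 (Fintype.mem_piFinset.1 x.2 j)
    simp only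
    omega

theorem boxEquiv_adj (N : ℕ) (v w : Grid (2 * N + 1)) :
    gadj (2 * N + 1) v w ↔ badj N (boxEquiv N v) (boxEquiv N w) := by
  simp [gadj, badj, boxEquiv]

theorem box_card (N : ℕ) : ((box N).card : ℝ) = ((2 * N + 1 : ℕ) : ℝ) ^ 3 := by
  rw [← Fintype.card_coe, ← Fintype.card_congr (boxEquiv N)]
  simp

theorem bondCount_eq (N : ℕ) :
    bondCount N = 6 * (((2 * N + 1 : ℕ) : ℝ) - 1) * ((2 * N + 1 : ℕ) : ℝ) ^ 2 := by
  rw [← gadj_count (L := 2 * N + 1) (Nat.succ_pos _), bondCount, ← (boxEquiv N).sum_comp]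
  refine Finset.sum_congr rfl fun v _ => ?_
  rw [← (boxEquiv N).sum_comp]
  exact Finset.sum_congr rfl fun w _ => if_congr (boxEquiv_adj N v w).symm rfl rfl

theorem pressureN_eq (n N : ℕ) {β : ℝ} (hβ : β ≠ 0) (h : ℝ) :
    pressureN n N β h = ((n : ℝ) / 2) ^ 2 * bondCount N / 2 / (box N).card + h * ((n : ℝ) / 2)
      + dens n β (β * h) (2 * N + 1) / β := by
  have hirr : ∀ x, ¬ badj N x x := fun x => by simp [badj]
  have e : ((-(β : ℂ)) • (hamiltonian n N - (h : ℂ) • magnetization n N))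
      = (toC (β * (((n : ℝ) / 2) ^ 2 * bondCount N / 2) + β * h * ((n : ℝ) / 2 * (box N).card)))
          • (1 : Matrix (State n N) (State n N) ℂ)
        - (ham (badj N) n β fun _ => β * h).map toC := by
    have hp : (potMat n fun _ : {x // x ∈ box N} => β * h)
        = (β * h) • potMat n fun _ : {x // x ∈ box N} => (1 : ℝ) := by
      simp only [potMat, ← diagonal_smul]
      congr 1
      funext η
      simp [Finset.mul_sum]
    rw [hamiltonian_eq, magnetization_eq, ham, hp, Matrix.map_add _ (map_add toC),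
      Matrix.map_smulₛₗ _ toC _ (fun a => map_mul toC _ a),
      Matrix.map_smulₛₗ _ toC _ (fun a => map_mul toC _ a)]
    simp only [map_add, map_mul, toC, Complex.ofRealHom_eq_coe]
    module
  rw [pressureN, e, trace_exp_map (ham_symm _ hirr β _),
    Real.log_mul (Real.exp_pos _).ne' (zf_pos (ham_symm _ hirr β _)).ne', Real.log_exp]
  change (_ + Real.log (part (badj N) n β fun _ => β * h)) / _ = _
  rw [← part_relabel (boxEquiv N) (badj N) hirr (gadj (2 * N + 1)) (boxEquiv_adj N) β
    (fun _ => β * h) (fun _ => β * h) fun _ => rfl, dens, ← box_card]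
  have hc : ((box N).card : ℝ) ≠ 0 := by rw [box_card]; positivity
  field_simp

/-- The infinite-volume pressure. -/
noncomputable def press (n : ℕ) (β h : ℝ) : ℝ :=
  3 * ((n : ℝ) / 2) ^ 2 + h * ((n : ℝ) / 2) + phi n β (β * h) / β

theorem tendsto_pressureN (n : ℕ) {β : ℝ} (hβ : 0 < β) (h : ℝ) :
    Tendsto (fun N => pressureN n N β h) atTop (𝓝 (press n β h)) := by
  simp only [pressureN_eq n _ hβ.ne' h]
  have hL : Tendsto (fun N : ℕ => 2 * N + 1) atTop atTop :=
    tendsto_atTop_mono (fun N => by simp only [id]; omega) tendsto_id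
  refine ((Tendsto.add ?_ tendsto_const_nhds).add
    (((tendsto_dens n hβ.le (β * h)).comp hL).div_const β))
  have hd : Tendsto (fun N : ℕ => 3 * ((n : ℝ) / 2) ^ 2 * (1 - 1 / ((2 * N + 1 : ℕ) : ℝ))) atTop
      (𝓝 (3 * ((n : ℝ) / 2) ^ 2 * (1 - 0))) :=
    ((tendsto_const_nhds.div_atTop (tendsto_natCast_atTop_atTop.comp hL)).const_sub 1).const_mul _
  rw [sub_zero, mul_one] at hd
  refine hd.congr fun N => ?_
  rw [bondCount_eq, box_card]
  field_simp
  ring

theorem press_convex (n : ℕ) {β : ℝ} (hβ : 0 < β) : ConvexOn ℝ Set.univ (press n β) := by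
  refine ⟨convex_univ, fun x _ y _ a b ha hb hab => ?_⟩
  have h := (phi_convex n hβ.le).2 (Set.mem_univ (β * x)) (Set.mem_univ (β * y)) ha hb hab
  simp only [smul_eq_mul] at h ⊢
  simp only [press]
  rw [show β * (a * x + b * y) = a * (β * x) + b * (β * y) from by ring]
  have h2 := div_le_div_of_nonneg_right h hβ.le
  rw [add_div, mul_div_assoc, mul_div_assoc] at h2
  have h3 : (3 * ((n : ℝ) / 2) ^ 2) = a * (3 * ((n : ℝ) / 2) ^ 2) + b * (3 * ((n : ℝ) / 2) ^ 2) := by
    rw [← add_mul, hab, one_mul]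
  linarith

end Vale.Agent.P361
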