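import Vale.Agent.P361.Free
import Mathlib.Analysis.Calculus.Deriv.MeanValue
import Mathlib.Analysis.Calculus.Deriv.Pow
import Mathlib.Analysis.SpecialFunctions.ExpDeriv

/-!
Two magnons are rarely next to each other in a state of low energy.
-/

namespace Vale.Agent.P361

open Matrix Finset Function Set
open scoped BigOperators

theorem hasDerivAt_negPart_sq (t : ℝ) :
    HasDerivAt (fun t : ℝ => (min t 0) ^ 2) (2 * min t 0) t := by
  rcases lt_trichotomy t 0 with h | h | h
  · rw [min_eq_left h.le]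
    have := (hasDerivAt_id t).pow 2
    simp only [id, Nat.cast_ofNat, Nat.add_one_sub_one, pow_one, mul_one] at this
    refine this.congr_of_eventuallyEq ?_
    filter_upwards [Iio_mem_nhds h] with u hu
    rw [min_eq_left (le_of_lt hu)]; simp
  · subst h
    rw [min_self, mul_zero, ← hasDerivWithinAt_univ, ← Set.Iic_union_Ici (a := (0 : ℝ))]
    refine HasDerivWithinAt.union ?_ ?_
    · have := ((hasDerivAt_id (0:ℝ)).pow 2).hasDerivWithinAt (s := Set.Iic 0)
      simp only [id, Nat.cast_ofNat, Nat.add_one_sub_one, pow_one, mul_one, mul_zero] at this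
      exact this.congr (fun u hu => by simp [min_eq_left (Set.mem_Iic.1 hu)]) (by simp)
    · exact (hasDerivWithinAt_const (0:ℝ) (Set.Ici 0) (0:ℝ)).congr
        (fun u hu => by simp [min_eq_right (Set.mem_Ici.1 hu)]) (by simp)
  · rw [min_eq_right h.le, mul_zero]
    refine (hasDerivAt_const t (0 : ℝ)).congr_of_eventuallyEq ?_
    filter_upwards [Ioi_mem_nhds h] with u hu
    rw [min_eq_right (le_of_lt hu)]; simp

variable {V : Type*} [Fintype V] [DecidableEq V] (adj : V → V → Prop) [DecidableRel adj] (n : ℕ)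

/-- Solutions of the heat equation of the one-magnon Laplacian. -/
def IsHeat (h : ℝ → V → ℝ) : Prop :=
  ∀ s x, HasDerivAt (fun s => h s x) (-((lapG adj n *ᵥ h s) x)) s

theorem sum_adj_symm (hsym : ∀ x y, adj x y → adj y x) (G : V → V → ℝ) :
    (∑ x, ∑ y, if adj x y then G x y else 0) = ∑ x, ∑ y, if adj x y then G y x else 0 := by
  rw [Finset.sum_comm]
  exact Finset.sum_congr rfl fun x _ => Finset.sum_congr rfl fun y _ =>
    if_congr ⟨hsym _ _, hsym _ _⟩ rfl rfl

theorem heat_nonneg (hsym : ∀ x y, adj x y → adj y x) {h : ℝ → V → ℝ} (hh : IsHeat adj n h)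
    (h0 : ∀ x, 0 ≤ h 0 x) {s : ℝ} (hs : 0 ≤ s) (x : V) : 0 ≤ h s x := by
  set m : ℝ → ℝ := fun s => ∑ x, (min (h s x) 0) ^ 2 with hm
  have hd : ∀ s, HasDerivAt m (∑ x, 2 * min (h s x) 0 * -((lapG adj n *ᵥ h s) x)) s := fun s =>
    HasDerivAt.fun_sum fun x _ => by
      have hc : HasDerivAt ((fun t : ℝ => (min t 0) ^ 2) ∘ fun s => h s x) _ s :=
        (hasDerivAt_negPart_sq (h s x)).comp s (hh s x)
      exact hc
  have hneg : ∀ s, (∑ x, 2 * min (h s x) 0 * -((lapG adj n *ᵥ h s) x)) ≤ 0 := by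
    intro s
    set G : V → V → ℝ := fun x y => min (h s x) 0 * (h s x - h s y) with hG
    have e : (∑ x, 2 * min (h s x) 0 * -((lapG adj n *ᵥ h s) x))
        = -(n : ℝ) * ∑ x, ∑ y, if adj x y then G x y else 0 := by
      rw [Finset.mul_sum]
      refine Finset.sum_congr rfl fun x _ => ?_
      rw [lapG_mulVec, Finset.mul_sum, ← Finset.sum_neg_distrib, Finset.mul_sum, Finset.mul_sum]
      exact Finset.sum_congr rfl fun y _ => by simp only [hG]; split_ifs <;> ring
    have hpos : 0 ≤ ∑ x, ∑ y, if adj x y then G x y else 0 := by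
      have hs2 : 0 ≤ ∑ x, ∑ y, if adj x y then G x y + G y x else 0 := by
        refine Finset.sum_nonneg fun x _ => Finset.sum_nonneg fun y _ => ?_
        split_ifs
        · have e2 : G x y + G y x = (min (h s x) 0 - min (h s y) 0) * (h s x - h s y) := by
            simp only [hG]; ring
          rw [e2]
          rcases le_total (h s x) (h s y) with h' | h'
          · exact mul_nonneg_of_nonpos_of_nonpos (sub_nonpos.2 (min_le_min_right 0 h'))
              (sub_nonpos.2 h')
          · exact mul_nonneg (sub_nonneg.2 (min_le_min_right 0 h')) (sub_nonneg.2 h')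
        · exact le_rfl
      have e3 : (∑ x, ∑ y, if adj x y then G x y + G y x else 0)
          = (∑ x, ∑ y, if adj x y then G x y else 0) + ∑ x, ∑ y, if adj x y then G y x else 0 := by
        rw [← Finset.sum_add_distrib]
        refine Finset.sum_congr rfl fun x _ => ?_
        rw [← Finset.sum_add_distrib]
        exact Finset.sum_congr rfl fun y _ => by split_ifs <;> simp
      rw [e3, ← sum_adj_symm adj hsym G] at hs2
      linarith
    rw [e]
    exact mul_nonpos_of_nonpos_of_nonneg (neg_nonpos.2 (Nat.cast_nonneg n)) hpos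
  have hanti : Antitone m := antitone_of_hasDerivAt_nonpos hd hneg
  have h00 : m 0 = 0 := Finset.sum_eq_zero fun x _ => by simp [min_eq_right (h0 x)]
  have h1 : m s ≤ 0 := h00 ▸ hanti hs
  have h2 := (Finset.sum_eq_zero_iff_of_nonneg fun x _ => sq_nonneg (min (h s x) 0)).1
    (le_antisymm h1 (Finset.sum_nonneg fun x _ => sq_nonneg _)) x (Finset.mem_univ x)
  exact min_eq_right_iff.1 (pow_eq_zero_iff two_ne_zero |>.1 h2)

variable {n}

/-- `∑_{u ≠ v} h_u h_v` over ordered pairs of magnons. -/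
def pairD (h : V → ℝ) (η : Cfg n V) : ℝ :=
  (∑ x, h x * ((η x).val : ℝ)) ^ 2 - ∑ x, h x ^ 2 * ((η x).val : ℝ)

omit [DecidableEq V] in
theorem pairD_nonneg {h : V → ℝ} (h0 : ∀ x, 0 ≤ h x) (η : Cfg n V) : 0 ≤ pairD h η := by
  rw [pairD, sub_nonneg, sq, Finset.sum_mul]
  refine Finset.sum_le_sum fun x _ => ?_
  have hle : h x * ((η x).val : ℝ) ≤ ∑ y, h y * ((η y).val : ℝ) :=
    Finset.single_le_sum (f := fun y => h y * ((η y).val : ℝ))
      (fun y _ => mul_nonneg (h0 y) (Nat.cast_nonneg _)) (Finset.mem_univ x)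
  rcases Nat.eq_zero_or_pos (η x).val with hz | hz
  · simp [hz]
  · have h1 : (1 : ℝ) ≤ (η x).val := by exact_mod_cast hz
    have h2 := mul_nonneg (h0 x) (Nat.cast_nonneg (α := ℝ) (η x).val)
    nlinarith [mul_le_mul_of_nonneg_left hle h2, mul_nonneg (mul_nonneg (h0 x) h2) (sub_nonneg.2 h1)]

omit [DecidableEq V] in
theorem pairD_le {h : V → ℝ} {B : ℝ} (h0 : ∀ x, 0 ≤ h x) (hB : ∀ x, h x ≤ B) {k : ℕ}
    {η : Cfg n V} (ht : tot η = k) : pairD h η ≤ (k : ℝ) ^ 2 * B ^ 2 := by
  have h1 : ∑ x, h x * ((η x).val : ℝ) ≤ (k : ℝ) * B := by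
    rw [← ht, tot, Nat.cast_sum, Finset.sum_mul]
    exact Finset.sum_le_sum fun x _ => by
      rw [mul_comm]; exact mul_le_mul_of_nonneg_left (hB x) (Nat.cast_nonneg _)
  have h2 : 0 ≤ ∑ x, h x * ((η x).val : ℝ) :=
    Finset.sum_nonneg fun x _ => mul_nonneg (h0 x) (Nat.cast_nonneg _)
  have h3 : 0 ≤ ∑ x, h x ^ 2 * ((η x).val : ℝ) :=
    Finset.sum_nonneg fun x _ => mul_nonneg (sq_nonneg _) (Nat.cast_nonneg _)
  rw [pairD]
  nlinarith [pow_le_pow_left₀ h2 h1 2]

theorem sum_mv {x y : V} (hxy : x ≠ y) {η : Cfg n V} (hc : Can x y η) (g : V → ℝ) :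
    ∑ z, g z * ((mv x y η z).val : ℝ) = (∑ z, g z * ((η z).val : ℝ)) + g y - g x := by
  obtain ⟨h1, h2⟩ := hc
  have e : ∀ z, ((mv x y η z).val : ℝ)
      = ((η z).val : ℝ) + (if z = y then 1 else 0) - (if z = x then 1 else 0) := by
    intro z
    by_cases hx : z = x
    · subst hx
      rw [mv_apply_src hxy, if_neg hxy, if_pos rfl]
      simp only [dec]; rw [Nat.cast_sub (by omega)]; simp
    · by_cases hy : z = y
      · subst hy
        rw [mv_apply_dst, if_pos rfl, if_neg hx]
        simp only [inc]; rw [min_eq_left (by omega : (η z).val + 1 ≤ n)]; simp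
      · rw [mv_apply_other hx hy, if_neg hy, if_neg hx]; simp
  simp only [e, mul_add, mul_sub, Finset.sum_add_distrib, Finset.sum_sub_distrib, mul_ite, mul_one,
    mul_zero, Finset.sum_ite_eq', Finset.mem_univ, if_true]

/-- Duality: the pair functions are sub-solutions. -/
theorem pairD_generator (hirr : ∀ x, ¬ adj x x) (hsym : ∀ x y, adj x y → adj y x) (h : V → ℝ)
    (η : Cfg n V) :
    (1 / 2 * ∑ x, ∑ y, if adj x y then rate x y η * (pairD h (mv x y η) - pairD h η) else 0)
      ≤ 2 * (∑ x, h x * ((η x).val : ℝ)) * (∑ x, (-((lapG adj n *ᵥ h) x)) * ((η x).val : ℝ))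
        - ∑ x, 2 * h x * (-((lapG adj n *ᵥ h) x)) * ((η x).val : ℝ) := by
  set S := ∑ x, h x * ((η x).val : ℝ) with hS
  set P : V → V → ℝ := fun x y => 1 / 2 * (rate x y η *
    (2 * S * (h y - h x) + (h y - h x) ^ 2 + (h x ^ 2 - h y ^ 2))) with hP
  set Q : V → V → ℝ := fun x y =>
    (n : ℝ) * (((η x).val : ℝ) * ((h y - h x) * (S - h x))) with hQ
  have hL : (1 / 2 * ∑ x, ∑ y, if adj x y then rate x y η * (pairD h (mv x y η) - pairD h η) else 0)
      = ∑ x, ∑ y, if adj x y then P x y else 0 := by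
    rw [Finset.mul_sum]
    refine Finset.sum_congr rfl fun x _ => ?_
    rw [Finset.mul_sum]
    refine Finset.sum_congr rfl fun y _ => ?_
    split_ifs with ha
    · simp only [hP]
      by_cases hc : Can x y η
      · have hxy : x ≠ y := fun e => hirr x (e.symm ▸ ha)
        rw [pairD, pairD, sum_mv hxy hc h, sum_mv hxy hc fun z => h z ^ 2, ← hS]
        ring
      · rw [rate_eq_zero hc]; ring
    · ring
  have hR : 2 * S * (∑ x, (-((lapG adj n *ᵥ h) x)) * ((η x).val : ℝ))
        - ∑ x, 2 * h x * (-((lapG adj n *ᵥ h) x)) * ((η x).val : ℝ)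
      = ∑ x, ∑ y, if adj x y then Q x y else 0 := by
    rw [Finset.mul_sum, ← Finset.sum_sub_distrib]
    refine Finset.sum_congr rfl fun x _ => ?_
    rw [lapG_mulVec]
    simp only [Finset.mul_sum, Finset.sum_mul, ← Finset.sum_neg_distrib, ← Finset.sum_sub_distrib]
    exact Finset.sum_congr rfl fun y _ => by simp only [hQ]; split_ifs <;> ring
  rw [hL, hR]
  have hP2 := sum_adj_symm adj hsym P
  have hQ2 := sum_adj_symm adj hsym Q
  have key : ((∑ x, ∑ y, if adj x y then P x y else 0) + ∑ x, ∑ y, if adj x y then P y x else 0)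
      ≤ (∑ x, ∑ y, if adj x y then Q x y else 0) + ∑ x, ∑ y, if adj x y then Q y x else 0 := by
    rw [← Finset.sum_add_distrib, ← Finset.sum_add_distrib]
    refine Finset.sum_le_sum fun x _ => ?_
    rw [← Finset.sum_add_distrib, ← Finset.sum_add_distrib]
    refine Finset.sum_le_sum fun y _ => ?_
    split_ifs
    · have hid : P x y + P y x = Q x y + Q y x
          - ((η x).val : ℝ) * ((η y).val : ℝ) * (h y - h x) ^ 2 := by
        simp only [hP, hQ, rate]; ring
      have : 0 ≤ ((η x).val : ℝ) * ((η y).val : ℝ) * (h y - h x) ^ 2 := by positivity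
      linarith
    · exact le_rfl
  linarith

theorem pair_monotone (hirr : ∀ x, ¬ adj x x) (hsym : ∀ x y, adj x y → adj y x)
    {ψ : Cfg n V → ℝ} {E : ℝ} (hψ : kin adj n *ᵥ ψ = E • ψ) {h : ℝ → V → ℝ}
    (hh : IsHeat adj n h) (h0 : ∀ x, 0 ≤ h 0 x) {s : ℝ} (hs : 0 ≤ s) :
    ∑ η, ψ η ^ 2 * pairD (h 0) η ≤ Real.exp (2 * E * s) * ∑ η, ψ η ^ 2 * pairD (h s) η := by
  set a : ℝ → ℝ := fun s => ∑ η, ψ η ^ 2 * pairD (h s) η with ha
  set a' : ℝ → ℝ := fun s => ∑ η : Cfg n V, ψ η ^ 2 *
    (2 * (∑ x, h s x * ((η x).val : ℝ)) * (∑ x, (-((lapG adj n *ᵥ h s) x)) * ((η x).val : ℝ))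
        - ∑ x, 2 * h s x * (-((lapG adj n *ᵥ h s) x)) * ((η x).val : ℝ)) with ha'
  have hd : ∀ s, HasDerivAt a (a' s) s := by
    intro s
    refine HasDerivAt.fun_sum fun η _ => ?_
    refine HasDerivAt.const_mul _ ?_
    have d1 : HasDerivAt (fun s => ∑ x, h s x * ((η x).val : ℝ))
        (∑ x, (-((lapG adj n *ᵥ h s) x)) * ((η x).val : ℝ)) s :=
      HasDerivAt.fun_sum fun x _ => (hh s x).mul_const _
    have d2 : HasDerivAt (fun s => ∑ x, h s x ^ 2 * ((η x).val : ℝ))
        (∑ x, 2 * h s x * (-((lapG adj n *ᵥ h s) x)) * ((η x).val : ℝ)) s :=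
      HasDerivAt.fun_sum fun x _ => by
        simpa using ((hh s x).fun_pow 2).mul_const ((η x).val : ℝ)
    simpa [pairD] using (d1.fun_pow 2).fun_sub d2
  have hkey : ∀ s, 0 ≤ s → 0 ≤ a' s + 2 * E * a s := by
    intro s hs
    set D : Cfg n V → ℝ := pairD (h s) with hD
    have hD0 : ∀ η, 0 ≤ D η := fun η =>
      pairD_nonneg (fun x => heat_nonneg adj n hsym hh h0 hs x) η
    set G : V → V → ℝ := fun x y => ∑ η, rate x y η * (D η - D (mv x y η)) * ψ η ^ 2 with hG
    have h1 : E * a s = 1 / 4 * ∑ x, ∑ y,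
        if adj x y then transForm x y ψ (fun η => D η * ψ η) else 0 := by
      rw [← kin_form adj hirr, hψ, dotProduct_smul, smul_eq_mul, dotProduct]
      simp only [ha, ← hD]
      congr 1
      exact Finset.sum_congr rfl fun η _ => by ring
    have h2 : ∀ x y, adj x y → G x y + G y x ≤ 2 * transForm x y ψ (fun η => D η * ψ η) := by
      intro x y hxy'
      have hxy : x ≠ y := fun e => hirr x (e.symm ▸ hxy')
      have e1 : G y x = ∑ η, if Can x y η then
          rate' x y η * (D (mv x y η) - D η) * ψ (mv x y η) ^ 2 else 0 := by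
        calc G y x = ∑ η, if Can y x η then rate y x η * (D η - D (mv y x η)) * ψ η ^ 2 else 0 :=
              Finset.sum_congr rfl fun η _ => by
                split_ifs with hc
                · rfl
                · simp [rate_eq_zero hc]
          _ = _ := sum_can_swap (Ne.symm hxy) fun p q => rate y x p * (D p - D q) * ψ p ^ 2
          _ = _ := Finset.sum_congr rfl fun η _ => by
              split_ifs with hc
              · rw [rate_mv hxy hc]
              · rfl
      rw [e1, transForm, Finset.mul_sum]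
      simp only [hG, ← Finset.sum_add_distrib]
      refine Finset.sum_le_sum fun η _ => ?_
      split_ifs with hc
      · have s1 := Real.sq_sqrt (rate_nonneg x y η)
        have s2 := Real.sq_sqrt (rate'_nonneg x y η)
        set A := Real.sqrt (rate x y η)
        set B := Real.sqrt (rate' x y η)
        set g := ψ η
        set g' := ψ (mv x y η)
        set d := D η
        set d' := D (mv x y η)
        have e2 : 2 * ((A * g - B * g') * (A * (d * g) - B * (d' * g')))
            = (d + d') * (A * g - B * g') ^ 2 + A ^ 2 * (d - d') * g ^ 2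
              + B ^ 2 * (d' - d) * g' ^ 2 := by ring
        have e3 : 0 ≤ (d + d') * (A * g - B * g') ^ 2 :=
          mul_nonneg (add_nonneg (hD0 _) (hD0 _)) (sq_nonneg _)
        rw [← s1, ← s2]
        linarith
      · simp [rate_eq_zero hc]
    have h3 : ∑ x, ∑ y, (if adj x y then G x y else 0)
        ≤ ∑ x, ∑ y, if adj x y then transForm x y ψ (fun η => D η * ψ η) else 0 := by
      have := sum_adj_symm adj hsym G
      have h4 : (∑ x, ∑ y, if adj x y then G x y else 0) + ∑ x, ∑ y, (if adj x y then G y x else 0)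
          ≤ ∑ x, ∑ y, 2 * if adj x y then transForm x y ψ (fun η => D η * ψ η) else 0 := by
        rw [← Finset.sum_add_distrib]
        refine Finset.sum_le_sum fun x _ => ?_
        rw [← Finset.sum_add_distrib]
        refine Finset.sum_le_sum fun y _ => ?_
        split_ifs with hxy
        · exact h2 x y hxy
        · simp
      simp only [← Finset.mul_sum] at h4
      linarith
    have h5 : -(a' s) ≤ 1 / 2 * ∑ x, ∑ y, if adj x y then G x y else 0 := by
      have e : (1 / 2 * ∑ x, ∑ y, if adj x y then G x y else 0) = -∑ η, ψ η ^ 2 *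
          (1 / 2 * ∑ x, ∑ y, if adj x y then rate x y η * (D (mv x y η) - D η) else 0) := by
        simp only [Finset.mul_sum, ← Finset.sum_neg_distrib]
        rw [Finset.sum_comm (s := (Finset.univ : Finset (Cfg n V)))]
        refine Finset.sum_congr rfl fun x _ => ?_
        rw [Finset.sum_comm (s := (Finset.univ : Finset (Cfg n V)))]
        refine Finset.sum_congr rfl fun y _ => ?_
        split_ifs
        · simp only [hG, Finset.mul_sum]
          exact Finset.sum_congr rfl fun η _ => by ring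
        · simp
      rw [e, neg_le_neg_iff]
      exact Finset.sum_le_sum fun η _ => mul_le_mul_of_nonneg_left
        (pairD_generator adj hirr hsym (h s) η) (sq_nonneg _)
    linarith
  have hg : ∀ s, HasDerivAt (fun s => Real.exp (2 * E * s) * a s)
      (Real.exp (2 * E * s) * (a' s + 2 * E * a s)) s := by
    intro s
    have h1 := (((hasDerivAt_id s).const_mul (2 * E)).exp).fun_mul (hd s)
    refine h1.congr_deriv ?_
    simp only [id]
    ring
  have hmono : MonotoneOn (fun s => Real.exp (2 * E * s) * a s) (Set.Ici 0) :=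
    monotoneOn_of_hasDerivWithinAt_nonneg (convex_Ici 0)
      (fun t _ => (hg t).continuousAt.continuousWithinAt)
      (fun t _ => (hg t).hasDerivWithinAt)
      (fun t ht => mul_nonneg (Real.exp_nonneg _) (hkey t (interior_subset ht)))
  simpa using hmono (Set.self_mem_Ici) (Set.mem_Ici.2 hs) hs

/-- The pair bound. -/
theorem pairP_le (hirr : ∀ x, ¬ adj x x) (hsym : ∀ x y, adj x y → adj y x)
    {ψ : Cfg n V → ℝ} {E : ℝ} (hψ : kin adj n *ᵥ ψ = E • ψ) {k : ℕ}
    (hk : ∀ η, tot η ≠ k → ψ η = 0) {x y : V} (hxy : x ≠ y) {h : ℝ → V → ℝ}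
    (hh : IsHeat adj n h) (hi : ∀ z, h 0 z = if z = x ∨ z = y then 1 else 0) {s B : ℝ}
    (hs : 0 ≤ s) (hB : ∀ z, h s z ≤ B) :
    pairP x y ψ ≤ Real.exp (2 * E * s) * ((k : ℝ) ^ 2 * B ^ 2) * (ψ ⬝ᵥ ψ) / 2 := by
  have h0 : ∀ z, 0 ≤ h 0 z := fun z => by rw [hi]; split_ifs <;> norm_num
  have h1 := pair_monotone adj hirr hsym hψ hh h0 hs
  have h2 : ∑ η, ψ η ^ 2 * pairD (h s) η ≤ (k : ℝ) ^ 2 * B ^ 2 * (ψ ⬝ᵥ ψ) := by
    rw [dotProduct, Finset.mul_sum]
    refine Finset.sum_le_sum fun η _ => ?_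
    by_cases ht : tot η = k
    · have := pairD_le (fun z => heat_nonneg adj n hsym hh h0 hs z) hB ht
      nlinarith [sq_nonneg (ψ η)]
    · simp [hk η ht]
  have h3 : 2 * pairP x y ψ ≤ ∑ η, ψ η ^ 2 * pairD (h 0) η := by
    rw [pairP, Finset.mul_sum]
    refine Finset.sum_le_sum fun η _ => ?_
    split_ifs with hp
    · have e : ∀ (g : V → ℝ), (∀ z, g z = if z = x ∨ z = y then 1 else 0) →
          ∑ z, g z * ((η z).val : ℝ) = ((η x).val : ℝ) + ((η y).val : ℝ) := by
        intro g hg
        have : ∀ z, g z = (if z = x then 1 else 0) + (if z = y then 1 else 0) := by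
          intro z; rw [hg]
          by_cases hx : z = x
          · subst hx; simp [hxy]
          · simp [hx]
        simp [this, add_mul, Finset.sum_add_distrib]
      have e2 : ∀ z, h 0 z ^ 2 = if z = x ∨ z = y then 1 else 0 := fun z => by
        rw [hi]; split_ifs <;> norm_num
      rw [pairD, e (h 0) hi, e (fun z => h 0 z ^ 2) e2]
      have : (2 : ℝ) ≤ ((η x).val : ℝ) + ((η y).val : ℝ) := by exact_mod_cast hp
      have : (2 : ℝ) ≤ (((η x).val : ℝ) + ((η y).val : ℝ)) ^ 2
          - (((η x).val : ℝ) + ((η y).val : ℝ)) := by nlinarith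
      nlinarith [sq_nonneg (ψ η)]
    · rw [mul_zero]
      exact mul_nonneg (sq_nonneg _) (pairD_nonneg h0 η)
  have h4 := mul_le_mul_of_nonneg_left h2 (Real.exp_nonneg (2 * E * s))
  linarith

end Vale.Agent.P361
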