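import Vale.Agent.P361.Path
import Vale.Agent.P361.Pairs

/-!
Cubes and their one-magnon modes.
-/

namespace Vale.Agent.P361

open Matrix Finset Function
open scoped BigOperators

/-- Sites of a cube of side `L`. -/
abbrev Grid (L : ℕ) : Type := Fin 3 → Fin L

/-- Nearest neighbours in a cube. -/
def gadj (L : ℕ) (x y : Grid L) : Prop := (∑ j, |((x j).val : ℤ) - (y j).val|) = 1

instance (L : ℕ) : DecidableRel (gadj L) := fun x y =>
  inferInstanceAs (Decidable (_ = _))

theorem gadj_irrefl (L : ℕ) (x : Grid L) : ¬ gadj L x x := by simp [gadj]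

theorem gadj_symm {L : ℕ} (x y : Grid L) (h : gadj L x y) : gadj L y x := by
  simp only [gadj] at h ⊢
  rw [← h]
  exact Finset.sum_congr rfl fun j _ => abs_sub_comm _ _

theorem gadj_indicator {L : ℕ} (x y : Grid L) :
    (if gadj L x y then (1 : ℝ) else 0) = ∑ j : Fin 3, atSite j (adj1 L) x y := by
  by_cases h : gadj L x y
  · rw [if_pos h]
    obtain ⟨j, hj⟩ : ∃ j, x j ≠ y j := by
      by_contra hc
      push Not at hc
      exact gadj_irrefl L y (by rwa [show x = y from funext hc] at h)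
    have h1 : (1 : ℤ) ≤ |((x j).val : ℤ) - (y j).val| := by
      have : ((x j).val : ℤ) - (y j).val ≠ 0 := fun e => hj (Fin.ext (by omega))
      exact Int.one_le_abs this
    simp only [gadj, ← Finset.add_sum_erase _ _ (Finset.mem_univ j)] at h
    have h2 : 0 ≤ ∑ i ∈ univ.erase j, |((x i).val : ℤ) - (y i).val| :=
      Finset.sum_nonneg fun i _ => abs_nonneg _
    have h3 : |((x j).val : ℤ) - (y j).val| = 1 := by omega
    have h4 : ∀ i, i ≠ j → x i = y i := by
      intro i hi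
      have h5 := (Finset.sum_eq_zero_iff_of_nonneg fun i _ => abs_nonneg _).1
        (show ∑ i ∈ univ.erase j, |((x i).val : ℤ) - (y i).val| = 0 by omega) i
        (Finset.mem_erase.2 ⟨hi, Finset.mem_univ _⟩)
      exact Fin.ext (by have := abs_eq_zero.1 h5; omega)
    rw [Finset.sum_eq_single j]
    · rw [atSite_apply, if_pos h4]
      simp only [adj1, Matrix.of_apply]
      rw [if_pos]
      rcases (abs_eq (by norm_num : (0:ℤ) ≤ 1)).1 h3 with h6 | h6 <;> omega
    · intro i _ hi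
      rw [atSite_apply, if_neg]
      intro hh
      exact hj (hh j (Ne.symm hi))
    · simp
  · rw [if_neg h]
    symm
    refine Finset.sum_eq_zero fun j _ => ?_
    rw [atSite_apply]
    split_ifs with h1
    · simp only [adj1, Matrix.of_apply]
      rw [if_neg]
      intro h2
      apply h
      simp only [gadj]
      rw [Finset.sum_eq_single j]
      · rcases h2 with h2 | h2
        · rw [show ((x j).val : ℤ) - (y j).val = -1 by omega]; rfl
        · rw [show ((x j).val : ℤ) - (y j).val = 1 by omega]; rfl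
      · intro i _ hi
        rw [h1 i hi]; simp
      · simp
    · rfl

theorem gadj_deg {L : ℕ} (x : Grid L) :
    (∑ y, if gadj L x y then (1 : ℝ) else 0) = ∑ j : Fin 3, ∑ b, adj1 L (x j) b := by
  simp only [gadj_indicator]
  rw [Finset.sum_comm]
  refine Finset.sum_congr rfl fun j _ => ?_
  have h := atSite_mulVec (ι := fun _ : Fin 3 => Fin L) j (adj1 L) (fun _ => (1:ℝ)) x
  simpa [mulVec, dotProduct] using h

theorem adj1_deg {L : ℕ} (a : Fin L) :
    ∑ b, adj1 L a b = (if a.val + 1 < L then (1:ℝ) else 0) + (if 0 < a.val then 1 else 0) := by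
  have e : ∀ b : Fin L, adj1 L a b
      = (if a.val + 1 = b.val then 1 else 0) + (if b.val + 1 = a.val then 1 else 0) := by
    intro b
    simp only [adj1, Matrix.of_apply]
    split_ifs <;> first | (exfalso; omega) | simp
  rw [Finset.sum_congr rfl fun b _ => e b, Finset.sum_add_distrib]
  congr 1
  · by_cases h : a.val + 1 < L
    · rw [if_pos h, Finset.sum_eq_single ⟨a.val + 1, h⟩] <;> simp [Fin.ext_iff, eq_comm]
    · rw [if_neg h]; exact Finset.sum_eq_zero fun b _ => if_neg (by omega)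
  · by_cases h : 0 < a.val
    · rw [if_pos h, Finset.sum_eq_single ⟨a.val - 1, by omega⟩]
      · rw [if_pos (by simp only; omega)]
      · exact fun b _ hb => if_neg fun e => hb (Fin.ext (by simp only; omega))
      · simp
    · rw [if_neg h]; exact Finset.sum_eq_zero fun b _ => if_neg (by omega)

theorem gadj_deg_le {L : ℕ} (x : Grid L) : (univ.filter fun y => gadj L x y).card ≤ 6 := by
  have h := gadj_deg x
  rw [Finset.sum_boole] at h
  have : ((univ.filter fun y => gadj L x y).card : ℝ) ≤ 6 := by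
    rw [h]
    calc (∑ j : Fin 3, ∑ b, adj1 L (x j) b) ≤ ∑ _j : Fin 3, (2 : ℝ) := by
          refine Finset.sum_le_sum fun j _ => ?_
          rw [adj1_deg]; split_ifs <;> norm_num
      _ = 6 := by norm_num
  exact_mod_cast this

theorem sum_coord {L : ℕ} (j : Fin 3) (g : Fin L → ℝ) :
    ∑ x : Grid L, g (x j) = (L : ℝ) ^ 2 * ∑ a, g a := by
  rw [← (Equiv.funSplitAt j (Fin L)).symm.sum_comp, Fintype.sum_prod_type, Finset.mul_sum]
  refine Finset.sum_congr rfl fun a _ => ?_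
  simp [Equiv.funSplitAt, Equiv.piSplitAt]

theorem gadj_count {L : ℕ} (hL : 0 < L) :
    (∑ x : Grid L, ∑ y, if gadj L x y then (1 : ℝ) else 0) = 6 * ((L : ℝ) - 1) * (L : ℝ) ^ 2 := by
  simp only [gadj_deg]
  rw [Finset.sum_comm]
  rw [Finset.sum_congr rfl fun j _ => sum_coord j fun a => ∑ b, adj1 L a b]
  simp only [adj1_deg, Finset.sum_add_distrib]
  have e1 : (∑ a : Fin L, if a.val + 1 < L then (1:ℝ) else 0) = (L : ℝ) - 1 := by
    obtain ⟨M, rfl⟩ : ∃ M, L = M + 1 := ⟨L - 1, by omega⟩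
    rw [Fin.sum_univ_castSucc]
    simp
  have e2 : (∑ a : Fin L, if 0 < a.val then (1:ℝ) else 0) = (L : ℝ) - 1 := by
    obtain ⟨M, rfl⟩ : ∃ M, L = M + 1 := ⟨L - 1, by omega⟩
    rw [Fin.sum_univ_succ]
    simp
  rw [e1, e2]
  simp only [Finset.sum_const, Finset.card_univ, Fintype.card_fin, nsmul_eq_mul]
  push_cast; ring

theorem lapG_grid (L n : ℕ) :
    lapG (gadj L) n = ((n : ℝ) / 2) • ∑ j : Fin 3, atSite j (lap1 L) := by
  ext x y
  simp only [lap1, atSite_sub, Finset.sum_sub_distrib, Matrix.smul_apply, Matrix.sub_apply,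
    Matrix.sum_apply, lapG, Matrix.of_apply, smul_eq_mul, gadj_deg, gadj_indicator,
    atSite_diagonal]
  congr 2
  by_cases h : x = y
  · subst h
    simp only [if_pos, diagonal_apply_eq]
    rw [← gadj_deg]
    exact (Finset.sum_congr rfl fun z _ => (gadj_indicator x z).symm)
  · simp [h]

/-- Neumann modes of the cube. -/
noncomputable def neuG (L : ℕ) : Matrix (Grid L) (Grid L) ℝ := prodMat fun _ : Fin 3 => neu L

/-- Their energies. -/
noncomputable def epsG (n L : ℕ) (m : Grid L) : ℝ := (n : ℝ) / 2 * ∑ j, eps1 L (m j).val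

theorem epsG_nonneg (n L : ℕ) (m : Grid L) : 0 ≤ epsG n L m :=
  mul_nonneg (by positivity) (Finset.sum_nonneg fun j _ => eps1_nonneg _ _)

theorem neuG_orth (L : ℕ) : (neuG L)ᵀ * neuG L = 1 :=
  prodMat_orth _ fun _ => neu_orth L

theorem neuG_conj (L n : ℕ) :
    (neuG L)ᵀ * lapG (gadj L) n * neuG L = diagonal (epsG n L) := by
  rw [lapG_grid, Matrix.mul_smul, Matrix.smul_mul, neuG,
    prodMat_conj_sum_diagonal (fun _ : Fin 3 => neu L) (fun _ => neu_orth L) (fun _ => lap1 L)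
      (fun _ j => eps1 L j.val) (fun _ => neu_conj L), ← diagonal_smul]
  rfl

theorem neuG_sq_le (L : ℕ) (x m : Grid L) : neuG L x m ^ 2 ≤ 8 / (L : ℝ) ^ 3 := by
  rw [neuG, prodMat_apply, ← Finset.prod_pow]
  calc ∏ j, neu L (x j) (m j) ^ 2 ≤ ∏ _j : Fin 3, (2 / (L : ℝ)) :=
        Finset.prod_le_prod (fun j _ => sq_nonneg _) fun j _ => neu_sq_le L _ _
    _ = 8 / (L : ℝ) ^ 3 := by simp [div_pow]; norm_num

section heat

variable {V : Type*} [Fintype V] [DecidableEq V] {adj : V → V → Prop} [DecidableRel adj] {n : ℕ}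

/-- The heat flow written in an eigenbasis. -/
noncomputable def heatSol (U : Matrix V V ℝ) (e : V → ℝ) (h0 : V → ℝ) (s : ℝ) : V → ℝ :=
  U *ᵥ fun m => Real.exp (-(s * e m)) * (Uᵀ *ᵥ h0) m

theorem heatSol_isHeat {U : Matrix V V ℝ} {e : V → ℝ} (hU : Uᵀ * U = 1)
    (hc : Uᵀ * lapG adj n * U = diagonal e) (h0 : V → ℝ) : IsHeat adj n (heatSol U e h0) := by
  have hU' : U * Uᵀ = 1 := mul_eq_one_comm.1 hU
  have hLU : lapG adj n * U = U * diagonal e := by
    rw [← hc, ← Matrix.mul_assoc, ← Matrix.mul_assoc, hU', Matrix.one_mul]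
  intro s x
  have e1 : (lapG adj n *ᵥ heatSol U e h0 s) x
      = ∑ m, U x m * (e m * (Real.exp (-(s * e m)) * (Uᵀ *ᵥ h0) m)) := by
    rw [heatSol, mulVec_mulVec, hLU, ← mulVec_mulVec]
    simp only [mulVec_diagonal, Matrix.mulVec, dotProduct]
    refine Finset.sum_congr rfl fun m _ => ?_
    simp [diagonal_apply]
  rw [e1, ← Finset.sum_neg_distrib]
  simp only [heatSol, mulVec, dotProduct]
  refine HasDerivAt.fun_sum fun m _ => ?_
  have h1 : HasDerivAt (fun s : ℝ => Real.exp (-(s * e m))) (-(e m) * Real.exp (-(s * e m))) s := by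
    have := (((hasDerivAt_id s).mul_const (e m)).fun_neg).exp
    simpa [mul_comm] using this
  refine (((h1.mul_const (∑ y, Uᵀ m y * h0 y)).const_mul (U x m)).congr_deriv ?_)
  ring

theorem heatSol_zero {U : Matrix V V ℝ} {e : V → ℝ} (hU : Uᵀ * U = 1) (h0 : V → ℝ) :
    heatSol U e h0 0 = h0 := by
  have hU' : U * Uᵀ = 1 := mul_eq_one_comm.1 hU
  simp [heatSol, mulVec_mulVec, hU']

theorem heatSol_le {U : Matrix V V ℝ} {e : V → ℝ} {a : ℝ} (ha : ∀ x m, U x m ^ 2 ≤ a)
    {p q : V} (hpq : p ≠ q) (s : ℝ) (z : V) :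
    heatSol U e (fun w => if w = p ∨ w = q then 1 else 0) s z
      ≤ 2 * a * ∑ m, Real.exp (-(s * e m)) := by
  rw [heatSol, Finset.mul_sum]
  refine Finset.sum_le_sum fun m _ => ?_
  have e0 : (Uᵀ *ᵥ fun w => if w = p ∨ w = q then (1:ℝ) else 0) m = U p m + U q m := by
    have h2 : ∀ w, (if w = p ∨ w = q then (1:ℝ) else 0)
        = (if w = p then 1 else 0) + (if w = q then 1 else 0) := by
      intro w
      by_cases hw : w = p
      · subst hw; simp [hpq]
      · simp [hw]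
    simp [mulVec, dotProduct, h2, mul_add, Finset.sum_add_distrib]
  change U z m * (Real.exp (-(s * e m)) *
    (Uᵀ *ᵥ fun w => if w = p ∨ w = q then (1:ℝ) else 0) m) ≤ _
  rw [e0]
  have h1 : U z m * (U p m + U q m) ≤ 2 * a := by
    nlinarith [ha z m, ha p m, ha q m, sq_nonneg (U z m - U p m), sq_nonneg (U z m - U q m)]
  have h2 := Real.exp_nonneg (-(s * e m))
  calc U z m * (Real.exp (-(s * e m)) * (U p m + U q m))
      = Real.exp (-(s * e m)) * (U z m * (U p m + U q m)) := by ring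
    _ ≤ Real.exp (-(s * e m)) * (2 * a) := mul_le_mul_of_nonneg_left h1 h2
    _ = _ := by ring

end heat

theorem sum_exp_epsG (n L : ℕ) (s : ℝ) :
    ∑ m : Grid L, Real.exp (-(s * epsG n L m))
      = (∑ j ∈ Finset.range L, Real.exp (-(s * ((n : ℝ) / 2) * eps1 L j))) ^ 3 := by
  have e : ∀ m : Grid L, Real.exp (-(s * epsG n L m))
      = ∏ j : Fin 3, Real.exp (-(s * ((n : ℝ) / 2) * eps1 L (m j).val)) := by
    intro m
    rw [← Real.exp_sum, epsG]
    congr 1
    rw [Finset.mul_sum, Finset.mul_sum, ← Finset.sum_neg_distrib]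
    exact Finset.sum_congr rfl fun j _ => by ring
  rw [Finset.sum_congr rfl fun m _ => e m, ← Fintype.prod_sum
    (fun (_ : Fin 3) (a : Fin L) => Real.exp (-(s * ((n : ℝ) / 2) * eps1 L a.val))),
    ← Fin.sum_univ_eq_sum_range]
  simp

theorem sum_exp_eps1_le {n L : ℕ} (hL : 0 < L) {s : ℝ} (hs : 0 < s) (hn : 1 ≤ n) :
    ∑ j ∈ Finset.range L, Real.exp (-(s * ((n : ℝ) / 2) * eps1 L j))
      ≤ 1 + (L : ℝ) / Real.sqrt s := by
  have hn' : (1 : ℝ) ≤ n := by exact_mod_cast hn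
  have hL' : (0 : ℝ) < L := by exact_mod_cast hL
  set a : ℝ := 2 * s * n / (L : ℝ) ^ 2 with ha
  have hapos : 0 < a := by positivity
  refine le_trans (Finset.sum_le_sum fun j hj => ?_) ((sum_exp_sq_le hapos L).trans ?_)
  · refine Real.exp_le_exp.2 (neg_le_neg ?_)
    have := mul_le_mul_of_nonneg_left (eps1_ge L (Finset.mem_range.1 hj))
      (show 0 ≤ s * ((n : ℝ) / 2) by positivity)
    refine le_trans (le_of_eq ?_) this
    rw [ha]; field_simp; ring
  · have h1 : Real.pi / a ≤ (2 * (L : ℝ) / Real.sqrt s) ^ 2 := by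
      rw [div_pow, Real.sq_sqrt hs.le, ha, div_div_eq_mul_div, div_le_div_iff₀ (by positivity) hs]
      nlinarith [Real.pi_le_four, mul_nonneg (sub_nonneg.2 hn') (mul_nonneg (sq_nonneg (L:ℝ)) hs.le),
        mul_nonneg (sub_nonneg.2 Real.pi_le_four) (mul_nonneg (sq_nonneg (L:ℝ)) hs.le)]
    have h2 := Real.sqrt_le_sqrt h1
    rw [Real.sqrt_sq (by positivity)] at h2
    have : 2 * (L : ℝ) / Real.sqrt s / 2 = (L : ℝ) / Real.sqrt s := by ring
    linarith

/-- The pair bound in a cube. -/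
theorem grid_pair_bound {n L : ℕ} (hn : 1 ≤ n) (hL : 0 < L) {ψ : Cfg n (Grid L) → ℝ} {E : ℝ}
    (hψ : kin (gadj L) n *ᵥ ψ = E • ψ) {k : ℕ} (hk : ∀ η, tot η ≠ k → ψ η = 0)
    {x y : Grid L} (hxy : gadj L x y) {s : ℝ} (hs : 0 < s) :
    pairP x y ψ ≤ Real.exp (2 * E * s) *
      ((k : ℝ) ^ 2 * (16 * (1 / (L : ℝ) + 1 / Real.sqrt s) ^ 3) ^ 2) * (ψ ⬝ᵥ ψ) / 2 := by
  have hne : x ≠ y := fun e => gadj_irrefl L y (e ▸ hxy)
  refine pairP_le (gadj L) (gadj_irrefl L) gadj_symm hψ hk hne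
    (heatSol_isHeat (neuG_orth L) (neuG_conj L n) _)
    (fun z => by rw [heatSol_zero (neuG_orth L)]) hs.le fun z => ?_
  refine (heatSol_le (neuG_sq_le L) hne s z).trans ?_
  rw [sum_exp_epsG]
  have h1 := sum_exp_eps1_le hL hs hn
  have h0 : 0 ≤ ∑ j ∈ Finset.range L, Real.exp (-(s * ((n : ℝ) / 2) * eps1 L j)) :=
    Finset.sum_nonneg fun j _ => Real.exp_nonneg _
  have h2 := pow_le_pow_left₀ h0 h1 3
  have hL' : (0 : ℝ) < L := by exact_mod_cast hL
  calc 2 * (8 / (L : ℝ) ^ 3) * _ ≤ 2 * (8 / (L : ℝ) ^ 3) * (1 + (L : ℝ) / Real.sqrt s) ^ 3 :=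
        mul_le_mul_of_nonneg_left h2 (by positivity)
    _ = _ := by field_simp; ring

/-- The boundary of a cube. -/
def bdry {L : ℕ} (x : Grid L) : Prop := ∃ j, (x j).val = 0 ∨ (x j).val + 1 = L

instance {L : ℕ} (x : Grid L) : Decidable (bdry x) := inferInstanceAs (Decidable (∃ _, _))

/-- Dirichlet modes of the cube. -/
noncomputable def dirG (L J : ℕ) : Matrix (Grid L) (Fin 3 → Fin J) ℝ :=
  prodMat fun _ : Fin 3 => dir L J

/-- Their energies. -/
noncomputable def epsDG (n L : ℕ) {J : ℕ} (m : Fin 3 → Fin J) : ℝ :=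
  (n : ℝ) / 2 * ∑ j, epsD L (m j).val

theorem dirG_orth {L J : ℕ} (h : J + 1 < L) : (dirG L J)ᵀ * dirG L J = 1 :=
  prodMat_orth _ fun _ => dir_orth h

theorem dirG_conj {L J : ℕ} (h : J + 1 < L) (n : ℕ) :
    (dirG L J)ᵀ * lapG (gadj L) n * dirG L J = diagonal (epsDG n L (J := J)) := by
  rw [lapG_grid, Matrix.mul_smul, Matrix.smul_mul, dirG,
    prodMat_conj_sum_diagonal (fun _ : Fin 3 => dir L J) (fun _ => dir_orth h) (fun _ => lap1 L)
      (fun _ j => epsD L j.val) (fun _ => dir_conj h), ← diagonal_smul]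
  rfl

theorem dirG_bdry {L J : ℕ} (x : Grid L) (m : Fin 3 → Fin J) (h : bdry x) :
    dirG L J x m = 0 := by
  obtain ⟨j, hj⟩ := h
  rw [dirG, prodMat_apply]
  exact Finset.prod_eq_zero (Finset.mem_univ j) (dir_boundary L J _ _ hj)

theorem dirG_sq_le (L J : ℕ) (x : Grid L) (m : Fin 3 → Fin J) :
    dirG L J x m ^ 2 ≤ 8 / ((L - 1 : ℕ) : ℝ) ^ 3 := by
  rw [dirG, prodMat_apply, ← Finset.prod_pow]
  calc ∏ j, dir L J (x j) (m j) ^ 2 ≤ ∏ _j : Fin 3, (2 / ((L - 1 : ℕ) : ℝ)) :=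
        Finset.prod_le_prod (fun j _ => sq_nonneg _) fun j _ => dir_sq_le L J _ _
    _ = 8 / ((L - 1 : ℕ) : ℝ) ^ 3 := by simp [div_pow]; norm_num

end Vale.Agent.P361
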