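import Mathlib.Analysis.Normed.Algebra.MatrixExponential
import Mathlib.Analysis.Complex.Basic
import Mathlib.Analysis.SpecialFunctions.Log.Basic
import Mathlib.LinearAlgebra.Matrix.Trace
import Mathlib.Data.Fintype.Pi
import Mathlib.Algebra.Order.Interval.Finset.Basic

/-!
The three-dimensional quantum Heisenberg ferromagnet of spin `S = n/2` in finite boxes.
-/

namespace Vale.Agent.P361

open Matrix Finset
open scoped BigOperators

/-- The raising matrix of spin `n/2` in the basis `|S - i⟩`, `i = 0, …, n`. -/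
noncomputable def spinRaise (n : ℕ) : Matrix (Fin (n + 1)) (Fin (n + 1)) ℂ :=
  Matrix.of fun i j =>
    if i.val + 1 = j.val then (Real.sqrt ((j.val : ℝ) * ((n : ℝ) + 1 - (j.val : ℝ))) : ℂ) else 0

/-- The spin matrices `S^1, S^2, S^3` of spin `n/2`. -/
noncomputable def spinComp (n : ℕ) : Fin 3 → Matrix (Fin (n + 1)) (Fin (n + 1)) ℂ :=
  ![(1 / 2 : ℂ) • (spinRaise n + (spinRaise n)ᵀ),
    (1 / (2 * Complex.I)) • (spinRaise n - (spinRaise n)ᵀ),
    Matrix.diagonal fun i => (n : ℂ) / 2 - (i.val : ℂ)]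

/-- The box `{-N, …, N}³`. -/
noncomputable def box (N : ℕ) : Finset (Fin 3 → ℤ) :=
  Fintype.piFinset fun _ => Finset.Icc (-(N : ℤ)) (N : ℤ)

/-- The basis of the Hilbert space of the box. -/
abbrev State (n N : ℕ) : Type := {x // x ∈ box N} → Fin (n + 1)

/-- The one-site matrix `A` acting at the site `x` (identity at the other sites). -/
noncomputable def siteOp {n N : ℕ} (x : {x // x ∈ box N})
    (A : Matrix (Fin (n + 1)) (Fin (n + 1)) ℂ) : Matrix (State n N) (State n N) ℂ :=
  Matrix.of fun η η' => if ∀ z, z ≠ x → η z = η' z then A (η x) (η' x) else 0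

/-- `S_x · S_y`. -/
noncomputable def exchange (n : ℕ) {N : ℕ} (x y : {x // x ∈ box N}) :
    Matrix (State n N) (State n N) ℂ :=
  ∑ a : Fin 3, siteOp x (spinComp n a) * siteOp y (spinComp n a)

/-- `H_N`: minus the sum of `S_x · S_y` over nearest-neighbour edges, each counted once. -/
noncomputable def hamiltonian (n N : ℕ) : Matrix (State n N) (State n N) ℂ :=
  -((1 / 2 : ℂ) • ∑ x : {x // x ∈ box N}, ∑ y : {x // x ∈ box N},
    if (∑ j : Fin 3, |x.1 j - y.1 j|) = 1 then exchange n x y else 0)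

/-- `M_N = ∑ S^3_x`. -/
noncomputable def magnetization (n N : ℕ) : Matrix (State n N) (State n N) ℂ :=
  ∑ x : {x // x ∈ box N}, siteOp x (spinComp n 2)

/-- The finite-volume pressure `(β |Λ_N|)⁻¹ log Tr exp(-β (H_N - h M_N))`. -/
noncomputable def pressureN (n N : ℕ) (β h : ℝ) : ℝ :=
  Real.log ((NormedSpace.exp ((-(β : ℂ)) • (hamiltonian n N - (h : ℂ) • magnetization n N))).trace).re
    / (β * ((box N).card : ℝ))

end Vale.Agent.P361
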