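import Vale.Agent.P361.Final
import Mathlib.Analysis.Normed.Group.FunctionSeries

/-!
The two-sided magnetisation law in a field proportional to the temperature, and Bloch's law in
a field which vanishes faster than the temperature.
-/

namespace Vale.Agent.P361

open Matrix Finset Function Filter Topology
open scoped BigOperators

/-- The spin-wave depletion of the magnetisation in the field `K / β`. -/
noncomputable def depl (n : ℕ) (K : ℝ) : ℝ := ∑' q : ℕ, Real.exp (-K) ^ (q + 1) * blochTerm n q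

theorem blochTerm_nonneg (n q : ℕ) : 0 ≤ blochTerm n q := by
  unfold blochTerm tgt; positivity

theorem pow_exp_le_one {K : ℝ} (hK : 0 ≤ K) (q : ℕ) : Real.exp (-K) ^ (q + 1) ≤ 1 :=
  pow_le_one₀ (Real.exp_nonneg _) (Real.exp_le_one_iff.2 (neg_nonpos.2 hK))

theorem hasSum_depl (n : ℕ) {K : ℝ} (hK : 0 ≤ K) :
    HasSum (fun q : ℕ => Real.exp (-K) ^ (q + 1) * blochTerm n q) (depl n K) :=
  (Summable.of_nonneg_of_le
    (fun q => mul_nonneg (pow_nonneg (Real.exp_nonneg _) _) (blochTerm_nonneg n q))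
    (fun q => mul_le_of_le_one_left (blochTerm_nonneg n q) (pow_exp_le_one hK q))
    (hasSum_blochTerm n).summable).hasSum

theorem depl_continuousOn (n : ℕ) : ContinuousOn (depl n) (Set.Ici 0) := by
  refine continuousOn_tsum (fun q => by fun_prop) (hasSum_blochTerm n).summable fun q K hK => ?_
  rw [Real.norm_eq_abs, abs_of_nonneg
    (mul_nonneg (pow_nonneg (Real.exp_nonneg _) _) (blochTerm_nonneg n q))]
  exact mul_le_of_le_one_left (blochTerm_nonneg n q) (pow_exp_le_one hK q)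

theorem depl_zero (n : ℕ) :
    depl n 0 = (riemannZeta (3 / 2)).re
      / (8 * (Real.pi : ℝ) ^ ((3 : ℝ) / 2) * ((n : ℝ) / 2) ^ ((3 : ℝ) / 2)) := by
  rw [depl, ← (hasSum_blochTerm n).tsum_eq]
  simp

theorem phi_sandwich {n : ℕ} (hn : 1 ≤ n) {K : ℝ} (hK : 0 < K) {ε : ℝ} (hε : 0 < ε) :
    ∀ᶠ β in atTop,
      |Real.sqrt β ^ 3 * phi n β K - ∑' q : ℕ, Real.exp (-K) ^ (q + 1) * tgt n q| ≤ ε := by
  have hs := summable_tgt hn (Real.exp_nonneg (-K)) (Real.exp_lt_one_iff.2 (by linarith))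
  obtain ⟨Q, hQ⟩ := (hs.hasSum.tendsto_sum_nat.eventually_const_lt
    (sub_lt_self _ (half_pos hε))).exists
  filter_upwards [phi_field_upper hn hK hε, phi_field_lower hn hK.le Q (half_pos hε)] with β h1 h2
  rw [abs_le]
  constructor <;> linarith

/-- The pressure differences are controlled by the depletion at their endpoints. -/
theorem tgt_diff {n : ℕ} (hn : 1 ≤ n) {K a : ℝ} (hK : 0 < K) (ha : 0 ≤ a) :
    a * depl n (K + a) ≤
        (∑' q : ℕ, Real.exp (-K) ^ (q + 1) * tgt n q)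
          - ∑' q : ℕ, Real.exp (-(K + a)) ^ (q + 1) * tgt n q ∧
      (∑' q : ℕ, Real.exp (-K) ^ (q + 1) * tgt n q)
          - ∑' q : ℕ, Real.exp (-(K + a)) ^ (q + 1) * tgt n q ≤ a * depl n K := by
  have hd := (summable_tgt hn (Real.exp_nonneg (-K)) (Real.exp_lt_one_iff.2 (by linarith))).hasSum.sub
    (summable_tgt hn (Real.exp_nonneg (-(K + a))) (Real.exp_lt_one_iff.2 (by linarith))).hasSum
  have key : ∀ q : ℕ,
      a * (Real.exp (-(K + a)) ^ (q + 1) * blochTerm n q)
        ≤ Real.exp (-K) ^ (q + 1) * tgt n q - Real.exp (-(K + a)) ^ (q + 1) * tgt n q ∧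
      Real.exp (-K) ^ (q + 1) * tgt n q - Real.exp (-(K + a)) ^ (q + 1) * tgt n q
        ≤ a * (Real.exp (-K) ^ (q + 1) * blochTerm n q) := by
    intro q
    have ht : 0 ≤ tgt n q := by unfold tgt; positivity
    set x : ℝ := a * ((q : ℝ) + 1)
    have e1 : Real.exp (-(K + a)) ^ (q + 1) = Real.exp (-K) ^ (q + 1) * Real.exp (-x) := by
      rw [← Real.exp_nat_mul, ← Real.exp_nat_mul, ← Real.exp_add]
      congr 1
      simp only [x]
      push_cast
      ring
    have e2 : Real.exp (-K) ^ (q + 1) = Real.exp (-(K + a)) ^ (q + 1) * Real.exp x := by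
      rw [e1, mul_assoc, ← Real.exp_add, neg_add_cancel, Real.exp_zero, mul_one]
    constructor
    · conv_rhs => rw [e2]
      have := mul_le_mul_of_nonneg_left (Real.add_one_le_exp x)
        (mul_nonneg (pow_nonneg (Real.exp_nonneg (-(K + a))) (q + 1)) ht)
      simp only [x, blochTerm] at this ⊢
      linarith
    · rw [e1]
      have := mul_le_mul_of_nonneg_left (Real.add_one_le_exp (-x))
        (mul_nonneg (pow_nonneg (Real.exp_nonneg (-K)) (q + 1)) ht)
      simp only [x, blochTerm] at this ⊢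
      linarith
  exact ⟨hasSum_le (fun q => (key q).1) ((hasSum_depl n (by linarith)).mul_left a) hd,
    hasSum_le (fun q => (key q).2) hd ((hasSum_depl n hK.le).mul_left a)⟩

theorem slope_press (n : ℕ) {β : ℝ} (hβ : 0 < β) {u v : ℝ} (huv : u ≠ v) :
    slope (press n β) (u / β) (v / β) = (n : ℝ) / 2 + (phi n β v - phi n β u) / (v - u) := by
  have h1 : v - u ≠ 0 := sub_ne_zero.2 (Ne.symm huv)
  rw [slope_def_field, press, press, mul_div_cancel₀ _ hβ.ne', mul_div_cancel₀ _ hβ.ne']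
  field_simp
  ring

theorem exists_sideDerivs (n : ℕ) {β : ℝ} (hβ : 0 < β) (h : ℝ) :
    HasDerivWithinAt (press n β) (derivWithin (press n β) (Set.Ioi h) h) (Set.Ioi h) h ∧
    HasDerivWithinAt (press n β) (derivWithin (press n β) (Set.Iio h) h) (Set.Iio h) h :=
  ⟨(press_convex n hβ).hasDerivWithinAt_rightDeriv_of_mem_interior (by simp),
    (press_convex n hβ).hasDerivWithinAt_leftDeriv_of_mem_interior (by simp)⟩

/-- The magnetisation in the field `K / β` is the spin-wave one, from both sides. -/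
theorem magnetization_field {n : ℕ} (hn : 1 ≤ n) {K : ℝ} (hK : 0 < K) {ε : ℝ} (hε : 0 < ε) :
    ∀ᶠ β in atTop, ∀ d : ℝ,
      (HasDerivWithinAt (press n β) d (Set.Ioi (K / β)) (K / β) ∨
        HasDerivWithinAt (press n β) d (Set.Iio (K / β)) (K / β)) →
      |β ^ ((3 : ℝ) / 2) * ((n : ℝ) / 2 - d) - depl n K| ≤ ε := by
  have hc : ContinuousAt (depl n) K := (depl_continuousOn n).continuousAt (Ici_mem_nhds hK)
  obtain ⟨δ, hδ, hδc⟩ := Metric.continuousAt_iff.1 hc (ε / 2) (half_pos hε)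
  obtain ⟨a, ha0, haK, haδ⟩ : ∃ a : ℝ, 0 < a ∧ a < K ∧ a < δ :=
    ⟨min K δ / 2, by positivity, by linarith [min_le_left K δ, lt_min hK hδ],
      by linarith [min_le_right K δ, lt_min hK hδ]⟩
  have hlo : depl n K - ε / 2 ≤ depl n (K + a) := by
    have h := hδc (show dist (K + a) K < δ by
      rw [Real.dist_eq, add_sub_cancel_left, abs_of_pos ha0]; exact haδ)
    rw [Real.dist_eq, abs_lt] at h
    linarith
  have hhi : depl n (K - a) ≤ depl n K + ε / 2 := by
    have h := hδc (show dist (K - a) K < δ by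
      rw [Real.dist_eq, sub_sub_cancel_left, abs_neg, abs_of_pos ha0]; exact haδ)
    rw [Real.dist_eq, abs_lt] at h
    linarith
  obtain ⟨hF1, -⟩ := tgt_diff hn hK ha0.le
  obtain ⟨-, hF2⟩ := tgt_diff hn (sub_pos.2 haK) ha0.le
  rw [sub_add_cancel] at hF2
  have he : 0 < a * ε / 4 := by positivity
  filter_upwards [phi_sandwich hn hK he, phi_sandwich hn (add_pos hK ha0) he,
    phi_sandwich hn (sub_pos.2 haK) he, eventually_gt_atTop 0] with β s0 s1 s2 hβ d hd
  have hcx := press_convex n hβ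
  have hl : (K - a) / β < K / β := div_lt_div_of_pos_right (by linarith) hβ
  have hr : K / β < (K + a) / β := div_lt_div_of_pos_right (by linarith) hβ
  have hmono := hcx.leftDeriv_le_rightDeriv_of_mem_interior (x := K / β) (by simp)
  obtain ⟨hR, hL⟩ := exists_sideDerivs n hβ (K / β)
  have hR1 := hcx.le_slope_of_hasDerivWithinAt_Ioi (Set.mem_univ _) (Set.mem_univ _) hr hR
  have hL1 := hcx.slope_le_of_hasDerivWithinAt_Iio (Set.mem_univ _) (Set.mem_univ _) hl hL
  rw [slope_press n hβ (by linarith), add_sub_cancel_left] at hR1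
  rw [slope_press n hβ (by linarith), sub_sub_cancel] at hL1
  have hd' : (n : ℝ) / 2 + (phi n β K - phi n β (K - a)) / a ≤ d ∧
      d ≤ (n : ℝ) / 2 + (phi n β (K + a) - phi n β K) / a := by
    rcases hd with hd | hd
    · rw [← hd.derivWithin (uniqueDiffWithinAt_Ioi _)]
      exact ⟨hL1.trans hmono, hR1⟩
    · rw [← hd.derivWithin (uniqueDiffWithinAt_Iio _)]
      exact ⟨hL1, hmono.trans hR1⟩
  have h32 : β ^ ((3 : ℝ) / 2) = Real.sqrt β ^ 3 := by
    rw [Real.sqrt_eq_rpow, ← Real.rpow_natCast (β ^ (1 / 2 : ℝ)) 3, ← Real.rpow_mul hβ.le]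
    norm_num
  rw [h32]
  have hs3 : 0 ≤ Real.sqrt β ^ 3 := by positivity
  rw [abs_le] at s0 s1 s2
  have u1 := mul_le_mul_of_nonneg_left hd'.1 hs3
  have u2 := mul_le_mul_of_nonneg_left hd'.2 hs3
  rw [abs_le]
  constructor
  · have : a * (depl n K - ε) ≤ Real.sqrt β ^ 3 * phi n β K - Real.sqrt β ^ 3 * phi n β (K + a) := by
      nlinarith [mul_le_mul_of_nonneg_left hlo ha0.le]
    have h3 : depl n K - ε ≤ (Real.sqrt β ^ 3 * phi n β K - Real.sqrt β ^ 3 * phi n β (K + a)) / a := by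
      rw [le_div_iff₀ ha0]; linarith
    have e : Real.sqrt β ^ 3 * ((n : ℝ) / 2 + (phi n β (K + a) - phi n β K) / a)
        = Real.sqrt β ^ 3 * ((n : ℝ) / 2)
          - (Real.sqrt β ^ 3 * phi n β K - Real.sqrt β ^ 3 * phi n β (K + a)) / a := by ring
    rw [e] at u2
    linarith
  · have : Real.sqrt β ^ 3 * phi n β (K - a) - Real.sqrt β ^ 3 * phi n β K ≤ a * (depl n K + ε) := by
      nlinarith [mul_le_mul_of_nonneg_left hhi ha0.le]
    have h3 : (Real.sqrt β ^ 3 * phi n β (K - a) - Real.sqrt β ^ 3 * phi n β K) / a ≤ depl n K + ε := by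
      rw [div_le_iff₀ ha0]; linarith
    have e : Real.sqrt β ^ 3 * ((n : ℝ) / 2 + (phi n β K - phi n β (K - a)) / a)
        = Real.sqrt β ^ 3 * ((n : ℝ) / 2)
          - (Real.sqrt β ^ 3 * phi n β (K - a) - Real.sqrt β ^ 3 * phi n β K) / a := by ring
    rw [e] at u1
    linarith

/-- Bloch's law in some field which is small compared with the temperature. -/
theorem bloch_vanishing_field {n : ℕ} (hn : 1 ≤ n) :
    ∃ h : ℝ → ℝ, (∀ β, 0 < β → 0 < h β) ∧ Tendsto (fun β => β * h β) atTop (𝓝 0) ∧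
      ∀ ε, 0 < ε → ∀ᶠ β in atTop, ∀ d : ℝ,
        (HasDerivWithinAt (press n β) d (Set.Ioi (h β)) (h β) ∨
          HasDerivWithinAt (press n β) d (Set.Iio (h β)) (h β)) →
        |β ^ ((3 : ℝ) / 2) * ((n : ℝ) / 2 - d)
          - (riemannZeta (3 / 2)).re
            / (8 * (Real.pi : ℝ) ^ ((3 : ℝ) / 2) * ((n : ℝ) / 2) ^ ((3 : ℝ) / 2))| ≤ ε := by
  classical
  have hjpos : ∀ j : ℕ, (0 : ℝ) < 1 / ((j : ℝ) + 1) := fun j => by positivity
  choose b hb using fun j : ℕ => eventually_atTop.1 (magnetization_field hn (hjpos j) (hjpos j))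
  set J : ℝ → ℕ := fun β => Nat.findGreatest (fun j => b j ≤ β) ⌊β⌋₊ with hJdef
  have hJ : Tendsto J atTop atTop := by
    refine tendsto_atTop.2 fun j => ?_
    filter_upwards [eventually_ge_atTop (b j), eventually_ge_atTop (j : ℝ)] with β h1 h2
    exact Nat.le_findGreatest (Nat.le_floor h2) h1
  have hK : Tendsto (fun β => 1 / ((J β : ℝ) + 1)) atTop (𝓝 0) :=
    tendsto_one_div_add_atTop_nhds_zero_nat.comp hJ
  refine ⟨fun β => 1 / ((J β : ℝ) + 1) / β, fun β hβ => div_pos (hjpos _) hβ, ?_, ?_⟩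
  · refine hK.congr' ?_
    filter_upwards [eventually_gt_atTop 0] with β hβ
    rw [mul_div_cancel₀ _ hβ.ne']
  · intro ε hε
    have hdep : Tendsto (fun β => depl n (1 / ((J β : ℝ) + 1))) atTop (𝓝 (depl n 0)) :=
      ((depl_continuousOn n) 0 Set.self_mem_Ici).tendsto.comp
        (tendsto_nhdsWithin_iff.2 ⟨hK, Eventually.of_forall fun β => (hjpos _).le⟩)
    filter_upwards [Metric.tendsto_nhds.1 hdep (ε / 2) (half_pos hε),
      hK.eventually_lt_const (half_pos hε), eventually_ge_atTop (b 0)] with β h1 h2 h3 d hd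
    have hbJ : b (J β) ≤ β := by
      rcases Nat.eq_zero_or_pos (J β) with h | h
      · rw [h]; exact h3
      · exact Nat.findGreatest_of_ne_zero rfl h.ne'
    have hm := hb (J β) β hbJ d hd
    rw [Real.dist_eq, depl_zero] at h1
    rw [abs_le] at hm ⊢
    rw [abs_lt] at h1
    constructor <;> linarith

end Vale.Agent.P361
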