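import Vale.Agent.P361.Bridge
import Vale.Agent.P361.AsympUpper
import Mathlib.Analysis.Convex.Deriv
import Mathlib.NumberTheory.LSeries.RiemannZeta

/-!
The Bloch coefficient as a one-sided bound.
-/

namespace Vale.Agent.P361

open Matrix Finset Function Filter Topology
open scoped BigOperators

theorem spinComp_comm (n : ℕ) :
    spinComp n 0 * spinComp n 1 - spinComp n 1 * spinComp n 0 = Complex.I • spinComp n 2 ∧
    spinComp n 1 * spinComp n 2 - spinComp n 2 * spinComp n 1 = Complex.I • spinComp n 0 ∧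
    spinComp n 2 * spinComp n 0 - spinComp n 0 * spinComp n 2 = Complex.I • spinComp n 1 := by
  set U : Matrix (Fin (n + 1)) (Fin (n + 1)) ℂ := spinRaise n with hU
  set Z := spinComp n 2 with hZ
  have e2 : toC (2 : ℝ) = (2 : ℂ) := by simp [toC]
  have h1 : U * Uᵀ - Uᵀ * U = (2 : ℂ) • Z := by
    have h := congrArg (fun M : Matrix (Fin (n + 1)) (Fin (n + 1)) ℝ => M.map toC) (upR_comm n)
    simp only [Matrix.map_sub _ (map_sub toC), Matrix.map_mul, ← Matrix.transpose_map,
      Matrix.map_smulₛₗ _ toC _ (fun a => map_mul toC _ a), ← spinRaise_eq, ← spinComp_two, e2] at h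
    simpa [hU, hZ, Matrix.transpose_map, ← spinRaise_eq] using h
  have h2 : Z * U - U * Z = U := by
    have h := congrArg (fun M : Matrix (Fin (n + 1)) (Fin (n + 1)) ℝ => M.map toC) (szR_upR n)
    simpa only [Matrix.map_sub _ (map_sub toC), Matrix.map_mul, ← spinRaise_eq, ← spinComp_two,
      ← hU, ← hZ] using h
  have hZt : Zᵀ = Z := by
    rw [hZ]; exact diagonal_transpose _
  have h3 : Z * Uᵀ - Uᵀ * Z = -Uᵀ := by
    have h := congrArg Matrix.transpose h2
    rw [transpose_sub, transpose_mul, transpose_mul, hZt] at h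
    rw [← neg_sub, h]
  have hI : 1 / (2 * Complex.I) = -(Complex.I / 2) := by
    field_simp
    linear_combination Complex.I_sq
  rw [spinComp_zero, spinComp_one, ← hU, hI]
  refine ⟨?_, ?_, ?_⟩
  · calc _ = (Complex.I / 2) • (U * Uᵀ - Uᵀ * U) := by
          simp only [Matrix.smul_mul, Matrix.mul_smul, Matrix.add_mul, Matrix.mul_add, Matrix.sub_mul,
            Matrix.mul_sub]
          module
      _ = _ := by rw [h1, smul_smul]; congr 1; ring
  · calc _ = (Complex.I / 2) • ((Z * U - U * Z) - (Z * Uᵀ - Uᵀ * Z)) := by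
          simp only [Matrix.smul_mul, Matrix.mul_smul, Matrix.sub_mul, Matrix.mul_sub]
          module
      _ = _ := by rw [h2, h3]; module
  · calc _ = (1 / 2 : ℂ) • ((Z * U - U * Z) + (Z * Uᵀ - Uᵀ * Z)) := by
          simp only [Matrix.smul_mul, Matrix.mul_smul, Matrix.add_mul, Matrix.mul_add]
          module
      _ = _ := by
          rw [h2, h3, smul_smul, ← sub_eq_add_neg]
          congr 1
          linear_combination (1 / 2 : ℂ) * Complex.I_sq

/-- The `(q+1)`-st term of the series of the Bloch coefficient. -/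
noncomputable def blochTerm (n q : ℕ) : ℝ := ((q : ℝ) + 1) * tgt n q

theorem blochTerm_eq (n q : ℕ) :
    blochTerm n q = 1 / (8 * (Real.pi : ℝ) ^ ((3 : ℝ) / 2) * ((n : ℝ) / 2) ^ ((3 : ℝ) / 2))
      * (1 / ((q : ℝ) + 1) ^ ((3 : ℝ) / 2)) := by
  have h32 : ∀ x : ℝ, 0 ≤ x → x ^ ((3 : ℝ) / 2) = Real.sqrt x ^ 3 := by
    intro x hx
    rw [Real.sqrt_eq_rpow, ← Real.rpow_natCast (x ^ (1 / 2 : ℝ)) 3, ← Real.rpow_mul hx]
    norm_num
  have hq : (0 : ℝ) < (q : ℝ) + 1 := by positivity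
  rw [h32 _ Real.pi_pos.le, h32 _ (by positivity), h32 _ hq.le, blochTerm, tgt,
    mul_div_cancel₀ _ hq.ne', Real.sqrt_mul (by positivity), Real.sqrt_mul Real.pi_pos.le]
  ring

theorem hasSum_blochTerm (n : ℕ) :
    HasSum (blochTerm n)
      ((riemannZeta (3 / 2)).re
        / (8 * (Real.pi : ℝ) ^ ((3 : ℝ) / 2) * ((n : ℝ) / 2) ^ ((3 : ℝ) / 2))) := by
  have hs : Summable fun q : ℕ => 1 / ((q : ℝ) + 1) ^ ((3 : ℝ) / 2) := by
    have := (summable_nat_add_iff 1).2
      (Real.summable_one_div_nat_rpow.2 (show (1 : ℝ) < 3 / 2 by norm_num))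
    simpa using this
  have e : (riemannZeta (3 / 2)).re = ∑' q : ℕ, 1 / ((q : ℝ) + 1) ^ ((3 : ℝ) / 2) := by
    rw [zeta_eq_tsum_one_div_nat_add_one_cpow (show 1 < ((3 : ℂ) / 2).re by norm_num)]
    have : ∀ q : ℕ, 1 / ((q : ℂ) + 1) ^ ((3 : ℂ) / 2)
        = ((1 / ((q : ℝ) + 1) ^ ((3 : ℝ) / 2) : ℝ) : ℂ) := by
      intro q
      have hq : (0 : ℝ) ≤ (q : ℝ) + 1 := by positivity
      push_cast [Complex.ofReal_cpow hq]
      norm_num
    rw [tsum_congr this, ← Complex.ofReal_tsum, Complex.ofReal_re]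
  rw [e, div_eq_inv_mul, ← one_div, funext (blochTerm_eq n)]
  exact hs.hasSum.mul_left _

theorem exists_rightDeriv (n : ℕ) {β : ℝ} (hβ : 0 < β) :
    HasDerivWithinAt (press n β) (derivWithin (press n β) (Set.Ioi 0) 0) (Set.Ioi 0) 0 :=
  (press_convex n hβ).hasDerivWithinAt_rightDeriv_of_mem_interior (by simp)

/-- The magnetisation is at most the spin-wave one. -/
theorem magnetization_deficit {n : ℕ} (hn : 1 ≤ n) {ε : ℝ} (hε : 0 < ε) :
    ∀ᶠ β in atTop,
      (riemannZeta (3 / 2)).re / (8 * (Real.pi : ℝ) ^ ((3 : ℝ) / 2) * ((n : ℝ) / 2) ^ ((3 : ℝ) / 2)) - ε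
        ≤ β ^ ((3 : ℝ) / 2) * ((n : ℝ) / 2 - derivWithin (press n β) (Set.Ioi 0) 0) := by
  set C := (riemannZeta (3 / 2)).re
    / (8 * (Real.pi : ℝ) ^ ((3 : ℝ) / 2) * ((n : ℝ) / 2) ^ ((3 : ℝ) / 2))
  obtain ⟨Q0, hQ0⟩ :=
    ((hasSum_blochTerm n).tendsto_sum_nat.eventually_const_lt
      (show C - ε / 4 < C by linarith)).exists
  have hKlim : Tendsto (fun K : ℝ => ∑ q ∈ range Q0, blochTerm n q / (1 + K * ((q : ℝ) + 1)))
      (𝓝[>] 0) (𝓝 (∑ q ∈ range Q0, blochTerm n q)) := by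
    refine tendsto_finsetSum _ fun q _ => ?_
    have : ContinuousAt (fun K : ℝ => blochTerm n q / (1 + K * ((q : ℝ) + 1))) 0 :=
      ContinuousAt.div continuousAt_const (by fun_prop) (by simp)
    simpa using this.tendsto.mono_left nhdsWithin_le_nhds
  obtain ⟨K, hKsum, hK⟩ :=
    ((hKlim.eventually_const_lt hQ0).and self_mem_nhdsWithin).exists
  have hK0 : (0 : ℝ) < K := hK
  set z := Real.exp (-K) with hz
  have hz0 : 0 ≤ z := Real.exp_nonneg _
  have hz1 : z < 1 := Real.exp_lt_one_iff.2 (by linarith)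
  have hsum := summable_tgt hn hz0 hz1
  obtain ⟨Q, hQ, hQge⟩ := ((hsum.hasSum.tendsto_sum_nat.eventually_const_lt
    (show (∑' q : ℕ, z ^ (q + 1) * tgt n q) - ε / 4 * K < ∑' q : ℕ, z ^ (q + 1) * tgt n q by
      have : 0 < ε / 4 * K := by positivity
      linarith)).and (eventually_ge_atTop Q0)).exists
  have htgt : ∀ q, 0 ≤ tgt n q := fun q => by unfold tgt; positivity
  have hgap : K * (C - ε / 4) + (∑ q ∈ range Q, z ^ (q + 1) * tgt n q)
      ≤ ∑ q ∈ range Q, tgt n q := by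
    have h0 : K * ∑ q ∈ range Q0, blochTerm n q / (1 + K * ((q : ℝ) + 1))
        ≤ ∑ q ∈ range Q, (1 - z ^ (q + 1)) * tgt n q := by
      refine le_trans ?_ (Finset.sum_le_sum_of_subset_of_nonneg (Finset.range_mono hQge)
        fun q _ _ => mul_nonneg (sub_nonneg.2 (pow_le_one₀ hz0 hz1.le)) (htgt q))
      rw [Finset.mul_sum]
      refine Finset.sum_le_sum fun q _ => ?_
      have hx : 0 ≤ K * ((q : ℝ) + 1) := by positivity
      have hp : z ^ (q + 1) ≤ 1 / (1 + K * ((q : ℝ) + 1)) := by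
        rw [hz, ← Real.exp_nat_mul, one_div,
          show ((q + 1 : ℕ) : ℝ) * -K = -(K * ((q : ℝ) + 1)) from by push_cast; ring, Real.exp_neg]
        exact inv_anti₀ (by positivity)
          (by linarith [Real.add_one_le_exp (K * ((q : ℝ) + 1))])
      calc K * (blochTerm n q / (1 + K * ((q : ℝ) + 1)))
          = (1 - 1 / (1 + K * ((q : ℝ) + 1))) * tgt n q := by
            rw [blochTerm]; field_simp; ring
        _ ≤ _ := mul_le_mul_of_nonneg_right (by linarith) (htgt q)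
    have h1 : ∑ q ∈ range Q, (1 - z ^ (q + 1)) * tgt n q
        = (∑ q ∈ range Q, tgt n q) - ∑ q ∈ range Q, z ^ (q + 1) * tgt n q := by
      rw [← Finset.sum_sub_distrib]
      exact Finset.sum_congr rfl fun q _ => by ring
    have h2 := mul_le_mul_of_nonneg_left hKsum.le hK0.le
    linarith
  filter_upwards [phi_zero_lower hn Q (show 0 < ε / 4 * K by positivity),
    phi_field_upper hn hK0 (show 0 < ε / 4 * K by positivity), eventually_gt_atTop 0]
    with β hlow hup hβ
  have hslope := (press_convex n hβ).rightDeriv_le_slope (Set.mem_univ 0) (Set.mem_univ (K / β))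
    (by positivity) (exists_rightDeriv n hβ).differentiableWithinAt
  have hs : slope (press n β) 0 (K / β) = (n : ℝ) / 2 + (phi n β K - phi n β 0) / K := by
    rw [slope_def_field, press, press, mul_zero, mul_div_cancel₀ _ hβ.ne', sub_zero]
    field_simp
    ring
  rw [hs] at hslope
  have h32 : β ^ ((3 : ℝ) / 2) = Real.sqrt β ^ 3 := by
    rw [Real.sqrt_eq_rpow, ← Real.rpow_natCast (β ^ (1 / 2 : ℝ)) 3, ← Real.rpow_mul hβ.le]
    norm_num
  rw [h32]
  have hs3 : 0 ≤ Real.sqrt β ^ 3 := by positivity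
  refine le_trans ?_ (mul_le_mul_of_nonneg_left
    (show (phi n β 0 - phi n β K) / K ≤ (n : ℝ) / 2 - derivWithin (press n β) (Set.Ioi 0) 0 by
      rw [← neg_sub (phi n β K), neg_div]; linarith) hs3)
  rw [← mul_div_assoc, le_div_iff₀ hK0, mul_sub]
  linarith

end Vale.Agent.P361
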