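import Vale.Agent.P361.Tuple

/-!
Comparison of the spin waves with free magnons.
-/

namespace Vale.Agent.P361

open Matrix Finset Function
open scoped BigOperators

variable {V : Type*} [Fintype V] [DecidableEq V] (adj : V → V → Prop) [DecidableRel adj]
  (n : ℕ) {k : ℕ}

/-- One-magnon Laplacian `(n/2)(D - A)`. -/
noncomputable def lapG : Matrix V V ℝ :=
  Matrix.of fun x y => (n : ℝ) / 2 *
    ((if x = y then ∑ z, (if adj x z then (1 : ℝ) else 0) else 0) - if adj x y then 1 else 0)

theorem lapG_mulVec (g : V → ℝ) (x : V) :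
    (lapG adj n *ᵥ g) x = (n : ℝ) / 2 * ∑ y, if adj x y then g x - g y else 0 := by
  simp only [mulVec, dotProduct, lapG, Matrix.of_apply, mul_assoc, sub_mul, mul_sub,
    Finset.sum_sub_distrib, ← Finset.mul_sum, ite_mul, one_mul, zero_mul, Finset.sum_ite_eq,
    Finset.mem_univ, if_true, Finset.sum_mul]
  rw [← mul_sub, ← Finset.sum_sub_distrib]
  congr 1
  exact Finset.sum_congr rfl fun y _ => by split_ifs <;> simp

/-- Kinetic energy of `k` free magnons. -/
noncomputable def kfree (k : ℕ) : Matrix (Fin k → V) (Fin k → V) ℝ :=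
  ∑ i : Fin k, atSite i (lapG adj n)

/-- The jumps from `x` to `y` of the free magnons. -/
def freeT (x y : V) (F : (Fin k → V) → ℝ) : ℝ :=
  ∑ u, ∑ i, if u i = x then (F u - F (Function.update u i y)) ^ 2 else 0

/-- The involution exchanging a jump with its reversal. -/
def flipJump (i : Fin k) : ((Fin k → V) × V) ≃ ((Fin k → V) × V) where
  toFun p := (Function.update p.1 i p.2, p.1 i)
  invFun p := (Function.update p.1 i p.2, p.1 i)
  left_inv p := by simp
  right_inv p := by simp

theorem sum_flipJump (i : Fin k) (G : (Fin k → V) → V → ℝ) :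
    ∑ u, ∑ y, G u y = ∑ u, ∑ y, G (Function.update u i y) (u i) := by
  rw [← Fintype.sum_prod_type', ← Fintype.sum_prod_type']
  exact (Equiv.sum_comp (flipJump i) fun p => G p.1 p.2).symm

theorem quad_kfree (hsym : ∀ x y, adj x y → adj y x) (F : (Fin k → V) → ℝ) :
    quad (kfree adj n k) F
      = (n : ℝ) / 4 * ∑ x, ∑ y, if adj x y then freeT x y F else 0 := by
  have hrow : ∀ (i : Fin k) (u : Fin k → V), F u * (atSite i (lapG adj n) *ᵥ F) u
      = (n : ℝ) / 2 * ∑ y, if adj (u i) y then F u * (F u - F (Function.update u i y)) else 0 := by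
    intro i u
    rw [atSite_mulVec]
    have h := lapG_mulVec adj n (fun z => F (Function.update u i z)) (u i)
    simp only [mulVec, dotProduct, Function.update_eq_self] at h
    rw [h, mul_left_comm, Finset.mul_sum]
    congr 1
    exact Finset.sum_congr rfl fun y _ => by split_ifs <;> simp
  have hhalf : ∀ i : Fin k,
      (∑ u, ∑ y, if adj (u i) y then F u * (F u - F (Function.update u i y)) else 0)
        = 1 / 2 * ∑ u : Fin k → V, ∑ y,
          if adj (u i) y then (F u - F (Function.update u i y)) ^ 2 else 0 := by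
    intro i
    set T := ∑ u : Fin k → V, ∑ y,
      if adj (u i) y then F u * (F u - F (Function.update u i y)) else 0 with hT
    have h2 : T = ∑ u : Fin k → V, ∑ y,
        if adj (u i) y then F (Function.update u i y) * (F (Function.update u i y) - F u) else 0 := by
      rw [hT, sum_flipJump i]
      refine Finset.sum_congr rfl fun u _ => Finset.sum_congr rfl fun y _ => ?_
      simp only [update_self, Function.update_idem, Function.update_eq_self]
      exact if_congr ⟨hsym _ _, hsym _ _⟩ rfl rfl
    have h3 : T + T = ∑ u : Fin k → V, ∑ y,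
        if adj (u i) y then (F u - F (Function.update u i y)) ^ 2 else 0 := by
      conv_lhs => arg 2; rw [h2]
      rw [hT, ← Finset.sum_add_distrib]
      refine Finset.sum_congr rfl fun u _ => ?_
      rw [← Finset.sum_add_distrib]
      exact Finset.sum_congr rfl fun y _ => by split_ifs <;> ring
    linarith
  rw [quad, kfree, Matrix.sum_mulVec, dotProduct_sum]
  simp only [dotProduct, hrow, ← Finset.mul_sum, hhalf]
  rw [← mul_assoc, show (n : ℝ) / 2 * (1 / 2) = n / 4 from by ring]
  congr 1
  rw [Finset.sum_comm, eq_comm]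
  simp only [freeT, ← Finset.sum_filter (fun y => adj _ y)]
  simp only [Finset.sum_filter]
  calc (∑ x, ∑ y, if adj x y then
          ∑ u : Fin k → V, ∑ i, if u i = x then (F u - F (Function.update u i y)) ^ 2 else 0 else 0)
      = ∑ x, ∑ y, ∑ u : Fin k → V, ∑ i, if u i = x then
          (if adj x y then (F u - F (Function.update u i y)) ^ 2 else 0) else 0 := by
        refine Finset.sum_congr rfl fun x _ => Finset.sum_congr rfl fun y _ => ?_
        split_ifs <;> simp
    _ = ∑ u : Fin k → V, ∑ i, ∑ y, ∑ x, if u i = x then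
          (if adj x y then (F u - F (Function.update u i y)) ^ 2 else 0) else 0 := by
        rw [Finset.sum_comm, Finset.sum_congr rfl fun y _ => Finset.sum_comm]
        rw [Finset.sum_comm]
        refine Finset.sum_congr rfl fun u _ => ?_
        rw [Finset.sum_congr rfl fun y _ => Finset.sum_comm, Finset.sum_comm]
    _ = _ := by simp

/-- Total weight of configurations with two magnons on `{x, y}`. -/
def pairP {n : ℕ} (x y : V) (f : Cfg n V → ℝ) : ℝ :=
  ∑ η, if 2 ≤ (η x).val + (η y).val then f η ^ 2 else 0

/-- The free hopping term of a single transition. -/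
noncomputable def freeTerm {n : ℕ} (x y : V) (f : Cfg n V → ℝ) : ℝ :=
  ∑ η, if Can x y η then (Real.sqrt ((η x).val : ℝ) * f η -
    Real.sqrt (((η y).val : ℝ) + 1) * f (mv x y η)) ^ 2 else 0

variable {adj n}

theorem abs_sub_le_pair {x y : V} (hxy : x ≠ y) (hn : 1 ≤ n) (f : Cfg n V → ℝ) :
    |(n : ℝ) * freeTerm x y f - transForm x y f f| ≤ 4 * (n : ℝ) ^ 2 * pairP x y f := by
  have hn' : (1 : ℝ) ≤ n := by exact_mod_cast hn
  have hterm : ∀ η : Cfg n V, Can x y η →
      |(n : ℝ) * (Real.sqrt ((η x).val : ℝ) * f η -
          Real.sqrt (((η y).val : ℝ) + 1) * f (mv x y η)) ^ 2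
        - (Real.sqrt (rate x y η) * f η - Real.sqrt (rate' x y η) * f (mv x y η)) *
          (Real.sqrt (rate x y η) * f η - Real.sqrt (rate' x y η) * f (mv x y η))|
      ≤ 2 * (n : ℝ) ^ 2 * (if 2 ≤ (η x).val + (η y).val then f η ^ 2 + f (mv x y η) ^ 2 else 0) := by
    intro η hc
    obtain ⟨h1, h2⟩ := hc
    split_ifs with h
    · have ha : ((η x).val : ℝ) ≤ n := by exact_mod_cast Nat.lt_succ_iff.1 (η x).isLt
      have ha1 : (1 : ℝ) ≤ (η x).val := by exact_mod_cast h1
      have hb : ((η y).val : ℝ) + 1 ≤ n := by exact_mod_cast h2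
      have hb0 : (0 : ℝ) ≤ (η y).val := Nat.cast_nonneg _
      have s1 := Real.mul_self_sqrt (rate_nonneg x y η)
      have s2 := Real.mul_self_sqrt (rate'_nonneg x y η)
      have s3 := Real.mul_self_sqrt (Nat.cast_nonneg (η x).val : (0:ℝ) ≤ _)
      have s4 := Real.mul_self_sqrt (show (0:ℝ) ≤ ((η y).val : ℝ) + 1 by positivity)
      have r1 : rate x y η ≤ (n : ℝ) ^ 2 := by
        simp only [rate]; nlinarith
      have r2 : rate' x y η ≤ (n : ℝ) ^ 2 := by
        simp only [rate']; nlinarith
      set P := Real.sqrt ((η x).val : ℝ) with hP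
      set Q := Real.sqrt (((η y).val : ℝ) + 1) with hQ
      set A := Real.sqrt (rate x y η) with hA
      set B := Real.sqrt (rate' x y η) with hB
      set g := f η with hg
      set g' := f (mv x y η) with hg'
      have u1 : (P * g - Q * g') ^ 2 ≤ 2 * (n : ℝ) * (g ^ 2 + g' ^ 2) := by
        nlinarith [sq_nonneg (P * g + Q * g'), mul_le_mul_of_nonneg_right ha (sq_nonneg g),
          mul_le_mul_of_nonneg_right hb (sq_nonneg g')]
      have u2 : (A * g - B * g') * (A * g - B * g') ≤ 2 * (n : ℝ) ^ 2 * (g ^ 2 + g' ^ 2) := by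
        nlinarith [sq_nonneg (A * g + B * g'), mul_le_mul_of_nonneg_right r1 (sq_nonneg g),
          mul_le_mul_of_nonneg_right r2 (sq_nonneg g')]
      rw [abs_le]
      constructor
      · nlinarith [sq_nonneg (P * g - Q * g')]
      · nlinarith [mul_self_nonneg (A * g - B * g')]
    · have e1 : (η x).val = 1 := by omega
      have e2 : (η y).val = 0 := by omega
      have r1 : rate x y η = n := by simp [rate, e1, e2]
      have r2 : rate' x y η = n := by simp [rate', e1, e2]
      rw [r1, r2, e1, e2]
      have s : Real.sqrt (n : ℝ) * Real.sqrt (n : ℝ) = n := Real.mul_self_sqrt (Nat.cast_nonneg n)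
      simp only [Nat.cast_one, Nat.cast_zero, zero_add, Real.sqrt_one, one_mul, mul_zero]
      apply le_of_eq
      rw [abs_eq_zero]
      linear_combination (-(f η - f (mv x y η)) ^ 2) * s
  have hswap : (∑ η, if Can x y η then
      (if 2 ≤ (η x).val + (η y).val then f (mv x y η) ^ 2 else 0) else 0) ≤ pairP x y f := by
    have h := sum_can_swap (n := n) hxy
      (fun η η' => if 2 ≤ (η' x).val + (η' y).val then f η' ^ 2 else 0)
    refine le_trans (le_of_eq ?_) (le_trans (le_of_eq h) ?_)
    · refine Finset.sum_congr rfl fun η _ => ?_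
      by_cases hc : Can x y η
      · rw [if_pos hc, if_pos hc]
        refine if_congr ?_ rfl rfl
        obtain ⟨c1, c2⟩ := hc
        rw [mv_apply_src hxy, mv_apply_dst]
        simp only [dec, inc]; omega
      · rw [if_neg hc, if_neg hc]
    · refine Finset.sum_le_sum fun η _ => ?_
      split_ifs <;> first | exact le_rfl | exact sq_nonneg _
  have hfirst : (∑ η, if Can x y η then
      (if 2 ≤ (η x).val + (η y).val then f η ^ 2 else 0) else 0) ≤ pairP x y f := by
    refine Finset.sum_le_sum fun η _ => ?_
    split_ifs <;> first | exact le_rfl | exact sq_nonneg _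
  rw [freeTerm, transForm, Finset.mul_sum, ← Finset.sum_sub_distrib]
  refine (Finset.abs_sum_le_sum_abs _ _).trans ?_
  calc _ ≤ ∑ η, 2 * (n : ℝ) ^ 2 *
        ((if Can x y η then (if 2 ≤ (η x).val + (η y).val then f η ^ 2 else 0) else 0)
        + if Can x y η then (if 2 ≤ (η x).val + (η y).val then f (mv x y η) ^ 2 else 0) else 0) := by
        refine Finset.sum_le_sum fun η _ => ?_
        by_cases hc : Can x y η
        · simp only [if_pos hc]
          refine (hterm η hc).trans (le_of_eq ?_)
          split_ifs <;> ring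
        · simp [if_neg hc]
    _ ≤ _ := by
        rw [← Finset.mul_sum, Finset.sum_add_distrib]
        nlinarith [mul_le_mul_of_nonneg_left (add_le_add hfirst hswap)
          (show (0:ℝ) ≤ 2 * (n : ℝ) ^ 2 by positivity)]

/-- Valid jumps, grouped by configurations. -/
theorem freeTerm_eq {x y : V} (hxy : x ≠ y) {f : Cfg n V → ℝ} (hf : ∀ η, tot η ≠ k → f η = 0)
    (F : (Fin k → V) → ℝ)
    (hF : ∀ u, Valid n u → F u = f (cfgOf n u) / Real.sqrt (wt n k (cfgOf n u))) :
    freeTerm x y f = ∑ u, ∑ i, if u i = x ∧ Valid n u ∧ Valid n (Function.update u i y) then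
      (F u - F (Function.update u i y)) ^ 2 else 0 := by
  have h1 : (∑ u, ∑ i, if u i = x ∧ Valid n u ∧ Valid n (Function.update u i y) then
      (F u - F (Function.update u i y)) ^ 2 else 0)
      = ∑ u, if Valid n u then ∑ i, (if u i = x then
          (if Valid n (Function.update u i y) then (F u - F (Function.update u i y)) ^ 2 else 0)
            else 0) else 0 := by
    refine Finset.sum_congr rfl fun u _ => ?_
    by_cases hv : Valid n u
    · rw [if_pos hv]
      exact Finset.sum_congr rfl fun i _ => by
        by_cases hi : u i = x <;> simp [hi, hv]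
    · rw [if_neg hv]
      exact Finset.sum_eq_zero fun i _ => if_neg fun h => hv h.2.1
  rw [h1, sum_valid, freeTerm]
  refine Finset.sum_congr rfl fun η _ => ?_
  by_cases hc : Can x y η
  · rw [if_pos hc]
    have key : ∀ u ∈ fib n k η, (∑ i, if u i = x then
        (if Valid n (Function.update u i y) then (F u - F (Function.update u i y)) ^ 2 else 0)
          else 0) = ((η x).val : ℝ) * (f η / Real.sqrt (wt n k η)
            - f (mv x y η) / Real.sqrt (wt n k (mv x y η))) ^ 2 := by
      intro u hu
      rw [← card_at n η (Finset.mem_filter.1 hu).2 x]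
      refine Finset.sum_congr rfl fun i _ => ?_
      split_ifs with hi hv
      · rw [hF u ((mem_fib n).1 hu).1, hF _ hv, ((mem_fib n).1 hu).2,
          ((mem_fib n).1 (cfgOf_update n hxy hu hi hc)).2]
      · exact absurd ((mem_fib n).1 (cfgOf_update n hxy hu hi hc)).1 hv
      · rfl
    rw [Finset.sum_congr rfl key, Finset.sum_const, nsmul_eq_mul]
    by_cases ht : tot η = k
    · have w0 := wt_pos n ht
      have w1 : 0 < wt n k (mv x y η) := wt_pos n (by rw [tot_mv hxy hc, ht])
      have ha : (0 : ℝ) ≤ (η x).val := Nat.cast_nonneg _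
      have hb : (0 : ℝ) ≤ ((η y).val : ℝ) + 1 := by positivity
      have hw := wt_mv n (k := k) hxy hc
      rw [show ((fib n k η).card : ℝ) = wt n k η from rfl]
      set a : ℝ := ((η x).val : ℝ)
      set b : ℝ := ((η y).val : ℝ) + 1
      set w := wt n k η
      set w' := wt n k (mv x y η)
      have e1 : Real.sqrt a = Real.sqrt (w * a) / Real.sqrt w := by
        rw [Real.sqrt_mul w0.le]; field_simp
      have e2 : Real.sqrt b = Real.sqrt (w * a) / Real.sqrt w' := by
        rw [hw, Real.sqrt_mul w1.le]; field_simp
      rw [e1, e2]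
      have hs := Real.sq_sqrt (mul_nonneg w0.le ha)
      have : (Real.sqrt (w * a) / Real.sqrt w * f η - Real.sqrt (w * a) / Real.sqrt w' * f (mv x y η)) ^ 2
          = Real.sqrt (w * a) ^ 2 * (f η / Real.sqrt w - f (mv x y η) / Real.sqrt w') ^ 2 := by
        ring
      rw [this, hs]; ring
    · rw [hf η ht, hf _ (by rw [tot_mv hxy hc]; exact ht)]; simp
  · rw [if_neg hc]
    symm
    refine Finset.sum_eq_zero fun u hu => Finset.sum_eq_zero fun i _ => ?_
    split_ifs with hi hv
    · exfalso
      apply hc
      constructor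
      · rw [← (Finset.mem_filter.1 hu).2 x]
        exact Finset.card_pos.2 ⟨i, Finset.mem_filter.2 ⟨mem_univ _, hi⟩⟩
      · have h := occ_update u i y y
        have := hv y
        rw [hi, if_neg hxy, if_pos rfl, (Finset.mem_filter.1 hu).2 y] at h
        omega
    · rfl
    · rfl

/-- The spin energy is at most the free energy plus pair terms. -/
theorem kin_le_free (hirr : ∀ x, ¬ adj x x) (hsym : ∀ x y, adj x y → adj y x) (hn : 1 ≤ n)
    {F : (Fin k → V) → ℝ} (hF : SymmFun F) :
    quad (kin adj n) (proj n k F) ≤ quad (kfree adj n k) F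
      + (n : ℝ) ^ 2 * ∑ x, ∑ y, if adj x y then pairP x y (proj n k F) else 0 := by
  rw [quad_kin adj hirr, quad_kfree adj n hsym, Finset.mul_sum, Finset.mul_sum, Finset.mul_sum,
    ← Finset.sum_add_distrib]
  refine Finset.sum_le_sum fun x _ => ?_
  rw [Finset.mul_sum, Finset.mul_sum, Finset.mul_sum, ← Finset.sum_add_distrib]
  refine Finset.sum_le_sum fun y _ => ?_
  split_ifs with h
  · have hxy : x ≠ y := fun e => hirr x (e.symm ▸ h)
    have h1 := (abs_le.1 (abs_sub_le_pair hxy hn (proj n k F))).1
    have h2 : freeTerm x y (proj n k F) ≤ freeT x y F := by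
      rw [freeTerm_eq hxy (fun η hη => proj_eq_zero n F hη) F (fun u hu => eq_proj_div n hF hu)]
      refine Finset.sum_le_sum fun u _ => Finset.sum_le_sum fun i _ => ?_
      split_ifs with h3 h4 <;> first | exact le_rfl | exact sq_nonneg _ | (exact absurd h3.1 h4)
    have h3 := mul_le_mul_of_nonneg_left h2 (Nat.cast_nonneg n : (0:ℝ) ≤ n)
    linarith
  · simp

/-- Jumps that break the cap. -/
def breakT (n : ℕ) (x y : V) (F : (Fin k → V) → ℝ) : ℝ :=
  ∑ u, ∑ i, if u i = x ∧ Valid n u ∧ ¬ Valid n (Function.update u i y) then F u ^ 2 else 0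

theorem breakT_le {x y : V} {f : Cfg n V → ℝ} :
    breakT n x y (emb n k f) ≤ (n : ℝ) * pairP x y f := by
  have h1 : breakT n x y (emb n k f) = ∑ u, if Valid n u then ∑ i, (if u i = x then
      (if ¬ Valid n (Function.update u i y) then emb n k f u ^ 2 else 0) else 0) else 0 := by
    refine Finset.sum_congr rfl fun u _ => ?_
    by_cases hv : Valid n u
    · rw [if_pos hv]
      exact Finset.sum_congr rfl fun i _ => by by_cases hi : u i = x <;> simp [hi, hv]
    · rw [if_neg hv]
      exact Finset.sum_eq_zero fun i _ => if_neg fun h => hv h.2.1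
  rw [h1, sum_valid, pairP, Finset.mul_sum]
  refine Finset.sum_le_sum fun η _ => ?_
  by_cases hp : 2 ≤ (η x).val + (η y).val
  · rw [if_pos hp]
    by_cases ht : tot η = k
    · have w0 := wt_pos n ht
      calc (∑ u ∈ fib n k η, ∑ i, if u i = x then
            (if ¬ Valid n (Function.update u i y) then emb n k f u ^ 2 else 0) else 0)
          ≤ ∑ u ∈ fib n k η, ∑ i, if u i = x then f η ^ 2 / wt n k η else 0 := by
            refine Finset.sum_le_sum fun u hu => Finset.sum_le_sum fun i _ => ?_
            have e : emb n k f u ^ 2 = f η ^ 2 / wt n k η := by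
              rw [emb, if_pos ((mem_fib n).1 hu).1, ((mem_fib n).1 hu).2, div_pow,
                Real.sq_sqrt w0.le]
            split_ifs <;> first | exact le_rfl | exact e.le | (rw [← e]; exact sq_nonneg _)
        _ = ((η x).val : ℝ) * f η ^ 2 := by
            rw [Finset.sum_congr rfl fun u (hu : u ∈ fib n k η) =>
              card_at n η (Finset.mem_filter.1 hu).2 x (f η ^ 2 / wt n k η),
              Finset.sum_const, nsmul_eq_mul, show ((fib n k η).card : ℝ) = wt n k η from rfl]
            field_simp
        _ ≤ (n : ℝ) * f η ^ 2 :=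
            mul_le_mul_of_nonneg_right (by exact_mod_cast Nat.lt_succ_iff.1 (η x).isLt) (sq_nonneg _)
    · refine le_trans (le_of_eq (Finset.sum_eq_zero fun u hu => absurd (tot_of_mem_fib n hu) ht)) ?_
      positivity
  · rw [if_neg hp, mul_zero]
    refine le_of_eq (Finset.sum_eq_zero fun u hu => Finset.sum_eq_zero fun i _ => ?_)
    by_cases hi : u i = x
    swap
    · rw [if_neg hi]
    · rw [if_pos hi]
      refine if_neg (not_not.2 ?_)
      intro z
      have h := occ_update u i y z
      have hx := (Finset.mem_filter.1 hu).2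
      rw [hx z] at h
      have hz : (η z).val ≤ n := Nat.lt_succ_iff.1 (η z).isLt
      have h1x : 1 ≤ (η x).val := by
        rw [← hx x]
        exact Finset.card_pos.2 ⟨i, Finset.mem_filter.2 ⟨mem_univ _, hi⟩⟩
      by_cases hyz : y = z
      · subst hyz
        rw [hi] at h
        have hn1 : 1 ≤ n := h1x.trans (Nat.lt_succ_iff.1 (η x).isLt)
        rw [if_pos rfl] at h
        split_ifs at h with hxy'
        · omega
        · have : (η y).val = 0 := by omega
          omega
      · rw [if_neg hyz] at h; omega

/-- The free energy of the embedding is at most the spin energy plus pair terms. -/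
theorem free_le_kin (hirr : ∀ x, ¬ adj x x) (hsym : ∀ x y, adj x y → adj y x) (hn : 1 ≤ n)
    {f : Cfg n V → ℝ} (hf : ∀ η, tot η ≠ k → f η = 0) :
    quad (kfree adj n k) (emb n k f) ≤ quad (kin adj n) f
      + 3 / 2 * (n : ℝ) ^ 2 * ∑ x, ∑ y, if adj x y then pairP x y f else 0 := by
  rw [quad_kin adj hirr, quad_kfree adj n hsym]
  have hpp : ∀ x y, pairP x y f = pairP y x f := fun x y =>
    Finset.sum_congr rfl fun η _ => by rw [add_comm]
  have hb : ∀ x y, adj x y → (n : ℝ) * freeT x y (emb n k f)
      ≤ transForm x y f f + 6 * (n : ℝ) ^ 2 * pairP x y f := by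
    intro x y h
    have hxy : x ≠ y := fun e => hirr x (e.symm ▸ h)
    have h1 : freeT x y (emb n k f) ≤ freeTerm x y f + breakT n x y (emb n k f)
        + breakT n y x (emb n k f) := by
      rw [freeTerm_eq hxy hf (emb n k f) (fun u hu => if_pos hu)]
      have e : breakT n y x (emb n k f) = ∑ u, ∑ i,
          if u i = x ∧ ¬ Valid n u ∧ Valid n (Function.update u i y) then
            emb n k f (Function.update u i y) ^ 2 else 0 := by
        rw [breakT, Finset.sum_comm]
        conv_rhs => rw [Finset.sum_comm]
        refine Finset.sum_congr rfl fun i _ => ?_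
        simp only [← Finset.sum_filter]
        refine Finset.sum_nbij' (fun u => Function.update u i x) (fun u => Function.update u i y)
          ?_ ?_ ?_ ?_ ?_
        · intro u hu
          simp only [Finset.mem_filter, Finset.mem_univ, true_and, Finset.coe_filter,
            Set.mem_ofPred_eq] at hu ⊢
          refine ⟨update_self _ _ _, hu.2.2, ?_⟩
          rw [Function.update_idem, ← hu.1, Function.update_eq_self]
          exact hu.2.1
        · intro u hu
          simp only [Finset.mem_filter, Finset.mem_univ, true_and, Finset.coe_filter,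
            Set.mem_ofPred_eq] at hu ⊢
          refine ⟨update_self _ _ _, hu.2.2, ?_⟩
          rw [Function.update_idem, ← hu.1, Function.update_eq_self]
          exact hu.2.1
        · intro u hu
          simp only [Finset.mem_filter, Finset.mem_univ, true_and, Finset.coe_filter,
            Set.mem_ofPred_eq] at hu
          simp [← hu.1]
        · intro u hu
          simp only [Finset.mem_filter, Finset.mem_univ, true_and, Finset.coe_filter,
            Set.mem_ofPred_eq] at hu
          simp [← hu.1]
        · intro u hu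
          simp only [Finset.mem_filter, Finset.mem_univ, true_and] at hu
          simp [← hu.1]
      rw [e, breakT, freeT, ← Finset.sum_add_distrib, ← Finset.sum_add_distrib]
      refine Finset.sum_le_sum fun u _ => ?_
      rw [← Finset.sum_add_distrib, ← Finset.sum_add_distrib]
      refine Finset.sum_le_sum fun i _ => ?_
      by_cases hi : u i = x
      · by_cases hv : Valid n u <;> by_cases hv' : Valid n (Function.update u i y) <;>
          simp [hi, hv, hv', emb]
      · simp [hi]
    have h2 := (abs_le.1 (abs_sub_le_pair hxy hn f)).2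
    have h3 := breakT_le (n := n) (k := k) (x := x) (y := y) (f := f)
    have h4 := breakT_le (n := n) (k := k) (x := y) (y := x) (f := f)
    rw [← hpp x y] at h4
    nlinarith [mul_le_mul_of_nonneg_left h1 (Nat.cast_nonneg n : (0:ℝ) ≤ n)]
  rw [Finset.mul_sum, Finset.mul_sum, Finset.mul_sum, ← Finset.sum_add_distrib]
  refine Finset.sum_le_sum fun x _ => ?_
  rw [Finset.mul_sum, Finset.mul_sum, Finset.mul_sum, ← Finset.sum_add_distrib]
  refine Finset.sum_le_sum fun y _ => ?_
  split_ifs with h
  · have := hb x y h
    linarith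
  · simp

end Vale.Agent.P361
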