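import Vale.Agent.P361.Sector
import Mathlib.Analysis.InnerProductSpace.PiL2
import Mathlib.Algebra.Order.Chebyshev

/-!
Writing spin `n/2` as `n` symmetrised layers of spin `1/2`: the exchange becomes a transposition,
which allows comparing long range exchanges with nearest neighbour ones.
-/

namespace Vale.Agent.P361

open Matrix Finset Function
open scoped BigOperators

variable {V : Type*} [Fintype V] [DecidableEq V] (n : ℕ)

/-- Layered configurations. -/
abbrev Lay (V : Type*) : Type _ := V × Fin n → Bool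

/-- Occupied layers at a site. -/
def occB (σ : Lay n V) (x : V) : ℕ := (univ.filter fun a => σ (x, a) = true).card

/-- The configuration of a layered configuration. -/
def cfgB (σ : Lay n V) : Cfg n V := fun x => ⟨occB n σ x, by
  have := Finset.card_le_univ (univ.filter fun a => σ (x, a) = true)
  simp only [Fintype.card_fin] at this
  exact Nat.lt_succ_of_le this⟩

/-- Layered configurations over `η`. -/
def fibB (η : Cfg n V) : Finset (Lay n V) := univ.filter fun σ => cfgB n σ = η

/-- Their number. -/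
def wB (η : Cfg n V) : ℝ := ((fibB n η).card : ℝ)

theorem wB_pos (η : Cfg n V) : 0 < wB n η := by
  refine Nat.cast_pos.2 (Finset.card_pos.2 ⟨fun p => decide (p.2.val < (η p.1).val),
    Finset.mem_filter.2 ⟨mem_univ _, funext fun x => Fin.ext ?_⟩⟩)
  simp only [cfgB, occB, decide_eq_true_eq]
  have hle : (η x).val ≤ n := Nat.lt_succ_iff.1 (η x).isLt
  rw [Finset.card_filter, Fin.sum_univ_eq_sum_range (fun a => if a < (η x).val then 1 else 0),
    ← Finset.card_filter]
  have : (Finset.range n).filter (fun a => a < (η x).val) = Finset.range (η x).val := by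
    ext a; simp; omega
  rw [this, Finset.card_range]

/-- The symmetrised function. -/
noncomputable def lift (f : Cfg n V → ℝ) (σ : Lay n V) : ℝ :=
  f (cfgB n σ) / Real.sqrt (wB n (cfgB n σ))

/-- The cost of exchanging two layered sites. -/
noncomputable def swapE (f : Cfg n V → ℝ) (p q : V × Fin n) : ℝ :=
  ∑ σ : Lay n V, (lift n f (σ ∘ Equiv.swap p q) - lift n f σ) ^ 2

theorem swapE_nonneg (f : Cfg n V → ℝ) (p q : V × Fin n) : 0 ≤ swapE n f p q :=
  Finset.sum_nonneg fun _ _ => sq_nonneg _

theorem swapE_self (f : Cfg n V → ℝ) (p : V × Fin n) : swapE n f p p = 0 := by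
  simp [swapE]

theorem swapE_comm (f : Cfg n V → ℝ) (p q : V × Fin n) : swapE n f p q = swapE n f q p := by
  simp [swapE, Equiv.swap_comm]

theorem cfgB_comp (π : Equiv.Perm (V × Fin n)) (hπ : ∀ p, (π p).1 = p.1) (σ : Lay n V) :
    cfgB n (σ ∘ π) = cfgB n σ := by
  funext x; ext
  simp only [cfgB, occB]
  refine Finset.card_nbij (fun a => (π (x, a)).2) ?_ ?_ ?_
  · intro a ha
    simp only [Finset.coe_filter, Finset.mem_univ, true_and, Function.comp_apply,
      Set.mem_ofPred_eq] at ha ⊢
    rwa [show ((x, (π (x, a)).2) : V × Fin n) = π (x, a) from Prod.ext (hπ (x, a)).symm rfl]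
  · intro a _ b _ hab
    have : π (x, a) = π (x, b) := Prod.ext ((hπ (x, a)).trans (hπ (x, b)).symm) hab
    exact congrArg Prod.snd (π.injective this)
  · intro b hb
    simp only [Finset.coe_filter, Finset.mem_univ, true_and, Function.comp_apply,
      Set.mem_ofPred_eq] at hb
    have h2 : (π.symm (x, b)).1 = x := by
      have := hπ (π.symm (x, b)); rwa [π.apply_symm_apply, eq_comm] at this
    refine ⟨(π.symm (x, b)).2, ?_, ?_⟩
    · simp only [Finset.coe_filter, Finset.mem_univ, true_and, Function.comp_apply,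
        Set.mem_ofPred_eq]
      rw [show ((x, (π.symm (x, b)).2) : V × Fin n) = π.symm (x, b) from Prod.ext h2.symm rfl,
        π.apply_symm_apply]
      exact hb
    · change (π (x, (π.symm (x, b)).2)).2 = b
      rw [show ((x, (π.symm (x, b)).2) : V × Fin n) = π.symm (x, b) from Prod.ext h2.symm rfl,
        π.apply_symm_apply]

theorem swapE_invariant (f : Cfg n V → ℝ) (π : Equiv.Perm (V × Fin n)) (hπ : ∀ p, (π p).1 = p.1)
    (p q : V × Fin n) : swapE n f (π p) (π q) = swapE n f p q := by
  refine Fintype.sum_equiv (Equiv.arrowCongr π.symm (Equiv.refl Bool)) _ _ fun σ => ?_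
  have e : (Equiv.arrowCongr π.symm (Equiv.refl Bool)) σ = σ ∘ π := by
    funext r; simp [Equiv.arrowCongr]
  rw [e]
  have h2 : (σ ∘ π) ∘ Equiv.swap p q = (σ ∘ Equiv.swap (π p) (π q)) ∘ π := by
    funext r
    simp only [Function.comp_apply]
    rw [Equiv.swap_apply_apply]
    simp
  simp only [lift, h2, cfgB_comp n π hπ]

theorem swapE_layer (f : Cfg n V → ℝ) {x y : V} (hxy : x ≠ y) (a b a' b' : Fin n) :
    swapE n f (x, a) (y, b) = swapE n f (x, a') (y, b') := by
  rw [← swapE_invariant n f (Equiv.swap (x, a) (x, a') * Equiv.swap (y, b) (y, b')) ?_ (x, a) (y, b)]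
  · congr 1
    · simp only [Equiv.Perm.mul_apply]
      rw [Equiv.swap_apply_of_ne_of_ne (a := (y, b)) (by simp [hxy]) (by simp [hxy]),
        Equiv.swap_apply_left]
    · simp only [Equiv.Perm.mul_apply]
      rw [Equiv.swap_apply_left, Equiv.swap_apply_of_ne_of_ne (by simp [Ne.symm hxy])
        (by simp [Ne.symm hxy])]
  · intro p
    simp only [Equiv.Perm.mul_apply]
    have h1 : ∀ (z : V) (c c' : Fin n) (r : V × Fin n), (Equiv.swap (z, c) (z, c') r).1 = r.1 := by
      intro z c c' r
      rw [Equiv.swap_apply_def]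
      split_ifs with h h' <;> simp_all
    rw [h1, h1]

theorem cfgB_swap {x y : V} (hxy : x ≠ y) {a b : Fin n} {σ : Lay n V}
    (ha : σ (x, a) = true) (hb : σ (y, b) = false) :
    Can x y (cfgB n σ) ∧ cfgB n (σ ∘ Equiv.swap (x, a) (y, b)) = mv x y (cfgB n σ) := by
  have hx : 0 < occB n σ x :=
    Finset.card_pos.2 ⟨a, Finset.mem_filter.2 ⟨mem_univ _, ha⟩⟩
  have hy : occB n σ y < n := by
    have : (univ.filter fun c => σ (y, c) = true) ⊂ univ :=
      Finset.filter_ssubset.2 ⟨b, mem_univ _, by simp [hb]⟩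
    have h := Finset.card_lt_card this
    simpa [occB] using h
  refine ⟨⟨hx, hy⟩, funext fun z => Fin.ext ?_⟩
  have hs : ∀ c, (σ ∘ Equiv.swap (x, a) (y, b)) (z, c)
      = if z = x ∧ c = a then σ (y, b) else if z = y ∧ c = b then σ (x, a) else σ (z, c) := by
    intro c
    simp only [Function.comp_apply, Equiv.swap_apply_def, Prod.mk.injEq]
    split_ifs <;> rfl
  by_cases e1 : z = x
  · subst e1
    rw [mv_apply_src hxy]
    simp only [cfgB, occB, dec, hs, true_and, hxy, false_and, if_false]
    rw [← Finset.card_erase_of_mem (a := a) (Finset.mem_filter.2 ⟨mem_univ _, ha⟩)]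
    congr 1
    ext c
    simp only [Finset.mem_filter, Finset.mem_univ, true_and, Finset.mem_erase]
    by_cases hc : c = a
    · simp [hc, hb]
    · simp [hc]
  · by_cases e2 : z = y
    · subst e2
      rw [mv_apply_dst]
      simp only [cfgB, occB, inc, hs, true_and, e1, false_and, if_false]
      simp only [occB] at hy
      rw [min_eq_left (by omega)]
      rw [← Finset.card_insert_of_notMem (a := b) (by simp [hb] :
        b ∉ univ.filter fun c => σ (z, c) = true)]
      congr 1
      ext c
      simp only [Finset.mem_filter, Finset.mem_univ, true_and, Finset.mem_insert]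
      by_cases hc : c = b
      · simp [hc, ha]
      · simp [hc]
    · rw [mv_apply_other e1 e2]
      simp only [cfgB, occB, hs, e1, e2, false_and, if_false]

theorem card_jumps (η : Cfg n V) {σ : Lay n V} (hσ : σ ∈ fibB n η) (x y : V) (c : ℝ) :
    (∑ a, ∑ b, if σ (x, a) = true ∧ σ (y, b) = false then c else 0) = rate x y η * c := by
  have h := (Finset.mem_filter.1 hσ).2
  have hy : (univ.filter fun b => σ (y, b) = false).card + (η y).val = n := by
    have h2 := Finset.card_filter_add_card_filter_not (s := (univ : Finset (Fin n)))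
      (fun b => σ (y, b) = true)
    simp only [Finset.card_univ, Fintype.card_fin, Bool.not_eq_true] at h2
    rw [← h]; simp only [cfgB, occB]; omega
  have hy' : ((univ.filter fun b => σ (y, b) = false).card : ℝ) = (n : ℝ) - ((η y).val : ℝ) := by
    rw [eq_sub_iff_add_eq]; exact_mod_cast hy
  simp only [ite_and, Finset.sum_ite_irrel, Finset.sum_const_zero]
  rw [← Finset.sum_filter, Finset.sum_const, nsmul_eq_mul, ← Finset.sum_filter, Finset.sum_const,
    nsmul_eq_mul, hy', rate, ← h]
  simp only [cfgB, occB]; ring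

theorem wB_rate {η : Cfg n V} {x y : V} (hxy : x ≠ y) (hc : Can x y η) :
    wB n η * rate x y η = wB n (mv x y η) * rate y x (mv x y η) := by
  have e : ∀ (ζ : Cfg n V) (p q : V), wB n ζ * rate p q ζ
      = ((fibB n ζ ×ˢ (univ : Finset (Fin n × Fin n))).filter fun t =>
          t.1 (p, t.2.1) = true ∧ t.1 (q, t.2.2) = false).card := by
    intro ζ p q
    rw [Finset.card_filter, Nat.cast_sum, Finset.sum_product, wB]
    rw [Finset.sum_congr rfl (g := fun _ => rate p q ζ) fun σ hσ => by
      rw [Fintype.sum_prod_type]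
      simp only [Nat.cast_ite, Nat.cast_one, Nat.cast_zero]
      rw [card_jumps n ζ hσ p q 1, mul_one]]
    rw [Finset.sum_const, nsmul_eq_mul]
  rw [e, e]
  congr 1
  refine Finset.card_nbij' (fun t => (t.1 ∘ Equiv.swap (x, t.2.1) (y, t.2.2), (t.2.2, t.2.1)))
    (fun t => (t.1 ∘ Equiv.swap (x, t.2.2) (y, t.2.1), (t.2.2, t.2.1))) ?_ ?_ ?_ ?_
  · intro t ht
    simp only [Finset.coe_filter, Finset.mem_product, Finset.mem_univ, and_true, fibB,
      Finset.mem_filter, true_and, Set.mem_ofPred_eq] at ht ⊢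
    obtain ⟨h0, h1, h2⟩ := ht
    refine ⟨?_, ?_, ?_⟩
    · rw [(cfgB_swap n hxy h1 h2).2, h0]
    · simp [h1]
    · simp [h2]
  · intro t ht
    simp only [Finset.coe_filter, Finset.mem_product, Finset.mem_univ, and_true, fibB,
      Finset.mem_filter, true_and, Set.mem_ofPred_eq] at ht ⊢
    obtain ⟨h0, h1, h2⟩ := ht
    refine ⟨?_, ?_, ?_⟩
    · rw [Equiv.swap_comm, (cfgB_swap n (Ne.symm hxy) h1 h2).2, h0, mv_mv hxy hc]
    · simp [h1]
    · simp [h2]
  · intro t _; simp [Function.comp_def]
  · intro t _; simp [Function.comp_def]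

/-- The exchange form is a symmetrised transposition. -/
theorem sum_swapE (f : Cfg n V → ℝ) {x y : V} (hxy : x ≠ y) :
    ∑ a, ∑ b, swapE n f (x, a) (y, b) = 2 * transForm x y f f := by
  have key : ∀ x y : V, x ≠ y → (∑ σ : Lay n V, ∑ a, ∑ b,
      if σ (x, a) = true ∧ σ (y, b) = false then
        (lift n f (σ ∘ Equiv.swap (x, a) (y, b)) - lift n f σ) ^ 2 else 0)
      = transForm x y f f := by
    intro x y hxy
    rw [← Finset.sum_fiberwise univ (cfgB n)]
    refine Finset.sum_congr rfl fun η _ => ?_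
    change ∑ σ ∈ fibB n η, _ = _
    by_cases hc : Can x y η
    · rw [if_pos hc]
      rw [Finset.sum_congr rfl (g := fun _ => rate x y η *
          (f (mv x y η) / Real.sqrt (wB n (mv x y η)) - f η / Real.sqrt (wB n η)) ^ 2)
        fun σ hσ => by
          rw [← card_jumps n η hσ x y]
          refine Finset.sum_congr rfl fun a _ => Finset.sum_congr rfl fun b _ => ?_
          split_ifs with h
          · simp only [lift, (cfgB_swap n hxy h.1 h.2).2, (Finset.mem_filter.1 hσ).2]
          · rfl]
      rw [Finset.sum_const, nsmul_eq_mul, show ((fibB n η).card : ℝ) = wB n η from rfl]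
      have w0 := wB_pos n η
      have w1 := wB_pos n (mv x y η)
      have hw := wB_rate n hxy hc
      rw [rate_mv hxy hc] at hw
      set w := wB n η
      set w' := wB n (mv x y η)
      have hr : 0 ≤ w * rate x y η := mul_nonneg w0.le (rate_nonneg x y η)
      have e1 : Real.sqrt (rate x y η) = Real.sqrt (w * rate x y η) / Real.sqrt w := by
        rw [Real.sqrt_mul w0.le]; field_simp
      have e2 : Real.sqrt (rate' x y η) = Real.sqrt (w * rate x y η) / Real.sqrt w' := by
        rw [hw, Real.sqrt_mul w1.le]; field_simp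
      rw [e1, e2, ← mul_assoc, ← Real.sq_sqrt hr]
      rw [Real.sqrt_sq (Real.sqrt_nonneg _)]
      ring
    · rw [if_neg hc]
      refine Finset.sum_eq_zero fun σ hσ => Finset.sum_eq_zero fun a _ =>
        Finset.sum_eq_zero fun b _ => ?_
      rw [if_neg]
      intro h
      apply hc
      rw [← (Finset.mem_filter.1 hσ).2]
      exact (cfgB_swap n hxy h.1 h.2).1
  have e : ∀ a b (σ : Lay n V), (lift n f (σ ∘ Equiv.swap (x, a) (y, b)) - lift n f σ) ^ 2
      = (if σ (x, a) = true ∧ σ (y, b) = false then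
          (lift n f (σ ∘ Equiv.swap (x, a) (y, b)) - lift n f σ) ^ 2 else 0)
        + (if σ (y, b) = true ∧ σ (x, a) = false then
          (lift n f (σ ∘ Equiv.swap (y, b) (x, a)) - lift n f σ) ^ 2 else 0) := by
    intro a b σ
    rcases hb : σ (x, a) <;> rcases hb' : σ (y, b)
    all_goals simp [Equiv.swap_comm (y, b) (x, a)]
    all_goals
      have : σ ∘ Equiv.swap (x, a) (y, b) = σ := by
        funext r
        simp only [Function.comp_apply, Equiv.swap_apply_def]
        split_ifs with h h' <;> simp_all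
      simp [this]
  have h1 : ∑ a, ∑ b, swapE n f (x, a) (y, b) = transForm x y f f + transForm y x f f := by
    rw [← key x y hxy, ← key y x (Ne.symm hxy)]
    simp only [swapE]
    rw [← Finset.sum_add_distrib, Finset.sum_congr rfl fun a _ => Finset.sum_comm, Finset.sum_comm]
    refine Finset.sum_congr rfl fun σ _ => ?_
    rw [Finset.sum_comm (f := fun a b => if σ (y, a) = true ∧ σ (x, b) = false then
      (lift n f (σ ∘ Equiv.swap (y, a) (x, b)) - lift n f σ) ^ 2 else 0), ← Finset.sum_add_distrib]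
    refine Finset.sum_congr rfl fun a _ => ?_
    rw [← Finset.sum_add_distrib]
    exact Finset.sum_congr rfl fun b _ => e a b σ
  rw [h1, transForm_comm (Ne.symm hxy)]; ring

variable [NeZero n]

/-- The cost of exchanging two sites. -/
noncomputable def siteE (f : Cfg n V → ℝ) (x y : V) : ℝ := swapE n f (x, 0) (y, 0)

theorem transForm_eq_siteE (f : Cfg n V → ℝ) {x y : V} (hxy : x ≠ y) :
    2 * transForm x y f f = (n : ℝ) ^ 2 * siteE n f x y := by
  rw [← sum_swapE n f hxy, Finset.sum_congr rfl fun a _ => Finset.sum_congr rfl fun b _ =>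
    swapE_layer n f hxy a b 0 0]
  simp only [Finset.sum_const, Finset.card_univ, Fintype.card_fin, nsmul_eq_mul, siteE]
  ring

/-- The square root of the exchange cost. -/
noncomputable def dPerm (f : Cfg n V → ℝ) (π : Equiv.Perm (V × Fin n)) : ℝ :=
  ‖(WithLp.toLp 2 fun σ : Lay n V => lift n f (σ ∘ π) - lift n f σ : EuclideanSpace ℝ (Lay n V))‖

theorem dPerm_sq (f : Cfg n V → ℝ) (p q : V × Fin n) :
    dPerm n f (Equiv.swap p q) ^ 2 = swapE n f p q := by
  rw [dPerm, EuclideanSpace.norm_sq_eq]
  simp [swapE]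

theorem dPerm_mul (f : Cfg n V → ℝ) (π τ : Equiv.Perm (V × Fin n)) :
    dPerm n f (π * τ) ≤ dPerm n f π + dPerm n f τ := by
  have h2 : dPerm n f π = ‖(WithLp.toLp 2 fun σ : Lay n V =>
      lift n f (σ ∘ π) - lift n f σ : EuclideanSpace ℝ (Lay n V))‖ := rfl
  have e : (WithLp.toLp 2 fun σ : Lay n V => lift n f (σ ∘ (π * τ : Equiv.Perm _)) - lift n f σ :
        EuclideanSpace ℝ (Lay n V))
      = (WithLp.toLp 2 fun σ : Lay n V => lift n f ((σ ∘ π) ∘ τ) - lift n f (σ ∘ π))
        + (WithLp.toLp 2 fun σ : Lay n V => lift n f (σ ∘ π) - lift n f σ) := by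
    ext σ; simp [Equiv.Perm.coe_mul, Function.comp_assoc]
  rw [dPerm, e]
  refine (norm_add_le _ _).trans (le_of_eq ?_)
  rw [add_comm]
  congr 1
  rw [dPerm, EuclideanSpace.norm_eq, EuclideanSpace.norm_eq]
  congr 1
  refine Fintype.sum_equiv (Equiv.arrowCongr π.symm (Equiv.refl Bool)) _ _ fun σ => ?_
  have : (Equiv.arrowCongr π.symm (Equiv.refl Bool)) σ = σ ∘ π := by
    funext r; simp [Equiv.arrowCongr]
  rw [this]

theorem dPerm_path (f : Cfg n V → ℝ) (p : ℕ → V) (m : ℕ) :
    dPerm n f (Equiv.swap (p 0, 0) (p m, 0))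
      ≤ 2 * ∑ i ∈ range m, dPerm n f (Equiv.swap (p i, 0) (p (i + 1), 0)) := by
  induction m with
  | zero =>
      rw [dPerm]
      simp only [Equiv.swap_self, Equiv.coe_refl, Function.comp_id, sub_self]
      rw [← Pi.zero_def, WithLp.toLp_zero, norm_zero]; simp
  | succ m ih =>
    have h0 : ∀ i, 0 ≤ dPerm n f (Equiv.swap (p i, 0) (p (i + 1), 0)) := fun i => norm_nonneg _
    have hsum : 0 ≤ ∑ i ∈ range m, dPerm n f (Equiv.swap (p i, 0) (p (i + 1), 0)) :=
      Finset.sum_nonneg fun i _ => h0 i
    rw [Finset.sum_range_succ]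
    by_cases e1 : p (m + 1) = p 0
    · have : dPerm n f (Equiv.swap (p 0, (0 : Fin n)) (p (m + 1), 0)) = 0 := by
        rw [e1, dPerm]
        simp only [Equiv.swap_self, Equiv.coe_refl, Function.comp_id, sub_self]
        rw [← Pi.zero_def, WithLp.toLp_zero, norm_zero]
      rw [this]; linarith [h0 m]
    by_cases e2 : p m = p 0
    · rw [← e2]; linarith [h0 m]
    set s := Equiv.swap (p m, (0 : Fin n)) (p (m + 1), 0) with hs
    have e3 : Equiv.swap (p 0, (0 : Fin n)) (p (m + 1), 0)
        = s * Equiv.swap (p 0, (0 : Fin n)) (p m, 0) * s⁻¹ := by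
      rw [← Equiv.swap_apply_apply, hs, Equiv.swap_apply_left,
        Equiv.swap_apply_of_ne_of_ne (by simp [Ne.symm e2]) (by simp [Ne.symm e1])]
    rw [e3]
    have h1 := dPerm_mul n f (s * Equiv.swap (p 0, (0 : Fin n)) (p m, 0)) s⁻¹
    have h2 := dPerm_mul n f s (Equiv.swap (p 0, (0 : Fin n)) (p m, 0))
    have h3 : dPerm n f s⁻¹ = dPerm n f s := by rw [hs, Equiv.swap_inv]
    linarith

/-- Long exchanges are controlled by the steps of a path. -/
theorem siteE_path (f : Cfg n V → ℝ) (p : ℕ → V) (m : ℕ) :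
    siteE n f (p 0) (p m) ≤ 4 * (m : ℝ) * ∑ i ∈ range m, siteE n f (p i) (p (i + 1)) := by
  rw [siteE, ← dPerm_sq]
  have h := pow_le_pow_left₀ (norm_nonneg _) (dPerm_path n f p m) 2
  have hc := sq_sum_le_card_mul_sum_sq (s := range m)
    (f := fun i => dPerm n f (Equiv.swap (p i, (0 : Fin n)) (p (i + 1), 0)))
  rw [Finset.card_range] at hc
  simp only [dPerm_sq] at hc
  simp only [siteE]
  calc _ ≤ (2 * ∑ i ∈ range m, dPerm n f (Equiv.swap (p i, (0 : Fin n)) (p (i + 1), 0))) ^ 2 := h
    _ = 4 * (∑ i ∈ range m, dPerm n f (Equiv.swap (p i, (0 : Fin n)) (p (i + 1), 0))) ^ 2 := by ring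
    _ ≤ _ := by
        rw [mul_assoc]
        exact mul_le_mul_of_nonneg_left hc (by norm_num)

end Vale.Agent.P361
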