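import Vale.Agent.P361.Blocks
import Vale.Agent.P361.Cube

/-!
Tiling a cube by smaller cubes.
-/

namespace Vale.Agent.P361

open Matrix Finset Function
open scoped BigOperators

/-- Sites covered by the `q³` small cubes of side `m`. -/
def Tiled (L q m : ℕ) (x : Grid L) : Prop := ∀ j, (x j).val < q * m

instance (L q m : ℕ) (x : Grid L) : Decidable (Tiled L q m x) :=
  inferInstanceAs (Decidable (∀ _, _))

/-- Labels of the blocks. -/
abbrev TileIdx (L q m : ℕ) : Type := (Fin 3 → Fin q) ⊕ {x : Grid L // ¬ Tiled L q m x}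

/-- The block of a site. -/
def tileOf (L q m : ℕ) (x : Grid L) : TileIdx L q m :=
  if h : Tiled L q m x then
    Sum.inl fun j => ⟨(x j).val / m, Nat.div_lt_iff_lt_mul (Nat.pos_of_ne_zero fun e => by
      have := h j; simp [e] at this) |>.2 (h j)⟩
  else Sum.inr ⟨x, h⟩

/-- Coordinates of a site of a small cube in the large one. -/
theorem tile_coord_lt {L q m : ℕ} (hL : q * m ≤ L) (b : Fin q) (w : Fin m) :
    b.val * m + w.val < L := by
  have h1 : (b.val + 1) * m ≤ q * m := Nat.mul_le_mul_right m b.isLt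
  have := w.isLt
  rw [Nat.succ_mul] at h1
  omega

/-- A small cube inside the large one. -/
def tileEmb {L q m : ℕ} (hL : q * m ≤ L) (b : Fin 3 → Fin q) (w : Grid m) : Grid L :=
  fun j => ⟨(b j).val * m + (w j).val, tile_coord_lt hL (b j) (w j)⟩

theorem tileOf_emb {L q m : ℕ} (hL : q * m ≤ L) (b : Fin 3 → Fin q) (w : Grid m) :
    tileOf L q m (tileEmb hL b w) = Sum.inl b := by
  have ht : Tiled L q m (tileEmb hL b w) := fun j => by
    have h1 : ((b j).val + 1) * m ≤ q * m := Nat.mul_le_mul_right m (b j).isLt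
    have := (w j).isLt
    rw [Nat.succ_mul] at h1
    simp only [tileEmb]; omega
  rw [tileOf, dif_pos ht]
  congr 1
  funext j; ext
  simp only [tileEmb]
  have hm : 0 < m := (w j).pos
  rw [add_comm, Nat.add_mul_div_right _ _ hm, Nat.div_eq_of_lt (w j).isLt, zero_add]

theorem tile_of_eq_inl {L q m : ℕ} {x : Grid L} {b : Fin 3 → Fin q}
    (h : tileOf L q m x = Sum.inl b) : Tiled L q m x ∧ ∀ j, (x j).val / m = (b j).val := by
  rw [tileOf] at h
  split_ifs at h with ht
  exact ⟨ht, fun j => congrArg Fin.val (congrFun (Sum.inl.inj h) j)⟩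

/-- A block is a small cube. -/
def tileEquiv {L q m : ℕ} (hm : 0 < m) (hL : q * m ≤ L) (b : Fin 3 → Fin q) :
    Grid m ≃ Blk (tileOf L q m) (Sum.inl b) where
  toFun w := ⟨tileEmb hL b w, tileOf_emb hL b w⟩
  invFun x := fun j => ⟨(x.1 j).val % m, Nat.mod_lt _ hm⟩
  left_inv w := by
    funext j; ext
    simp only [tileEmb]
    rw [add_comm, Nat.add_mul_mod_self_right, Nat.mod_eq_of_lt (w j).isLt]
  right_inv x := by
    obtain ⟨x, hx⟩ := x
    refine Subtype.ext (funext fun j => Fin.ext ?_)
    simp only [tileEmb]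
    rw [← (tile_of_eq_inl hx).2 j, mul_comm, Nat.div_add_mod]

theorem tileEquiv_adj {L q m : ℕ} (hm : 0 < m) (hL : q * m ≤ L) (b : Fin 3 → Fin q)
    (v w : Grid m) :
    gadj m v w ↔ gadj L (tileEquiv hm hL b v).1 (tileEquiv hm hL b w).1 := by
  simp only [gadj, tileEquiv, Equiv.coe_fn_mk, tileEmb]
  rw [Finset.sum_congr rfl fun j _ => show |((v j).val : ℤ) - (w j).val|
    = |(((b j).val * m + (v j).val : ℕ) : ℤ) - (((b j).val * m + (w j).val : ℕ) : ℤ)| from by
      push_cast; ring_nf]

theorem blk_inr_unique {L q m : ℕ} (x : {x : Grid L // ¬ Tiled L q m x})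
    (y : Blk (tileOf L q m) (Sum.inr x)) : y.1 = x.1 := by
  obtain ⟨y, hy⟩ := y
  rw [tileOf] at hy
  split_ifs at hy
  exact congrArg Subtype.val (Sum.inr.inj hy)

theorem card_untiled {L q m : ℕ} (hL : q * m ≤ L) :
    ((Fintype.card {x : Grid L // ¬ Tiled L q m x} : ℝ)) = (L : ℝ) ^ 3 - ((q * m : ℕ) : ℝ) ^ 3 := by
  have h1 : Fintype.card {x : Grid L // Tiled L q m x} = (q * m) ^ 3 := by
    rw [Fintype.card_congr (show {x : Grid L // Tiled L q m x} ≃ Grid (q * m) from
      { toFun := fun x j => ⟨(x.1 j).val, x.2 j⟩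
        invFun := fun w => ⟨fun j => ⟨(w j).val, (w j).isLt.trans_le hL⟩, fun j => (w j).isLt⟩
        left_inv := fun x => rfl
        right_inv := fun w => rfl })]
    simp
  have h2 : (q * m) ^ 3 ≤ L ^ 3 := Nat.pow_le_pow_left hL 3
  rw [Fintype.card_subtype_compl, h1, show Fintype.card (Grid L) = L ^ 3 by simp,
    Nat.cast_sub h2]
  push_cast; ring

theorem part_point {n : ℕ} {W : Type*} [Fintype W] [DecidableEq W] [Subsingleton W]
    (adj : W → W → Prop) [DecidableRel adj] (hirr : ∀ x, ¬ adj x x) (β c : ℝ) :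
    part adj n β (fun _ => c) ≤ ((n : ℝ) + 1) * Real.exp ((n : ℝ) * |c|) := by
  obtain ⟨U, d, -, -, hd0, hp⟩ := exists_kin_eig (n := n) adj hirr
  have hk : kin adj n = (0 : Matrix (Cfg n W) (Cfg n W) ℝ) := by
    rw [kin, Finset.sum_eq_zero fun x _ => Finset.sum_eq_zero fun y _ => ?_, smul_zero]
    exact if_neg fun h => hirr x (by rwa [Subsingleton.elim y x] at h)
  have hE : Eig (ham adj n β fun _ => c) (1 : Matrix (Cfg n W) (Cfg n W) ℝ)
      (fun η => ∑ x, c * ((η x).val : ℝ)) := by
    refine ⟨by simp, ?_⟩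
    rw [ham, hk, smul_zero, zero_add, Matrix.one_mul, Matrix.transpose_one, Matrix.mul_one]
    rfl
  rw [part, hE.zf]
  have hc : Fintype.card W ≤ 1 := Fintype.card_le_one_iff_subsingleton.2 inferInstance
  calc _ ≤ ∑ _η : Cfg n W, Real.exp ((n : ℝ) * |c|) := by
        refine Finset.sum_le_sum fun η _ => Real.exp_le_exp.2 ?_
        rw [← Finset.mul_sum]
        have h1 : ∑ x, ((η x).val : ℝ) ≤ n := by
          calc ∑ x, ((η x).val : ℝ) ≤ ∑ _x : W, (n : ℝ) :=
                Finset.sum_le_sum fun x _ => by exact_mod_cast Nat.lt_succ_iff.1 (η x).isLt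
            _ ≤ n := by
                rw [Finset.sum_const, Finset.card_univ, nsmul_eq_mul]
                exact mul_le_of_le_one_left (Nat.cast_nonneg n) (by exact_mod_cast hc)
        have h0 : 0 ≤ ∑ x, ((η x).val : ℝ) := Finset.sum_nonneg fun x _ => Nat.cast_nonneg _
        calc -(c * ∑ x, ((η x).val : ℝ)) ≤ |c| * ∑ x, ((η x).val : ℝ) := by
              rw [← neg_mul]; exact mul_le_mul_of_nonneg_right (neg_le_abs c) h0
          _ ≤ |c| * n := mul_le_mul_of_nonneg_left h1 (abs_nonneg c)
          _ = _ := mul_comm _ _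
    _ ≤ _ := by
        rw [Finset.sum_const, Finset.card_univ, nsmul_eq_mul]
        refine mul_le_mul_of_nonneg_right ?_ (Real.exp_nonneg _)
        rw [Fintype.card_fun, Fintype.card_fin]
        exact_mod_cast (Nat.pow_le_pow_right (Nat.succ_pos n) hc).trans_eq (pow_one _)

/-- Tiling upper bound. -/
theorem part_tile_le {n L q m : ℕ} (hm : 0 < m) (hL : q * m ≤ L) {β : ℝ} (hβ : 0 ≤ β) (c : ℝ) :
    part (gadj L) n β (fun _ => c) ≤ part (gadj m) n β (fun _ => c) ^ (q ^ 3) *
      (((n : ℝ) + 1) * Real.exp ((n : ℝ) * |c|)) ^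
        Fintype.card {x : Grid L // ¬ Tiled L q m x} := by
  refine (part_le_inner (tileOf L q m) (gadj L) (gadj_irrefl L) hβ _).trans ?_
  rw [Fintype.prod_sum_type]
  have hpos : ∀ b : TileIdx L q m,
      0 ≤ part (BlkAdj (tileOf L q m) (gadj L) b) n β (fun _ => c) := fun b =>
    (part_pos _ (fun x => gadj_irrefl L x.1) β _).le
  refine mul_le_mul (le_of_eq ?_) ?_ (Finset.prod_nonneg fun x _ => hpos _)
    (pow_nonneg (part_pos _ (gadj_irrefl m) β _).le _)
  · rw [Finset.prod_congr rfl fun b _ =>
      (part_relabel (tileEquiv hm hL b) (BlkAdj (tileOf L q m) (gadj L) (Sum.inl b))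
        (fun x => gadj_irrefl L x.1) (gadj m) (tileEquiv_adj hm hL b) β (fun _ => c) (fun _ => c)
        (fun _ => rfl)).symm]
    simp
  · refine (Finset.prod_le_prod (fun x _ => hpos _) fun x _ => ?_).trans_eq
      (by rw [Finset.prod_const, Finset.card_univ])
    have : Subsingleton (Blk (tileOf L q m) (Sum.inr x)) :=
      ⟨fun y z => Subtype.ext ((blk_inr_unique x y).trans (blk_inr_unique x z).symm)⟩
    exact part_point _ (fun x => gadj_irrefl L x.1) β c

/-- The potential of a cube with walls. -/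
noncomputable def wall (n m : ℕ) (β c : ℝ) (w : Grid m) : ℝ :=
  c + if bdry w then β * n * 6 else 0

/-- Tiling lower bound. -/
theorem le_part_tile {n L q m : ℕ} (hm : 0 < m) (hL : q * m ≤ L) {β : ℝ} (hβ : 0 ≤ β) (c : ℝ) :
    part (gadj m) n β (wall n m β c) ^ (q ^ 3) ≤ part (gadj L) n β (fun _ => c) := by
  set pot' : Grid L → ℝ := fun x => c +
    if h : Tiled L q m x then
      (if bdry (fun j => (⟨(x j).val % m, Nat.mod_lt _ hm⟩ : Fin m)) then β * n * 6 else 0)
    else β * n * 6 with hpot
  have hdeg : ∀ x, (extDeg (tileOf L q m) (gadj L) x : ℝ) ≤ 6 := fun x => by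
    have h1 : extDeg (tileOf L q m) (gadj L) x ≤ (univ.filter fun y => gadj L x y).card :=
      Finset.card_le_card fun y hy => by
        simp only [Finset.mem_filter, Finset.mem_univ, true_and] at hy ⊢
        exact hy.1
    exact_mod_cast h1.trans (gadj_deg_le x)
  refine le_trans ?_ (prod_le_part (tileOf L q m) (gadj L) (gadj_irrefl L) gadj_symm hβ
    (fun _ => c) pot' fun x => ?_)
  · rw [Fintype.prod_sum_type]
    refine le_trans ?_ (le_mul_of_one_le_right
      (Finset.prod_nonneg fun b _ => (part_pos _ (fun x => gadj_irrefl L x.1) β _).le)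
      (Finset.one_le_prod fun x _ => by exact one_le_part _ (fun y => gadj_irrefl L y.1) β _))
    refine le_of_eq ?_
    rw [Finset.prod_congr rfl fun b _ =>
      (part_relabel (tileEquiv hm hL b) (BlkAdj (tileOf L q m) (gadj L) (Sum.inl b))
        (fun x => gadj_irrefl L x.1) (gadj m) (tileEquiv_adj hm hL b) β (fun x => pot' x.1)
        (wall n m β c) (fun w => ?_)).symm]
    · simp
    · simp only [hpot, wall, tileEquiv, Equiv.coe_fn_mk]
      rw [dif_pos (tile_of_eq_inl (tileOf_emb hL b w)).1]
      congr 2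
      refine propext ?_
      have : (fun j => (⟨(tileEmb hL b w j).val % m, Nat.mod_lt _ hm⟩ : Fin m)) = w := by
        funext j; ext
        simp only [tileEmb]
        rw [add_comm, Nat.add_mul_mod_self_right, Nat.mod_eq_of_lt (w j).isLt]
      rw [this]
  · simp only [hpot]
    have hbn : 0 ≤ β * (n : ℝ) := mul_nonneg hβ (Nat.cast_nonneg n)
    have h6 := mul_le_mul_of_nonneg_left (hdeg x) hbn
    split_ifs with ht hb
    · linarith
    · have h0 : extDeg (tileOf L q m) (gadj L) x = 0 := by
        refine Finset.card_eq_zero.2 (Finset.filter_eq_empty_iff.2 fun y _ hy => hy.2 ?_)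
        have hnb : ∀ j, 0 < (x j).val % m ∧ (x j).val % m + 1 ≠ m := by
          intro j
          have := not_exists.1 hb j
          simp only [not_or] at this
          exact ⟨Nat.pos_of_ne_zero this.1, this.2⟩
        have hd : ∀ j, (y j).val + 1 = (x j).val ∨ (y j).val = (x j).val ∨
            (y j).val = (x j).val + 1 := by
          intro j
          have h1 : |((x j).val : ℤ) - (y j).val| ≤ 1 :=
            (Finset.single_le_sum (f := fun i => |((x i).val : ℤ) - (y i).val|)
              (fun i _ => abs_nonneg _) (Finset.mem_univ j)).trans_eq hy.1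
          obtain ⟨h2, h3⟩ := abs_le.1 h1
          omega
        have hdiv : ∀ j, (y j).val / m = (x j).val / m ∧ (y j).val < q * m := by
          intro j
          have h1 := Nat.div_add_mod (x j).val m
          have h2 := Nat.mod_lt (x j).val hm
          obtain ⟨h3, h4⟩ := hnb j
          set a := (x j).val / m
          have h5 : a < q := (Nat.div_lt_iff_lt_mul hm).2 (ht j)
          have h6 : (a + 1) * m ≤ q * m := Nat.mul_le_mul_right m h5
          have e2 : (a + 1) * m = m * a + m := by ring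
          rw [e2] at h6
          have h7 : m * a ≤ (y j).val ∧ (y j).val < m * a + m := by
            rcases hd j with h | h | h <;> omega
          refine ⟨Nat.div_eq_of_lt_le (by rw [mul_comm]; exact h7.1) (by rw [e2]; exact h7.2), ?_⟩
          omega
        rw [tileOf, tileOf, dif_pos (show Tiled L q m y from fun j => (hdiv j).2), dif_pos ht]
        congr 1
        funext j; ext
        exact (hdiv j).1
      rw [h0]; simp
    · linarith

end Vale.Agent.P361
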