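import Vale.Agent.P361.Sym
import Vale.Agent.P361.Cube
import Vale.Agent.P361.Tile

/-!
Lower bound on the partition function of one cube with walls by Dirichlet magnons.
-/

namespace Vale.Agent.P361

open Matrix Finset Function
open scoped BigOperators

section count

variable {V : Type*} [Fintype V] [DecidableEq V]

/-- Tuples with two entries in a small set are few. -/
theorem card_two_in (k : ℕ) (s : Finset V) :
    ((univ.filter fun u : Fin k → V => ∃ i j, i ≠ j ∧ u i ∈ s ∧ u j ∈ s).card : ℝ)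
        * (Fintype.card V : ℝ) ^ 2 ≤ (k : ℝ) ^ 2 * (s.card : ℝ) ^ 2 * (Fintype.card V : ℝ) ^ k := by
  set T : Fin k → Fin k → Finset (Fin k → V) :=
    fun i j => univ.filter fun u => i ≠ j ∧ u i ∈ s ∧ u j ∈ s with hT
  have hone : ∀ i j, ((T i j).card : ℝ) * (Fintype.card V : ℝ) ^ 2
      ≤ (s.card : ℝ) ^ 2 * (Fintype.card V : ℝ) ^ k := by
    intro i j
    by_cases hij : i = j
    · have : T i j = ∅ := by simp [hT, hij]
      rw [this]; simp; positivity
    · have hsub : T i j ⊆ Fintype.piFinset (fun l => if l = i ∨ l = j then s else univ) := by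
        intro u hu
        obtain ⟨-, -, h1, h2⟩ := Finset.mem_filter.1 hu
        refine Fintype.mem_piFinset.2 fun l => ?_
        split_ifs with h
        · rcases h with rfl | rfl <;> assumption
        · exact mem_univ _
      have hc := Finset.card_le_card hsub
      rw [Fintype.card_piFinset] at hc
      refine (mul_le_mul_of_nonneg_right (Nat.cast_le.2 hc) (by positivity)).trans (le_of_eq ?_)
      have hk : (Fintype.card V : ℝ) ^ k = ∏ _l : Fin k, (Fintype.card V : ℝ) := by simp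
      have hji : j ∈ (univ : Finset (Fin k)).erase i :=
        Finset.mem_erase.2 ⟨Ne.symm hij, mem_univ _⟩
      rw [hk, Nat.cast_prod, ← Finset.mul_prod_erase _ _ (mem_univ i),
        ← Finset.mul_prod_erase _ _ hji, ← Finset.mul_prod_erase _ _ (mem_univ i),
        ← Finset.mul_prod_erase _ _ hji]
      have e : ∏ l ∈ ((univ : Finset (Fin k)).erase i).erase j,
          (((if l = i ∨ l = j then s else univ).card : ℕ) : ℝ)
          = ∏ _l ∈ ((univ : Finset (Fin k)).erase i).erase j, (Fintype.card V : ℝ) := by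
        refine Finset.prod_congr rfl fun l hl => ?_
        simp only [Finset.mem_erase] at hl
        rw [if_neg (by tauto), Finset.card_univ]
      rw [e, if_pos (Or.inl rfl), if_pos (Or.inr rfl)]
      ring
  have hcov : (univ.filter fun u : Fin k → V => ∃ i j, i ≠ j ∧ u i ∈ s ∧ u j ∈ s)
      ⊆ (univ : Finset (Fin k × Fin k)).biUnion fun p => T p.1 p.2 := by
    intro u hu
    obtain ⟨-, i, j, h⟩ := Finset.mem_filter.1 hu
    exact Finset.mem_biUnion.2 ⟨(i, j), mem_univ _, Finset.mem_filter.2 ⟨mem_univ _, h⟩⟩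
  have h1 := (Finset.card_le_card hcov).trans Finset.card_biUnion_le
  refine (mul_le_mul_of_nonneg_right (Nat.cast_le.2 h1) (by positivity)).trans ?_
  rw [Nat.cast_sum, Finset.sum_mul]
  refine (Finset.sum_le_sum fun p _ => hone p.1 p.2).trans (le_of_eq ?_)
  simp; ring

theorem exists_two_of_two_le {k : ℕ} {u : Fin k → V} {s : Finset V}
    (h : 2 ≤ ∑ x ∈ s, occ u x) : ∃ i j, i ≠ j ∧ u i ∈ s ∧ u j ∈ s := by
  have e : ∑ x ∈ s, occ u x = (univ.filter fun i => u i ∈ s).card := by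
    rw [Finset.card_eq_sum_card_fiberwise (s := univ.filter fun i => u i ∈ s) (f := u) (t := s)
      fun i hi => (Finset.mem_filter.1 hi).2]
    refine Finset.sum_congr rfl fun x hx => ?_
    rw [occ, Finset.filter_filter]
    refine congrArg Finset.card (Finset.filter_congr fun i _ => ?_)
    exact ⟨fun h => ⟨h ▸ hx, h⟩, And.right⟩
  rw [e] at h
  obtain ⟨i, hi, j, hj, hij⟩ := Finset.one_lt_card.1 h
  exact ⟨i, j, hij, (Finset.mem_filter.1 hi).2, (Finset.mem_filter.1 hj).2⟩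

end count

variable {m J : ℕ}

/-- Coefficients of the bosonic state with occupation numbers `μ` of the modes. -/
noncomputable def cls (k : ℕ) (μ : (Fin 3 → Fin J) → ℕ) (v : Fin k → Fin 3 → Fin J) : ℝ :=
  if occ v = μ then (Real.sqrt ((univ.filter fun w : Fin k → Fin 3 → Fin J => occ w = μ).card : ℝ))⁻¹
  else 0

/-- The corresponding state of Dirichlet magnons. -/
noncomputable def mode (m : ℕ) (k : ℕ) (μ : (Fin 3 → Fin J) → ℕ) : (Fin k → Grid m) → ℝ :=
  (prodMat fun _ : Fin k => dirG m J) *ᵥ cls k μ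

theorem cls_dot {k : ℕ} {μ ν : (Fin 3 → Fin J) → ℕ} (hμ : ∑ x, μ x = k) :
    cls k μ ⬝ᵥ cls k ν = if μ = ν then 1 else 0 := by
  set C := univ.filter fun w : Fin k → Fin 3 → Fin J => occ w = μ with hC
  have hne : C.Nonempty := by
    have hc : Fintype.card (Σ x : Fin 3 → Fin J, Fin (μ x)) = k := by simpa using hμ
    set e : (Σ x : Fin 3 → Fin J, Fin (μ x)) ≃ Fin k := Fintype.equivFinOfCardEq hc
    refine ⟨fun i => (e.symm i).1, Finset.mem_filter.2 ⟨mem_univ _, funext fun x => ?_⟩⟩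
    rw [occ, ← Fintype.card_fin (μ x), ← Fintype.card_subtype]
    exact Fintype.card_congr ((Equiv.subtypeEquiv e.symm (fun i => Iff.rfl)).trans
      (Equiv.sigmaSubtype x))
  have hpos : (0 : ℝ) < C.card := by exact_mod_cast Finset.card_pos.2 hne
  split_ifs with h
  · subst h
    simp only [dotProduct, cls, ← hC, ite_mul, zero_mul, mul_ite, mul_zero]
    rw [← Finset.sum_filter, ← hC, Finset.sum_congr rfl fun v hv => by
      rw [if_pos (Finset.mem_filter.1 hv).2], Finset.sum_const, nsmul_eq_mul, ← mul_inv,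
      Real.mul_self_sqrt hpos.le]
    exact mul_inv_cancel₀ hpos.ne'
  · refine Finset.sum_eq_zero fun v _ => ?_
    by_cases h1 : occ v = μ
    · simp [cls, show occ v ≠ ν from fun h2 => h (h1.symm.trans h2)]
    · simp [cls, h1]

theorem symm_cls (k : ℕ) (μ : (Fin 3 → Fin J) → ℕ) : SymmFun (cls k μ) := by
  intro σ v
  have : occ (v ∘ σ) = occ v := funext (occ_comp v σ)
  simp only [cls, this]

theorem symm_mode (k : ℕ) (μ : (Fin 3 → Fin J) → ℕ) : SymmFun (mode m k μ) := by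
  have h := symm_vecMul (dirG m J)ᵀ (symm_cls k μ)
  rw [mode, ← vecMul_transpose, prodMat_transpose]
  exact h

theorem mode_dot (hJ : J + 1 < m) {k : ℕ} (g g' : (Fin k → Fin 3 → Fin J) → ℝ) :
    ((prodMat fun _ : Fin k => dirG m J) *ᵥ g) ⬝ᵥ ((prodMat fun _ : Fin k => dirG m J) *ᵥ g')
      = g ⬝ᵥ g' := by
  rw [← vecMul_transpose, ← dotProduct_mulVec, mulVec_mulVec,
    prodMat_orth (fun _ : Fin k => dirG m J) (fun _ => dirG_orth hJ), one_mulVec]

/-- Every amplitude of a mode is small. -/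
theorem mode_sq_le {k : ℕ} {μ : (Fin 3 → Fin J) → ℕ} (hμ : ∑ x, μ x = k) (u : Fin k → Grid m) :
    mode m k μ u ^ 2 ≤ ((J : ℝ) ^ 3 * (8 / ((m - 1 : ℕ) : ℝ) ^ 3)) ^ k := by
  simp only [mode, mulVec, dotProduct]
  refine (Finset.sum_mul_sq_le_sq_mul_sq _ _ _).trans ?_
  have h2 : ∑ v, cls k μ v ^ 2 = 1 := by
    have := cls_dot (ν := μ) hμ
    rw [if_pos rfl] at this
    rw [← this, dotProduct]
    exact Finset.sum_congr rfl fun v _ => pow_two _
  rw [h2, mul_one]
  calc ∑ v : Fin k → Fin 3 → Fin J, prodMat (fun _ : Fin k => dirG m J) u v ^ 2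
      ≤ ∑ _v : Fin k → Fin 3 → Fin J, (8 / ((m - 1 : ℕ) : ℝ) ^ 3) ^ k := by
        refine Finset.sum_le_sum fun v _ => ?_
        rw [prodMat_apply, ← Finset.prod_pow]
        refine (Finset.prod_le_prod (fun i _ => sq_nonneg _) fun i _ => dirG_sq_le m J _ _).trans ?_
        rw [Finset.prod_const, Finset.card_univ, Fintype.card_fin]
    _ = _ := by simp [mul_pow, ← pow_mul, mul_comm]

theorem mode_bdry {k : ℕ} {μ : (Fin 3 → Fin J) → ℕ} (u : Fin k → Grid m) {i : Fin k}
    (h : bdry (u i)) : mode m k μ u = 0 := by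
  simp only [mode, mulVec, dotProduct]
  refine Finset.sum_eq_zero fun v _ => ?_
  rw [prodMat_apply, Finset.prod_eq_zero (mem_univ i) (dirG_bdry _ _ h), zero_mul]

/-- The constant controlling hard-core corrections. -/
noncomputable def coreC (J P : ℕ) : ℝ :=
  (((P * J ^ 3 : ℕ) : ℝ) + 1) ^ 2 * (64 * (J : ℝ) ^ 3 + 1) ^ (P * J ^ 3)

theorem coreC_nonneg (J P : ℕ) : 0 ≤ coreC J P := by unfold coreC; positivity

theorem amp_count_le {P k : ℕ} (hm : 2 ≤ m) (hk : k ≤ P * J ^ 3) :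
    (k : ℝ) ^ 2 * ((m : ℝ) ^ 3) ^ k * ((J : ℝ) ^ 3 * (8 / ((m - 1 : ℕ) : ℝ) ^ 3)) ^ k
      ≤ coreC J P := by
  have hm1 : (1 : ℝ) ≤ ((m - 1 : ℕ) : ℝ) := by exact_mod_cast (by omega : 1 ≤ m - 1)
  have hm2 : (m : ℝ) ≤ 2 * ((m - 1 : ℕ) : ℝ) := by exact_mod_cast (by omega : m ≤ 2 * (m - 1))
  have hbase : (m : ℝ) ^ 3 * ((J : ℝ) ^ 3 * (8 / ((m - 1 : ℕ) : ℝ) ^ 3)) ≤ 64 * (J : ℝ) ^ 3 + 1 := by
    have h3 := pow_le_pow_left₀ (Nat.cast_nonneg m) hm2 3
    have hd : (0 : ℝ) < ((m - 1 : ℕ) : ℝ) ^ 3 := by positivity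
    calc (m : ℝ) ^ 3 * ((J : ℝ) ^ 3 * (8 / ((m - 1 : ℕ) : ℝ) ^ 3))
        ≤ (2 * ((m - 1 : ℕ) : ℝ)) ^ 3 * ((J : ℝ) ^ 3 * (8 / ((m - 1 : ℕ) : ℝ) ^ 3)) :=
          mul_le_mul_of_nonneg_right h3 (by positivity)
      _ = 64 * (J : ℝ) ^ 3 := by field_simp; ring
      _ ≤ _ := le_add_of_nonneg_right zero_le_one
  rw [mul_assoc, ← mul_pow, coreC]
  refine mul_le_mul ?_ ((pow_le_pow_left₀ (by positivity) hbase k).trans
    (pow_le_pow_right₀ (le_add_of_nonneg_left (by positivity)) hk)) (by positivity) (by positivity)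
  refine pow_le_pow_left₀ (Nat.cast_nonneg k) ?_ 2
  have : (k : ℝ) ≤ ((P * J ^ 3 : ℕ) : ℝ) := by exact_mod_cast hk
  linarith

variable {n : ℕ}

theorem norm_trial (hn : 1 ≤ n) (hJ : J + 1 < m) {k P : ℕ} {μ : (Fin 3 → Fin J) → ℕ}
    (hμ : ∑ x, μ x = k) (hk : k ≤ P * J ^ 3) :
    1 - coreC J P / (m : ℝ) ^ 3
      ≤ proj n k (mode m k μ) ⬝ᵥ proj n k (mode m k μ) := by
  set F := mode m k μ with hF
  set B := ((J : ℝ) ^ 3 * (8 / ((m - 1 : ℕ) : ℝ) ^ 3)) ^ k with hB
  have h1 : ∑ u, F u ^ 2 = 1 := by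
    have := mode_dot hJ (cls k μ) (cls k μ)
    rw [cls_dot (ν := μ) hμ, if_pos rfl] at this
    rw [← this, dotProduct]
    exact Finset.sum_congr rfl fun v _ => pow_two _
  have h2 : proj n k F ⬝ᵥ proj n k F = ∑ u, if Valid n u then F u ^ 2 else 0 := by
    rw [sum_valid, dotProduct]
    exact Finset.sum_congr rfl fun η _ => by rw [← pow_two, proj_sq n (symm_mode k μ) η]
  set I := univ.filter fun u : Fin k → Grid m => ¬ Valid n u with hI
  have h3 : (∑ u, if Valid n u then F u ^ 2 else 0) + ∑ u ∈ I, F u ^ 2 = 1 := by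
    rw [← h1, hI, Finset.sum_filter, ← Finset.sum_add_distrib]
    exact Finset.sum_congr rfl fun u _ => by by_cases h : Valid n u <;> simp [h]
  have hV : (Fintype.card (Grid m) : ℝ) = (m : ℝ) ^ 3 := by simp
  have hmpos : (0 : ℝ) < (m : ℝ) ^ 3 := pow_pos (Nat.cast_pos.2 (by omega)) 3
  have h4 : (I.card : ℝ) * (m : ℝ) ^ 3 ≤ (k : ℝ) ^ 2 * ((m : ℝ) ^ 3) ^ k := by
    have hsub : I ⊆ (univ : Finset (Grid m)).biUnion fun x =>
        univ.filter fun u : Fin k → Grid m => ∃ i j, i ≠ j ∧ u i ∈ ({x} : Finset _) ∧ u j ∈ ({x} : Finset _) := by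
      intro u hu
      obtain ⟨x, hx⟩ := not_forall.1 (Finset.mem_filter.1 hu).2
      refine Finset.mem_biUnion.2 ⟨x, mem_univ _, Finset.mem_filter.2 ⟨mem_univ _, ?_⟩⟩
      exact exists_two_of_two_le (by rw [Finset.sum_singleton]; omega)
    have h5 := (Finset.card_le_card hsub).trans Finset.card_biUnion_le
    refine le_of_mul_le_mul_right ?_ hmpos
    calc (I.card : ℝ) * (m : ℝ) ^ 3 * (m : ℝ) ^ 3
        ≤ ((∑ x : Grid m, (univ.filter fun u : Fin k → Grid m => ∃ i j,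
            i ≠ j ∧ u i ∈ ({x} : Finset _) ∧ u j ∈ ({x} : Finset _)).card : ℕ) : ℝ)
            * (Fintype.card (Grid m) : ℝ) ^ 2 := by
          rw [hV, mul_assoc, ← pow_two]
          exact mul_le_mul_of_nonneg_right (Nat.cast_le.2 h5) (by positivity)
      _ ≤ _ := by
          rw [Nat.cast_sum, Finset.sum_mul]
          refine (Finset.sum_le_sum fun x _ => card_two_in k {x}).trans (le_of_eq ?_)
          simp [hV]; ring
  have h6 : ∑ u ∈ I, F u ^ 2 ≤ coreC J P / (m : ℝ) ^ 3 := by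
    rw [le_div_iff₀ hmpos]
    calc (∑ u ∈ I, F u ^ 2) * (m : ℝ) ^ 3 ≤ (∑ _u ∈ I, B) * (m : ℝ) ^ 3 :=
          mul_le_mul_of_nonneg_right (Finset.sum_le_sum fun u _ => mode_sq_le hμ u) hmpos.le
      _ = (I.card : ℝ) * (m : ℝ) ^ 3 * B := by simp; ring
      _ ≤ (k : ℝ) ^ 2 * ((m : ℝ) ^ 3) ^ k * B := mul_le_mul_of_nonneg_right h4 (by positivity)
      _ ≤ _ := amp_count_le (by omega) hk
  rw [h2]; linarith

theorem pairs_trial {k P : ℕ} (hm : 2 ≤ m) {μ : (Fin 3 → Fin J) → ℕ}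
    (hμ : ∑ x, μ x = k) (hk : k ≤ P * J ^ 3) :
    ∑ x : Grid m, ∑ y : Grid m, (if gadj m x y then pairP x y (proj n k (mode m k μ)) else 0)
      ≤ 24 * coreC J P / (m : ℝ) ^ 3 := by
  set F := mode m k μ with hF
  set B := ((J : ℝ) ^ 3 * (8 / ((m - 1 : ℕ) : ℝ) ^ 3)) ^ k with hB
  have hmpos : (0 : ℝ) < (m : ℝ) ^ 3 := pow_pos (Nat.cast_pos.2 (by omega)) 3
  have hone : ∀ x y : Grid m, gadj m x y →
      pairP x y (proj n k F) ≤ 4 * coreC J P / ((m : ℝ) ^ 3) ^ 2 := by
    intro x y hxy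
    have hne : x ≠ y := fun e => gadj_irrefl m y (e ▸ hxy)
    set T := univ.filter fun u : Fin k → Grid m =>
      ∃ i j, i ≠ j ∧ u i ∈ ({x, y} : Finset _) ∧ u j ∈ ({x, y} : Finset _) with hT
    have h1 : pairP x y (proj n k F) ≤ ∑ u ∈ T, F u ^ 2 := by
      calc pairP x y (proj n k F)
          = ∑ u, if Valid n u then (if 2 ≤ ((cfgOf n u) x).val + ((cfgOf n u) y).val
              then F u ^ 2 else 0) else 0 := by
            rw [sum_valid, pairP]
            refine Finset.sum_congr rfl fun η _ => ?_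
            rw [Finset.sum_congr rfl fun u hu => by rw [((mem_fib n).1 hu).2]]
            split_ifs
            · exact proj_sq n (symm_mode k μ) η
            · simp
        _ ≤ _ := by
            rw [hT, Finset.sum_filter]
            refine Finset.sum_le_sum fun u _ => ?_
            split_ifs with h1 h2 h3 h4 <;> try first | exact le_rfl | exact sq_nonneg _
            refine absurd (exists_two_of_two_le ?_) h3
            rw [Finset.sum_pair hne]
            exact h2.trans (add_le_add (min_le_left _ _) (min_le_left _ _))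
    refine h1.trans ((Finset.sum_le_sum fun u _ => mode_sq_le hμ u).trans ?_)
    rw [Finset.sum_const, nsmul_eq_mul, le_div_iff₀ (by positivity)]
    have hT2 := card_two_in k ({x, y} : Finset (Grid m))
    rw [Finset.card_pair hne] at hT2
    simp only [Fintype.card_fun, Fintype.card_fin, Nat.cast_pow, Nat.cast_ofNat] at hT2
    calc (T.card : ℝ) * B * ((m : ℝ) ^ 3) ^ 2 = (T.card : ℝ) * ((m : ℝ) ^ 3) ^ 2 * B := by ring
      _ ≤ (k : ℝ) ^ 2 * (2 : ℝ) ^ 2 * ((m : ℝ) ^ 3) ^ k * B :=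
          mul_le_mul_of_nonneg_right hT2 (by positivity)
      _ = 4 * ((k : ℝ) ^ 2 * ((m : ℝ) ^ 3) ^ k * B) := by ring
      _ ≤ _ := mul_le_mul_of_nonneg_left (amp_count_le hm hk) (by norm_num)
  calc ∑ x : Grid m, ∑ y : Grid m, (if gadj m x y then pairP x y (proj n k F) else 0)
      ≤ ∑ x : Grid m, ∑ y : Grid m, (if gadj m x y then (4 * coreC J P / ((m : ℝ) ^ 3) ^ 2) else 0) := by
        refine Finset.sum_le_sum fun x _ => Finset.sum_le_sum fun y _ => ?_
        split_ifs with h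
        · exact hone x y h
        · exact le_rfl
    _ ≤ ∑ _x : Grid m, 6 * (4 * coreC J P / ((m : ℝ) ^ 3) ^ 2) := by
        refine Finset.sum_le_sum fun x _ => ?_
        rw [← Finset.sum_filter, Finset.sum_const, nsmul_eq_mul]
        exact mul_le_mul_of_nonneg_right (by exact_mod_cast gadj_deg_le x)
          (by have := coreC_nonneg J P; positivity)
    _ = _ := by simp; field_simp; ring

theorem quad_free_mode (hJ : J + 1 < m) {k : ℕ} {μ : (Fin 3 → Fin J) → ℕ} (hμ : ∑ x, μ x = k) :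
    quad (kfree (gadj m) n k) (mode m k μ) = ∑ x, (μ x : ℝ) * epsDG n m x := by
  set Q : Matrix (Fin k → Grid m) (Fin k → Fin 3 → Fin J) ℝ := prodMat fun _ : Fin k => dirG m J
  have hD : Qᵀ * kfree (gadj m) n k * Q
      = diagonal fun v : Fin k → Fin 3 → Fin J => ∑ i, epsDG n m (v i) :=
    prodMat_conj_sum_diagonal (fun _ : Fin k => dirG m J) (fun _ => dirG_orth hJ)
      (fun _ => lapG (gadj m) n) (fun _ => epsDG n m (J := J)) (fun _ => dirG_conj hJ n)
  have e : quad (kfree (gadj m) n k) (mode m k μ) = quad (Qᵀ * kfree (gadj m) n k * Q) (cls k μ) := by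
    rw [quad, quad, mode, dotProduct_comm, ← mulVec_mulVec, ← mulVec_mulVec]
    rw [dotProduct_comm, dotProduct_mulVec (cls k μ) Qᵀ, vecMul_transpose]
  have h1 := cls_dot (ν := μ) hμ
  rw [if_pos rfl] at h1
  rw [e, hD, quad]
  calc cls k μ ⬝ᵥ (diagonal (fun v : Fin k → Fin 3 → Fin J => ∑ i, epsDG n m (v i)) *ᵥ cls k μ)
      = ∑ v, (∑ x, (μ x : ℝ) * epsDG n m x) * (cls k μ v * cls k μ v) := by
        simp only [dotProduct, mulVec_diagonal]
        refine Finset.sum_congr rfl fun v _ => ?_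
        by_cases h : occ v = μ
        · rw [sum_eq_occ _ v h]; ring
        · simp [cls, h]
    _ = _ := by
        rw [← Finset.mul_sum, show ∑ v, cls k μ v * cls k μ v = 1 from h1, mul_one]

/-- Lower bound on one cube with walls, in a field. -/
theorem part_lower (hn : 1 ≤ n) (hJ : J + 1 < m) {β : ℝ} (hβ : 0 ≤ β) (P : ℕ) (K : ℝ)
    (hη : coreC J P / (m : ℝ) ^ 3 < 1) :
    ∑ μ ∈ Fintype.piFinset (fun _ : Fin 3 → Fin J => range (P + 1)),
      (1 - coreC J P / (m : ℝ) ^ 3) *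
        Real.exp (-(β * (∑ x, (μ x : ℝ) * epsDG n m x + 24 * (n : ℝ) ^ 2 * coreC J P / (m : ℝ) ^ 3)
          / (1 - coreC J P / (m : ℝ) ^ 3)) - K * (∑ x, (μ x : ℝ)))
      ≤ part (gadj m) n β (wall n m β K) := by
  set S := Fintype.piFinset (fun _ : Fin 3 → Fin J => range (P + 1)) with hS
  set η0 := coreC J P / (m : ℝ) ^ 3 with hη0
  have h10 : 0 < 1 - η0 := by linarith
  set tk : ((Fin 3 → Fin J) → ℕ) → ℕ := fun μ => ∑ x, μ x
  set f : ((Fin 3 → Fin J) → ℕ) → Cfg n (Grid m) → ℝ :=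
    fun μ => proj n (tk μ) (mode m (tk μ) μ) with hf
  have hkle : ∀ μ ∈ S, tk μ ≤ P * J ^ 3 := fun μ hμ => by
    refine (Finset.sum_le_sum fun x _ => Nat.lt_succ_iff.1
      (Finset.mem_range.1 (Fintype.mem_piFinset.1 hμ x))).trans_eq ?_
    simp [mul_comm]
  have hbes : ∀ ψ : Cfg n (Grid m) → ℝ, ∑ μ ∈ S, (f μ ⬝ᵥ ψ) ^ 2 ≤ ψ ⬝ᵥ ψ := by
    intro ψ
    have hmaps : ∀ μ ∈ S, tk μ ∈ range (P * J ^ 3 + 1) := fun μ hμ =>
      Finset.mem_range.2 (Nat.lt_succ_of_le (hkle μ hμ))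
    rw [← Finset.sum_fiberwise_of_maps_to hmaps]
    have hk : ∀ k, ∑ μ ∈ S.filter (fun μ => tk μ = k), (f μ ⬝ᵥ ψ) ^ 2
        ≤ ∑ η, if tot η = k then ψ η * ψ η else 0 := by
      intro k
      rw [← emb_dot, Finset.sum_congr rfl fun μ hμ =>
        show (f μ ⬝ᵥ ψ) ^ 2 = (mode m k μ ⬝ᵥ emb n k ψ) ^ 2 by
          simp only [hf]; rw [(Finset.mem_filter.1 hμ).2, proj_dot]]
      refine bessel _ _ (fun i hi j _ => ?_) _
      rw [mode, mode, mode_dot hJ]
      exact cls_dot (Finset.mem_filter.1 hi).2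
    refine (Finset.sum_le_sum fun k _ => hk k).trans ?_
    rw [Finset.sum_comm]
    refine Finset.sum_le_sum fun η _ => ?_
    rw [Finset.sum_ite_eq]
    split_ifs
    · exact le_rfl
    · exact mul_self_nonneg _
  refine le_trans (Finset.sum_le_sum fun μ hμ => ?_)
    (peierls_univ (ham_symm (gadj m) (gadj_irrefl m) β (wall n m β K)) S f hbes)
  have hN : 1 - η0 ≤ f μ ⬝ᵥ f μ := norm_trial hn hJ rfl (hkle μ hμ)
  have hpos : 0 < f μ ⬝ᵥ f μ := lt_of_lt_of_le h10 hN
  set Eu := ∑ x, (μ x : ℝ) * epsDG n m x + 24 * (n : ℝ) ^ 2 * coreC J P / (m : ℝ) ^ 3 with hEu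
  have hw : ∀ η, (∑ x, wall n m β 0 x * ((η x).val : ℝ)) * f μ η ^ 2 = 0 := by
    intro η
    by_cases h : ∀ x, bdry x → (η x).val = 0
    · rw [Finset.sum_eq_zero fun x _ => ?_, zero_mul]
      by_cases hb : bdry x
      · simp [h x hb]
      · simp [wall, hb]
    · simp only [not_forall] at h
      obtain ⟨x, hb, hx⟩ := h
      have : f μ η = 0 := by
        simp only [hf, proj]
        rw [Finset.sum_eq_zero fun u hu => ?_, zero_div]
        have ho := (Finset.mem_filter.1 hu).2 x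
        obtain ⟨i, hi⟩ := Finset.card_pos.1
          (show 0 < (univ.filter fun i => u i = x).card from by
            exact lt_of_lt_of_eq (Nat.pos_of_ne_zero hx) ho.symm)
        exact mode_bdry u (i := i) (by rw [(Finset.mem_filter.1 hi).2]; exact hb)
      rw [this]; ring
  have hfield : ∑ η, (∑ x, wall n m β K x * ((η x).val : ℝ)) * f μ η ^ 2
      = K * (∑ x, (μ x : ℝ)) * (f μ ⬝ᵥ f μ) := by
    rw [dotProduct, Finset.mul_sum]
    refine Finset.sum_congr rfl fun η _ => ?_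
    by_cases ht : tot η = tk μ
    · have e : ∑ x, wall n m β K x * ((η x).val : ℝ)
          = K * (∑ x, (μ x : ℝ)) + ∑ x, wall n m β 0 x * ((η x).val : ℝ) := by
        have ht' : ∑ x, ((η x).val : ℝ) = ∑ x, (μ x : ℝ) := by exact_mod_cast ht
        rw [← ht', Finset.mul_sum, ← Finset.sum_add_distrib]
        refine Finset.sum_congr rfl fun x _ => ?_
        simp only [wall]; ring
      rw [e, add_mul, hw η, add_zero]
      ring
    · have : f μ η = 0 := proj_eq_zero n _ ht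
      rw [this]; ring
  have hq0 : 0 ≤ quad (kin (gadj m) n) (f μ) := quad_kin_nonneg (gadj m) (gadj_irrefl m) _
  have hq1 : quad (kin (gadj m) n) (f μ) ≤ Eu := by
    refine (kin_le_free (gadj_irrefl m) gadj_symm hn (symm_mode _ μ)).trans ?_
    rw [quad_free_mode hJ rfl, hEu]
    refine add_le_add_right ?_ _
    refine (mul_le_mul_of_nonneg_left (pairs_trial (by omega) rfl (hkle μ hμ))
      (by positivity)).trans (le_of_eq ?_)
    ring
  rw [quad_ham, hfield, neg_div, add_div, mul_div_cancel_right₀ _ hpos.ne', neg_add,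
    ← sub_eq_add_neg]
  refine mul_le_mul hN (Real.exp_le_exp.2 (sub_le_sub_right (neg_le_neg ?_) _)) (Real.exp_nonneg _)
    hpos.le
  exact div_le_div₀ (mul_nonneg hβ (hq0.trans hq1)) (mul_le_mul_of_nonneg_left hq1 hβ) h10 hN

end Vale.Agent.P361
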