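import Vale.Agent.P361.Prod
import Mathlib.Analysis.SpecialFunctions.Trigonometric.Bounds
import Mathlib.Analysis.SpecialFunctions.Gaussian.GaussianIntegral
import Mathlib.Analysis.SumIntegralComparisons

/-!
The path graph: its Laplacian and its Neumann and Dirichlet modes.
-/

namespace Vale.Agent.P361

open Matrix Finset Real
open scoped BigOperators

/-- Adjacency matrix of the path. -/
def adj1 (L : ℕ) : Matrix (Fin L) (Fin L) ℝ :=
  Matrix.of fun a b => if a.val + 1 = b.val ∨ b.val + 1 = a.val then 1 else 0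

/-- Laplacian of the path. -/
def lap1 (L : ℕ) : Matrix (Fin L) (Fin L) ℝ :=
  diagonal (fun a => ∑ b, adj1 L a b) - adj1 L

theorem sum_trig_odd (θ : ℝ) (M : ℕ) :
    2 * sin θ * ∑ a ∈ range M, cos ((2 * (a : ℝ) + 1) * θ) = sin (2 * (M : ℝ) * θ) := by
  induction M with
  | zero => simp
  | succ M ih =>
    rw [Finset.sum_range_succ, mul_add, ih]
    have h1 : sin (2 * ((M + 1 : ℕ) : ℝ) * θ)
        = sin ((2 * (M : ℝ) + 1) * θ) * cos θ + cos ((2 * (M : ℝ) + 1) * θ) * sin θ := by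
      rw [← sin_add]; push_cast; ring_nf
    have h2 : sin (2 * (M : ℝ) * θ)
        = sin ((2 * (M : ℝ) + 1) * θ) * cos θ - cos ((2 * (M : ℝ) + 1) * θ) * sin θ := by
      rw [← sin_sub]; ring_nf
    linarith

theorem sum_trig_even (θ : ℝ) (M : ℕ) :
    2 * sin θ * ∑ a ∈ range M, cos (2 * (a : ℝ) * θ) = sin ((2 * (M : ℝ) - 1) * θ) + sin θ := by
  induction M with
  | zero => simp
  | succ M ih =>
    rw [Finset.sum_range_succ, mul_add, ih]
    have h1 : sin ((2 * ((M + 1 : ℕ) : ℝ) - 1) * θ)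
        = sin (2 * (M : ℝ) * θ) * cos θ + cos (2 * (M : ℝ) * θ) * sin θ := by
      rw [← sin_add]; push_cast; ring_nf
    have h2 : sin ((2 * (M : ℝ) - 1) * θ)
        = sin (2 * (M : ℝ) * θ) * cos θ - cos (2 * (M : ℝ) * θ) * sin θ := by
      rw [← sin_sub]; ring_nf
    linarith

theorem sin_theta_ne {M m : ℕ} (hm : 0 < m) (hm2 : m < 2 * M) :
    sin (π * m / (2 * M)) ≠ 0 := by
  have hM : (0 : ℝ) < 2 * M := by
    have : 0 < 2 * M := by omega
    exact_mod_cast this
  refine (sin_pos_of_pos_of_lt_pi ?_ ?_).ne'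
  · have : (0 : ℝ) < m := by exact_mod_cast hm
    positivity
  · rw [div_lt_iff₀ hM]
    exact mul_lt_mul_of_pos_left (by exact_mod_cast hm2) pi_pos

theorem sum_cos_odd {M m : ℕ} (hm : 0 < m) (hm2 : m < 2 * M) :
    ∑ a ∈ range M, cos ((2 * (a : ℝ) + 1) * (π * m / (2 * M))) = 0 := by
  have hM : (M : ℝ) ≠ 0 := by
    have : M ≠ 0 := by omega
    exact_mod_cast this
  have h := sum_trig_odd (π * m / (2 * M)) M
  rw [show 2 * (M : ℝ) * (π * m / (2 * M)) = (m : ℝ) * π from by field_simp, sin_nat_mul_pi] at h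
  rcases mul_eq_zero.1 h with h' | h'
  · exact absurd (by linarith) (sin_theta_ne hm hm2)
  · exact h'

theorem sum_cos_even {M m : ℕ} (hm : 0 < m) (hm2 : m < 2 * M) :
    ∑ a ∈ range M, cos (2 * (a : ℝ) * (π * m / (2 * M))) = (1 - (-1 : ℝ) ^ m) / 2 := by
  have hM : (M : ℝ) ≠ 0 := by
    have : M ≠ 0 := by omega
    exact_mod_cast this
  have h := sum_trig_even (π * m / (2 * M)) M
  rw [show (2 * (M : ℝ) - 1) * (π * m / (2 * M)) = (m : ℝ) * π - π * m / (2 * M) from by
    field_simp, sin_nat_mul_pi_sub] at h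
  have := sin_theta_ne hm hm2
  field_simp at h ⊢
  linear_combination h

theorem lap1_mulVec (L : ℕ) (f : Fin L → ℝ) (a : Fin L) :
    (lap1 L *ᵥ f) a = ∑ b, adj1 L a b * (f a - f b) := by
  rw [lap1, sub_mulVec, Pi.sub_apply, mulVec_diagonal, Finset.sum_mul]
  simp only [mulVec, dotProduct, mul_sub, Finset.sum_sub_distrib]

/-- If `φ` satisfies the recursion (with ghost values), it is an eigenvector. -/
theorem lap1_eigen (L : ℕ) (φ : ℝ → ℝ) (c : ℝ) (a : Fin L)
    (hrec : φ ((a.val : ℝ) + 1) + φ ((a.val : ℝ) - 1) = (2 - c) * φ a.val)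
    (h0 : a.val = 0 → φ ((a.val : ℝ) - 1) = φ a.val)
    (h1 : a.val + 1 = L → φ ((a.val : ℝ) + 1) = φ a.val) :
    (lap1 L *ᵥ fun b => φ b.val) a = c * φ a.val := by
  rw [lap1_mulVec]
  have e : ∀ b : Fin L, adj1 L a b * (φ a.val - φ b.val)
      = (if a.val + 1 = b.val then φ a.val - φ b.val else 0)
        + (if b.val + 1 = a.val then φ a.val - φ b.val else 0) := by
    intro b
    simp only [adj1, Matrix.of_apply]
    split_ifs <;> first | (exfalso; omega) | ring
  rw [Finset.sum_congr rfl fun b _ => e b, Finset.sum_add_distrib]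
  have s1 : (∑ b : Fin L, if a.val + 1 = b.val then φ a.val - φ b.val else 0)
      = φ a.val - φ ((a.val : ℝ) + 1) := by
    by_cases h : a.val + 1 < L
    · rw [Finset.sum_eq_single ⟨a.val + 1, h⟩]
      · simp
      · exact fun b _ hb => if_neg fun e => hb (Fin.ext e.symm)
      · simp
    · rw [h1 (by omega), sub_self]
      exact Finset.sum_eq_zero fun b _ => if_neg (by omega)
  have s2 : (∑ b : Fin L, if b.val + 1 = a.val then φ a.val - φ b.val else 0)
      = φ a.val - φ ((a.val : ℝ) - 1) := by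
    by_cases h : 0 < a.val
    · rw [Finset.sum_eq_single ⟨a.val - 1, by omega⟩]
      · rw [if_pos (by simp only; omega), Nat.cast_sub h]; simp
      · exact fun b _ hb => if_neg fun e => hb (Fin.ext (by simp only; omega))
      · simp
    · rw [h0 (by omega), sub_self]
      exact Finset.sum_eq_zero fun b _ => if_neg (by omega)
  rw [s1, s2]
  linarith

/-- Neumann eigenvalues. -/
noncomputable def eps1 (L j : ℕ) : ℝ := 2 * (1 - cos (π * j / L))

theorem eps1_nonneg (L j : ℕ) : 0 ≤ eps1 L j := by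
  unfold eps1; linarith [cos_le_one (π * j / L)]

/-- Neumann modes. -/
noncomputable def neu (L : ℕ) : Matrix (Fin L) (Fin L) ℝ :=
  Matrix.of fun a j =>
    Real.sqrt ((if j.val = 0 then 1 else 2) / L) * cos (π * j.val * ((a.val : ℝ) + 1 / 2) / L)

theorem neu_sq_le (L : ℕ) (a j : Fin L) : neu L a j ^ 2 ≤ 2 / L := by
  simp only [neu, Matrix.of_apply, mul_pow]
  rw [Real.sq_sqrt (by split_ifs <;> positivity)]
  have h1 : (if j.val = 0 then (1 : ℝ) else 2) / L ≤ 2 / L := by
    gcongr; split_ifs <;> norm_num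
  have h2 := cos_sq_le_one (π * j.val * ((a.val : ℝ) + 1 / 2) / L)
  calc _ ≤ 2 / (L : ℝ) * 1 := mul_le_mul h1 h2 (sq_nonneg _) (by positivity)
    _ = _ := mul_one _

theorem neu_cos_orth {L : ℕ} (i j : Fin L) :
    ∑ a : Fin L, cos (π * i.val * ((a.val : ℝ) + 1 / 2) / L) *
        cos (π * j.val * ((a.val : ℝ) + 1 / 2) / L)
      = if i = j then (if j.val = 0 then (L : ℝ) else (L : ℝ) / 2) else 0 := by
  have hL : 0 < L := i.pos
  rw [Fin.sum_univ_eq_sum_range (fun a : ℕ => cos (π * i.val * ((a : ℝ) + 1 / 2) / L) *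
    cos (π * j.val * ((a : ℝ) + 1 / 2) / L))]
  set p : ℕ := i.val + j.val with hp
  set q : ℕ := (i.val - j.val) + (j.val - i.val) with hq
  have e : ∀ a : ℕ, cos (π * i.val * ((a : ℝ) + 1 / 2) / L) *
      cos (π * j.val * ((a : ℝ) + 1 / 2) / L)
      = (cos ((2 * (a : ℝ) + 1) * (π * q / (2 * L)))
        + cos ((2 * (a : ℝ) + 1) * (π * p / (2 * L)))) / 2 := by
    intro a
    have hq' : cos ((2 * (a : ℝ) + 1) * (π * q / (2 * L)))
        = cos (π * i.val * ((a : ℝ) + 1 / 2) / L - π * j.val * ((a : ℝ) + 1 / 2) / L) := by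
      rcases le_total i.val j.val with h | h
      · rw [← cos_neg, hq, Nat.sub_eq_zero_of_le h, zero_add, Nat.cast_sub h]
        congr 1; field_simp; ring
      · rw [hq, Nat.sub_eq_zero_of_le h, add_zero, Nat.cast_sub h]
        congr 1; field_simp
    have hp' : cos ((2 * (a : ℝ) + 1) * (π * p / (2 * L)))
        = cos (π * i.val * ((a : ℝ) + 1 / 2) / L + π * j.val * ((a : ℝ) + 1 / 2) / L) := by
      congr 1; rw [hp]; push_cast; field_simp
    rw [hq', hp', cos_sub, cos_add]; ring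
  rw [Finset.sum_congr rfl fun a _ => e a, ← Finset.sum_div, Finset.sum_add_distrib]
  by_cases hij : i = j
  · subst hij
    rw [if_pos rfl]
    have q0 : q = 0 := by omega
    simp only [q0, Nat.cast_zero, mul_zero, zero_div, cos_zero, Finset.sum_const, card_range,
      nsmul_eq_mul, mul_one]
    split_ifs with h0
    · have p0 : p = 0 := by omega
      simp [p0]
    · rw [sum_cos_odd (by omega) (by omega)]; ring
  · rw [if_neg hij]
    have : i.val ≠ j.val := fun h => hij (Fin.ext h)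
    rw [sum_cos_odd (by omega) (by omega), sum_cos_odd (by omega) (by omega)]
    ring

theorem neu_orth (L : ℕ) : (neu L)ᵀ * neu L = 1 := by
  ext i j
  have hL : (L : ℝ) ≠ 0 := by exact_mod_cast i.pos.ne'
  simp only [Matrix.mul_apply, Matrix.transpose_apply, neu, Matrix.of_apply]
  rw [Finset.sum_congr rfl fun a _ => mul_mul_mul_comm _ _ _ _, ← Finset.mul_sum, neu_cos_orth]
  by_cases hij : i = j
  · subst hij
    rw [if_pos rfl, Matrix.one_apply_eq, Real.mul_self_sqrt (by split_ifs <;> positivity)]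
    split_ifs <;> field_simp
  · rw [if_neg hij, Matrix.one_apply_ne hij, mul_zero]

theorem lap1_neu (L : ℕ) :
    lap1 L * neu L = neu L * diagonal fun j : Fin L => eps1 L j.val := by
  ext a j
  rw [Matrix.mul_diagonal, mul_comm]
  have hL : (L : ℝ) ≠ 0 := by exact_mod_cast a.pos.ne'
  set φ : ℝ → ℝ := fun t => Real.sqrt ((if j.val = 0 then 1 else 2) / L) *
    cos (π * j.val * (t + 1 / 2) / L) with hφ
  have h : (lap1 L * neu L) a j = (lap1 L *ᵥ fun b => φ b.val) a := by
    simp [Matrix.mul_apply, mulVec, dotProduct, neu, hφ]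
  rw [h, lap1_eigen L φ (eps1 L j.val) a]
  · simp [neu, hφ]
  · simp only [hφ, eps1]
    rw [show π * j.val * ((a.val : ℝ) + 1 + 1 / 2) / L
        = π * j.val * ((a.val : ℝ) + 1 / 2) / L + π * j.val / L from by field_simp; ring,
      show π * j.val * ((a.val : ℝ) - 1 + 1 / 2) / L
        = π * j.val * ((a.val : ℝ) + 1 / 2) / L - π * j.val / L from by field_simp; ring,
      cos_add, cos_sub]
    ring
  · intro ha
    simp only [hφ, ha]
    rw [show π * j.val * (((0 : ℕ) : ℝ) - 1 + 1 / 2) / L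
      = -(π * j.val * (((0 : ℕ) : ℝ) + 1 / 2) / L) from by push_cast; ring, cos_neg]
  · intro ha
    simp only [hφ]
    have hr : (L : ℝ) = (a.val : ℝ) + 1 := by exact_mod_cast ha.symm
    rw [show π * j.val * ((a.val : ℝ) + 1 + 1 / 2) / L
        = (j.val : ℝ) * π + π * j.val / (2 * L) from by rw [hr]; field_simp,
      show π * j.val * ((a.val : ℝ) + 1 / 2) / L
        = (j.val : ℝ) * π - π * j.val / (2 * L) from by rw [hr]; field_simp; ring,
      cos_add, cos_sub, sin_nat_mul_pi]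
    ring

theorem neu_conj (L : ℕ) :
    (neu L)ᵀ * lap1 L * neu L = diagonal fun j : Fin L => eps1 L j.val := by
  rw [Matrix.mul_assoc, lap1_neu, ← Matrix.mul_assoc, neu_orth, Matrix.one_mul]

/-- Dirichlet modes `sin (π (j+1) a / (M))`, `M = L - 1`, on the interior of the path. -/
noncomputable def dir (L J : ℕ) : Matrix (Fin L) (Fin J) ℝ :=
  Matrix.of fun a j =>
    Real.sqrt (2 / ((L - 1 : ℕ) : ℝ)) * sin (π * ((j.val : ℝ) + 1) * a.val / ((L - 1 : ℕ) : ℝ))

theorem dir_sq_le (L J : ℕ) (a : Fin L) (j : Fin J) :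
    dir L J a j ^ 2 ≤ 2 / ((L - 1 : ℕ) : ℝ) := by
  simp only [dir, Matrix.of_apply, mul_pow]
  rw [Real.sq_sqrt (by positivity)]
  exact mul_le_of_le_one_right (by positivity) (sin_sq_le_one _)

theorem dir_boundary (L J : ℕ) (a : Fin L) (j : Fin J) (h : a.val = 0 ∨ a.val + 1 = L) :
    dir L J a j = 0 := by
  simp only [dir, Matrix.of_apply]
  rcases Nat.eq_zero_or_pos (L - 1) with hM | hM
  · simp [hM]
  rcases h with h | h
  · simp [h]
  · rw [show a.val = L - 1 from by omega, mul_div_assoc, div_self (by exact_mod_cast hM.ne'),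
      mul_one]
    rw [show π * ((j.val : ℝ) + 1) = ((j.val + 1 : ℕ) : ℝ) * π from by push_cast; ring,
      sin_nat_mul_pi, mul_zero]

theorem dir_orth {L J : ℕ} (hJ : J + 1 < L) : (dir L J)ᵀ * dir L J = 1 := by
  obtain ⟨M, rfl⟩ : ∃ M, L = M + 1 := ⟨L - 1, by omega⟩
  ext i j
  simp only [Matrix.mul_apply, Matrix.transpose_apply, dir, Matrix.of_apply]
  simp only [Nat.add_sub_cancel]
  have hM : (0 : ℝ) < M := by exact_mod_cast (by omega : 0 < M)
  rw [Fin.sum_univ_eq_sum_range (fun a : ℕ =>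
    Real.sqrt (2 / (M : ℝ)) * sin (π * ((i.val : ℝ) + 1) * a / M) *
      (Real.sqrt (2 / (M : ℝ)) * sin (π * ((j.val : ℝ) + 1) * a / M))),
    Finset.sum_range_succ]
  have hlast : sin (π * ((i.val : ℝ) + 1) * (M : ℝ) / M) = 0 := by
    rw [mul_div_assoc, div_self hM.ne', mul_one,
      show π * ((i.val : ℝ) + 1) = ((i.val + 1 : ℕ) : ℝ) * π from by push_cast; ring,
      sin_nat_mul_pi]
  rw [hlast]
  simp only [mul_zero, zero_mul, add_zero]
  set p : ℕ := i.val + j.val + 2 with hp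
  set q : ℕ := (i.val - j.val) + (j.val - i.val) with hq
  have e : ∀ a : ℕ, Real.sqrt (2 / (M : ℝ)) * sin (π * ((i.val : ℝ) + 1) * a / M) *
      (Real.sqrt (2 / (M : ℝ)) * sin (π * ((j.val : ℝ) + 1) * a / M))
      = 1 / (M : ℝ) * (cos (2 * (a : ℝ) * (π * q / (2 * M)))
        - cos (2 * (a : ℝ) * (π * p / (2 * M)))) := by
    intro a
    have hq' : cos (2 * (a : ℝ) * (π * q / (2 * M)))
        = cos (π * ((i.val : ℝ) + 1) * a / M - π * ((j.val : ℝ) + 1) * a / M) := by
      rcases le_total i.val j.val with h | h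
      · rw [← cos_neg, hq, Nat.sub_eq_zero_of_le h, zero_add, Nat.cast_sub h]
        congr 1; field_simp; ring
      · rw [hq, Nat.sub_eq_zero_of_le h, add_zero, Nat.cast_sub h]
        congr 1; field_simp; ring
    have hp' : cos (2 * (a : ℝ) * (π * p / (2 * M)))
        = cos (π * ((i.val : ℝ) + 1) * a / M + π * ((j.val : ℝ) + 1) * a / M) := by
      congr 1; rw [hp]; push_cast; field_simp; ring
    rw [hq', hp', cos_sub, cos_add, mul_mul_mul_comm, Real.mul_self_sqrt (by positivity)]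
    ring
  rw [Finset.sum_congr rfl fun a _ => e a, ← Finset.mul_sum, Finset.sum_sub_distrib]
  by_cases hij : i = j
  · subst hij
    have q0 : q = 0 := by omega
    rw [sum_cos_even (m := p) (by omega) (by omega)]
    simp only [q0, Nat.cast_zero, mul_zero, zero_div, cos_zero, Finset.sum_const, card_range,
      nsmul_eq_mul, mul_one, Matrix.one_apply_eq]
    have : (-1 : ℝ) ^ p = 1 := Even.neg_one_pow ⟨i.val + 1, by omega⟩
    rw [this]; field_simp; ring
  · rw [Matrix.one_apply_ne hij]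
    have hne : i.val ≠ j.val := fun h => hij (Fin.ext h)
    rw [sum_cos_even (m := p) (by omega) (by omega), sum_cos_even (m := q) (by omega) (by omega)]
    have : (-1 : ℝ) ^ p = (-1 : ℝ) ^ q := by
      rw [neg_one_pow_eq_pow_mod_two p, neg_one_pow_eq_pow_mod_two q]
      congr 1
      omega
    rw [this]; ring

/-- Dirichlet eigenvalues. -/
noncomputable def epsD (L j : ℕ) : ℝ := 2 * (1 - cos (π * ((j : ℝ) + 1) / ((L - 1 : ℕ) : ℝ)))

theorem dir_conj {L J : ℕ} (hJ : J + 1 < L) :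
    (dir L J)ᵀ * lap1 L * dir L J = diagonal fun j : Fin J => epsD L j.val := by
  rw [Matrix.mul_assoc]
  ext i j
  rw [Matrix.mul_apply]
  have key : ∀ a : Fin L, (dir L J)ᵀ i a * (lap1 L * dir L J) a j
      = epsD L j.val * ((dir L J)ᵀ i a * dir L J a j) := by
    intro a
    by_cases hb : a.val = 0 ∨ a.val + 1 = L
    · simp [Matrix.transpose_apply, dir_boundary L J a i hb]
    · set φ : ℝ → ℝ := fun t => Real.sqrt (2 / ((L - 1 : ℕ) : ℝ)) *
        sin (π * ((j.val : ℝ) + 1) * t / ((L - 1 : ℕ) : ℝ)) with hφ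
      have h : (lap1 L * dir L J) a j = (lap1 L *ᵥ fun b => φ b.val) a := by
        simp [Matrix.mul_apply, mulVec, dotProduct, dir, hφ]
      rw [h, lap1_eigen L φ (epsD L j.val) a ?_ (fun h0 => absurd (Or.inl h0) hb)
        (fun h1 => absurd (Or.inr h1) hb)]
      · simp only [dir, Matrix.of_apply, hφ]; ring
      · simp only [hφ, epsD, mul_add, add_div, mul_one, mul_sub, sub_div, sin_add, sin_sub]
        ring
  rw [Finset.sum_congr rfl fun a _ => key a, ← Finset.mul_sum, ← Matrix.mul_apply, dir_orth hJ]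
  by_cases hij : i = j
  · subst hij; simp
  · simp [hij]

theorem epsD_le (L j : ℕ) : epsD L j ≤ (π * ((j : ℝ) + 1) / ((L - 1 : ℕ) : ℝ)) ^ 2 := by
  unfold epsD
  linarith [one_sub_sq_div_two_le_cos (x := π * ((j : ℝ) + 1) / ((L - 1 : ℕ) : ℝ))]

theorem eps1_ge_small {δ : ℝ} (L j : ℕ) (h : π * j / L ≤ δ) (hδ1 : δ ≤ 1) :
    (1 - δ ^ 2) * (π * j / L) ^ 2 ≤ eps1 L j := by
  set x := π * j / L with hx
  have hx0 : 0 ≤ x := by positivity
  have hb : |x| ≤ 1 := by rw [abs_of_nonneg hx0]; linarith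
  have := cos_bound hb
  rw [abs_le, abs_of_nonneg hx0] at this
  have h4 : x ^ 4 ≤ x ^ 2 * δ ^ 2 := by
    have : x ^ 2 ≤ δ ^ 2 := pow_le_pow_left₀ hx0 h 2
    nlinarith [sq_nonneg x]
  simp only [eps1, ← hx]
  nlinarith [sq_nonneg x, mul_nonneg (sq_nonneg x) (sq_nonneg δ)]

theorem eps1_ge (L : ℕ) {j : ℕ} (hj : j < L) : 4 * ((j : ℝ) / L) ^ 2 ≤ eps1 L j := by
  have hL : (0 : ℝ) < L := by exact_mod_cast (by omega : 0 < L)
  set x := π * j / L with hx
  have hx0 : 0 ≤ x := by positivity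
  have hxpi : |x| ≤ π := by
    rw [abs_of_nonneg hx0, hx, div_le_iff₀ hL]
    exact mul_le_mul_of_nonneg_left (by exact_mod_cast hj.le) pi_pos.le
  have := cos_le_one_sub_mul_cos_sq hxpi
  have e : 2 / π ^ 2 * x ^ 2 = 2 * ((j : ℝ) / L) ^ 2 := by
    rw [hx]; field_simp
  simp only [eps1, ← hx]
  linarith

theorem sum_exp_sq_le {a : ℝ} (ha : 0 < a) (L : ℕ) :
    ∑ j ∈ range L, exp (-(a * (j : ℝ) ^ 2)) ≤ 1 + Real.sqrt (π / a) / 2 := by
  rcases L with _ | L
  · simpa using by positivity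
  rw [Finset.sum_range_succ']
  simp only [Nat.cast_zero, ne_eq, OfNat.ofNat_ne_zero, not_false_eq_true, zero_pow, mul_zero,
    neg_zero, exp_zero]
  rw [add_comm, add_le_add_iff_left]
  set f : ℝ → ℝ := fun x => exp (-a * x ^ 2) with hf
  have hanti : AntitoneOn f (Set.Icc (0 : ℝ) (0 + (L : ℕ))) := by
    intro x hx y _ hxy
    refine exp_le_exp.2 (mul_le_mul_of_nonpos_left ?_ (by linarith))
    exact pow_le_pow_left₀ hx.1 hxy 2
  have h1 := hanti.sum_le_integral
  have hint : MeasureTheory.Integrable f := integrable_exp_neg_mul_sq ha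
  calc ∑ j ∈ range L, exp (-(a * ((j + 1 : ℕ) : ℝ) ^ 2))
      = ∑ j ∈ range L, f (0 + ((j + 1 : ℕ) : ℝ)) := by simp [hf]
    _ ≤ ∫ x in (0 : ℝ)..(0 + (L : ℕ)), f x := h1
    _ ≤ ∫ x in Set.Ioi (0 : ℝ), f x := by
        rw [intervalIntegral.integral_of_le (by simp)]
        exact MeasureTheory.setIntegral_mono_set hint.integrableOn
          (Filter.Eventually.of_forall fun x => exp_nonneg _)
          (Filter.Eventually.of_forall fun x hx => hx.1)
    _ = _ := integral_gaussian_Ioi a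

theorem integral_le_sum_exp_sq {a : ℝ} (ha : 0 < a) (J : ℕ) :
    (∫ x in (1 : ℝ)..(1 + (J : ℕ)), exp (-a * x ^ 2))
      ≤ ∑ j ∈ range J, exp (-(a * ((j : ℝ) + 1) ^ 2)) := by
  have hanti : AntitoneOn (fun x => exp (-a * x ^ 2)) (Set.Icc (1 : ℝ) (1 + (J : ℕ))) := by
    intro x hx y _ hxy
    refine exp_le_exp.2 (mul_le_mul_of_nonpos_left ?_ (by linarith))
    exact pow_le_pow_left₀ (by linarith [hx.1]) hxy 2
  refine hanti.integral_le_sum.trans (le_of_eq (Finset.sum_congr rfl fun j _ => ?_))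
  rw [neg_mul, add_comm (1 : ℝ)]

end Vale.Agent.P361
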