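import Vale.Agent.P361.Sector

/-!
First quantisation: free magnons as symmetric functions of tuples of sites.
-/

namespace Vale.Agent.P361

open Matrix Finset Function
open scoped BigOperators

variable {V : Type*} [Fintype V] [DecidableEq V] {k : ℕ}

/-- Occupation numbers of a tuple. -/
def occ (u : Fin k → V) (x : V) : ℕ := (univ.filter fun i => u i = x).card

theorem sum_occ_mul (u : Fin k → V) (g : V → ℝ) : ∑ x, (occ u x : ℝ) * g x = ∑ i, g (u i) := by
  rw [← Finset.sum_fiberwise univ u fun i => g (u i)]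
  refine Finset.sum_congr rfl fun x _ => ?_
  rw [Finset.sum_congr rfl fun i hi => congrArg g (Finset.mem_filter.1 hi).2, Finset.sum_const,
    nsmul_eq_mul, occ]

theorem sum_occ (u : Fin k → V) : ∑ x, occ u x = k := by
  have := (Finset.card_eq_sum_card_fiberwise (s := (univ : Finset (Fin k))) (t := univ) (f := u)
    fun i _ => Finset.mem_univ _).symm
  simpa [occ] using this

omit [Fintype V] in
theorem occ_update (u : Fin k → V) (i : Fin k) (y z : V) :
    occ (Function.update u i y) z + (if u i = z then 1 else 0)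
      = occ u z + (if y = z then 1 else 0) := by
  have e : ∀ w : Fin k → V, occ w z
      = (if w i = z then 1 else 0) + ((univ.erase i).filter fun j => w j = z).card := by
    intro w
    rw [occ, Finset.card_filter, Finset.card_filter, ← Finset.add_sum_erase _ _ (mem_univ i)]
  rw [e (Function.update u i y), e u, update_self,
    Finset.filter_congr (s := univ.erase i) (q := fun j => u j = z) fun j hj => by
      rw [update_of_ne (Finset.ne_of_mem_erase hj)]]
  ring

theorem exists_perm {u v : Fin k → V} (h : ∀ x, occ u x = occ v x) :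
    ∃ σ : Equiv.Perm (Fin k), v = u ∘ σ := by
  have e : ∀ x, Nonempty ({i // v i = x} ≃ {i // u i = x}) := fun x =>
    ⟨Fintype.equivOfCardEq (by
      rw [Fintype.card_subtype, Fintype.card_subtype]; exact (h x).symm)⟩
  have g := fun x => Classical.choice (e x)
  refine ⟨(Equiv.sigmaFiberEquiv v).symm.trans
    ((Equiv.sigmaCongrRight g).trans (Equiv.sigmaFiberEquiv u)), funext fun i => ?_⟩
  exact ((g (v i)) ⟨i, rfl⟩).2.symm

omit [Fintype V] in
theorem occ_comp (u : Fin k → V) (σ : Equiv.Perm (Fin k)) (x : V) : occ (u ∘ σ) x = occ u x :=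
  Finset.card_equiv σ fun i => by simp

variable (n : ℕ)

/-- The tuple respects the cap `n`. -/
def Valid (u : Fin k → V) : Prop := ∀ x, occ u x ≤ n

instance (u : Fin k → V) : Decidable (Valid n u) := inferInstanceAs (Decidable (∀ _, _))

/-- The configuration of a tuple. -/
def cfgOf (u : Fin k → V) : Cfg n V := fun x => ⟨min (occ u x) n, by omega⟩

/-- Tuples with a given configuration. -/
def fib (k : ℕ) (η : Cfg n V) : Finset (Fin k → V) :=
  univ.filter fun u => ∀ x, occ u x = (η x).val

/-- Their number. -/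
def wt (k : ℕ) (η : Cfg n V) : ℝ := ((fib n k η).card : ℝ)

theorem mem_fib {η : Cfg n V} {u : Fin k → V} :
    u ∈ fib n k η ↔ Valid n u ∧ cfgOf n u = η := by
  simp only [fib, Finset.mem_filter, Finset.mem_univ, true_and]
  constructor
  · intro h
    refine ⟨fun x => (h x).le.trans (Nat.lt_succ_iff.1 (η x).isLt), funext fun x => Fin.ext ?_⟩
    simp only [cfgOf, h x]
    exact min_eq_left (Nat.lt_succ_iff.1 (η x).isLt)
  · rintro ⟨hv, rfl⟩ x
    exact (min_eq_left (hv x)).symm

theorem mem_fib_cfgOf {u : Fin k → V} (h : Valid n u) : u ∈ fib n k (cfgOf n u) :=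
  (mem_fib n).2 ⟨h, rfl⟩

theorem tot_of_mem_fib {η : Cfg n V} {u : Fin k → V} (h : u ∈ fib n k η) : tot η = k := by
  rw [← sum_occ u]
  exact Finset.sum_congr rfl fun x _ => ((Finset.mem_filter.1 h).2 x).symm

theorem wt_nonneg (η : Cfg n V) : 0 ≤ wt n k η := Nat.cast_nonneg _

theorem wt_pos {η : Cfg n V} (h : tot η = k) : 0 < wt n k η := by
  have hc : Fintype.card (Σ x : V, Fin (η x).val) = k := by
    simpa [tot] using h
  set e : (Σ x : V, Fin (η x).val) ≃ Fin k := Fintype.equivFinOfCardEq hc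
  refine Nat.cast_pos.2 (Finset.card_pos.2 ⟨fun i => (e.symm i).1,
    Finset.mem_filter.2 ⟨mem_univ _, fun x => ?_⟩⟩)
  rw [occ, ← Fintype.card_fin (η x).val, ← Fintype.card_subtype]
  refine Fintype.card_congr ((Equiv.subtypeEquiv e.symm (fun i => Iff.rfl)).trans
    (Equiv.sigmaSubtype x))

theorem sum_valid (G : (Fin k → V) → ℝ) :
    (∑ u, if Valid n u then G u else 0) = ∑ η, ∑ u ∈ fib n k η, G u := by
  rw [← Finset.sum_filter, ← Finset.sum_fiberwise (univ.filter fun u => Valid n u) (cfgOf n)]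
  refine Finset.sum_congr rfl fun η _ => Finset.sum_congr ?_ fun u _ => rfl
  ext u
  simp [mem_fib]

/-- The symmetric embedding of configurations into tuples. -/
noncomputable def emb (k : ℕ) (f : Cfg n V → ℝ) (u : Fin k → V) : ℝ :=
  if Valid n u then f (cfgOf n u) / Real.sqrt (wt n k (cfgOf n u)) else 0

/-- Its adjoint. -/
noncomputable def proj (k : ℕ) (F : (Fin k → V) → ℝ) (η : Cfg n V) : ℝ :=
  (∑ u ∈ fib n k η, F u) / Real.sqrt (wt n k η)

theorem proj_dot (F : (Fin k → V) → ℝ) (f : Cfg n V → ℝ) :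
    proj n k F ⬝ᵥ f = F ⬝ᵥ emb n k f := by
  have : F ⬝ᵥ emb n k f
      = ∑ u, if Valid n u then F u * (f (cfgOf n u) / Real.sqrt (wt n k (cfgOf n u))) else 0 := by
    refine Finset.sum_congr rfl fun u _ => ?_
    simp only [emb]; split_ifs <;> simp
  rw [this, sum_valid, dotProduct]
  refine Finset.sum_congr rfl fun η _ => ?_
  rw [proj, div_mul_eq_mul_div, Finset.sum_mul, Finset.sum_div]
  refine Finset.sum_congr rfl fun u hu => ?_
  rw [((mem_fib n).1 hu).2, mul_div_assoc]

theorem emb_dot (f g : Cfg n V → ℝ) :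
    emb n k f ⬝ᵥ emb n k g = ∑ η, if tot η = k then f η * g η else 0 := by
  rw [← proj_dot, dotProduct]
  refine Finset.sum_congr rfl fun η _ => ?_
  split_ifs with h
  · have hw := wt_pos n h
    rw [proj, Finset.sum_congr rfl fun u hu => by
      rw [emb, if_pos ((mem_fib n).1 hu).1, ((mem_fib n).1 hu).2]]
    rw [Finset.sum_const, nsmul_eq_mul]
    have hs := Real.mul_self_sqrt hw.le
    change ((fib n k η).card : ℝ) * (f η / Real.sqrt (wt n k η)) / Real.sqrt (wt n k η) * g η = _
    rw [show ((fib n k η).card : ℝ) = wt n k η from rfl]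
    field_simp
    rw [sq, hs]
    ring
  · rw [proj, Finset.sum_eq_zero fun u hu => absurd (tot_of_mem_fib n hu) h]
    simp

theorem emb_dot_le (f : Cfg n V → ℝ) : emb n k f ⬝ᵥ emb n k f ≤ f ⬝ᵥ f := by
  rw [emb_dot]
  exact Finset.sum_le_sum fun η _ => by split_ifs <;> first | exact le_rfl | exact mul_self_nonneg _

/-- Symmetric functions of tuples. -/
def SymmFun {W : Type*} (F : (Fin k → W) → ℝ) : Prop :=
  ∀ (σ : Equiv.Perm (Fin k)) u, F (u ∘ σ) = F u

theorem symm_emb (f : Cfg n V → ℝ) : SymmFun (emb n k f) := by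
  intro σ u
  have hc : cfgOf n (u ∘ σ) = cfgOf n u := by
    funext x; ext; simp [cfgOf, occ_comp]
  have hv : Valid n (u ∘ σ) ↔ Valid n u := by simp [Valid, occ_comp]
  simp only [emb, hc, hv]

theorem symm_const_on_fib {F : (Fin k → V) → ℝ} (hF : SymmFun F) {η : Cfg n V}
    {u v : Fin k → V} (hu : u ∈ fib n k η) (hv : v ∈ fib n k η) : F u = F v := by
  obtain ⟨σ, rfl⟩ := exists_perm (u := u) (v := v) fun x =>
    ((Finset.mem_filter.1 hu).2 x).trans ((Finset.mem_filter.1 hv).2 x).symm
  exact (hF σ u).symm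

theorem eq_proj_div {F : (Fin k → V) → ℝ} (hF : SymmFun F) {u : Fin k → V} (hu : Valid n u) :
    F u = proj n k F (cfgOf n u) / Real.sqrt (wt n k (cfgOf n u)) := by
  have hm := mem_fib_cfgOf n hu
  have hw := wt_pos n (k := k) (tot_of_mem_fib n hm)
  rw [proj, div_div, Real.mul_self_sqrt hw.le,
    Finset.sum_congr rfl fun v hv => symm_const_on_fib n hF hv hm, Finset.sum_const, nsmul_eq_mul,
    eq_div_iff hw.ne', mul_comm]
  rfl

theorem proj_sq {F : (Fin k → V) → ℝ} (hF : SymmFun F) (η : Cfg n V) :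
    proj n k F η ^ 2 = ∑ u ∈ fib n k η, F u ^ 2 := by
  rcases (fib n k η).eq_empty_or_nonempty with h | ⟨v, hv⟩
  · simp [proj, h]
  · have hw := wt_pos n (k := k) (tot_of_mem_fib n hv)
    rw [proj, Finset.sum_congr rfl fun u hu => symm_const_on_fib n hF hu hv, Finset.sum_const,
      nsmul_eq_mul, div_pow, Real.sq_sqrt hw.le,
      Finset.sum_congr rfl fun u hu => by rw [symm_const_on_fib n hF hu hv], Finset.sum_const,
      nsmul_eq_mul]
    rw [show ((fib n k η).card : ℝ) = wt n k η from rfl]
    field_simp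

theorem proj_eq_zero (F : (Fin k → V) → ℝ) {η : Cfg n V} (h : tot η ≠ k) : proj n k F η = 0 := by
  rw [proj, Finset.sum_eq_zero fun u hu => absurd (tot_of_mem_fib n hu) h, zero_div]

theorem cfgOf_update {η : Cfg n V} {u : Fin k → V} {i : Fin k} {x y : V} (hxy : x ≠ y)
    (hu : u ∈ fib n k η) (hi : u i = x) (hc : Can x y η) :
    Function.update u i y ∈ fib n k (mv x y η) := by
  obtain ⟨h1, h2⟩ := hc
  refine Finset.mem_filter.2 ⟨mem_univ _, fun z => ?_⟩
  have h := occ_update u i y z
  have hz := (Finset.mem_filter.1 hu).2 z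
  rw [hi] at h
  by_cases ex : z = x
  · subst ex
    rw [mv_apply_src hxy]
    simp only [if_true, if_neg (Ne.symm hxy)] at h
    simp only [dec]; omega
  · by_cases ey : z = y
    · subst ey
      rw [mv_apply_dst]
      simp only [if_true, if_neg hxy] at h
      simp only [inc]; omega
    · rw [mv_apply_other ex ey]
      simp only [if_neg (Ne.symm ex), if_neg (Ne.symm ey)] at h
      omega

omit [Fintype V] in
theorem card_at (η : Cfg n V) {u : Fin k → V} (hu : ∀ x, occ u x = (η x).val) (x : V)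
    (c : ℝ) : (∑ i, if u i = x then c else 0) = ((η x).val : ℝ) * c := by
  rw [← Finset.sum_filter, Finset.sum_const, nsmul_eq_mul, ← hu x]
  rfl

theorem wt_mv {η : Cfg n V} {x y : V} (hxy : x ≠ y) (hc : Can x y η) :
    wt n k η * ((η x).val : ℝ) = wt n k (mv x y η) * (((η y).val : ℝ) + 1) := by
  have e : ∀ (ζ : Cfg n V) (z : V), wt n k ζ * ((ζ z).val : ℝ)
      = (((fib n k ζ) ×ˢ (univ : Finset (Fin k))).filter fun p => p.1 p.2 = z).card := by
    intro ζ z
    rw [Finset.card_filter, Nat.cast_sum, Finset.sum_product]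
    rw [Finset.sum_congr rfl fun u hu => by
      rw [Finset.sum_congr rfl fun i _ => Nat.cast_ite (P := u i = z) 1 0, Nat.cast_one,
        Nat.cast_zero, card_at n ζ (Finset.mem_filter.1 hu).2 z (1 : ℝ)]]
    rw [Finset.sum_const, nsmul_eq_mul, mul_one]
    rfl
  have hy : ((mv x y η y).val : ℝ) = ((η y).val : ℝ) + 1 := by
    rw [mv_apply_dst]; simp only [inc]
    rw [min_eq_left (by have := hc.2; omega)]; push_cast; rfl
  rw [← hy, e, e]
  congr 1
  refine Finset.card_nbij' (fun p => (Function.update p.1 p.2 y, p.2))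
    (fun p => (Function.update p.1 p.2 x, p.2)) ?_ ?_ ?_ ?_
  · intro p hp
    simp only [Finset.coe_filter, Finset.mem_product, Finset.mem_univ, and_true,
      Set.mem_setOf_eq] at hp ⊢
    exact ⟨cfgOf_update n hxy hp.1 hp.2 hc, update_self _ _ _⟩
  · intro p hp
    simp only [Finset.coe_filter, Finset.mem_product, Finset.mem_univ, and_true,
      Set.mem_setOf_eq] at hp ⊢
    have := cfgOf_update n (Ne.symm hxy) hp.1 hp.2 (can_mv hxy hc)
    rw [mv_mv hxy hc] at this
    exact ⟨this, update_self _ _ _⟩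
  · intro p hp
    simp only [Finset.coe_filter, Finset.mem_product, Finset.mem_univ, and_true,
      Set.mem_setOf_eq] at hp
    simp [← hp.2]
  · intro p hp
    simp only [Finset.coe_filter, Finset.mem_product, Finset.mem_univ, and_true,
      Set.mem_setOf_eq] at hp
    simp [← hp.2]

end Vale.Agent.P361
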