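import Vale.Agent.P361.Cube
import Vale.Agent.P361.Tuple
import Vale.Agent.P361.Layers
import Vale.Agent.P361.Casimir

/-!
A crude bound on the partition function of a cube whose side is a bit below `√β`.
-/

namespace Vale.Agent.P361

open Matrix Finset Function
open scoped BigOperators

theorem sum_three {L : ℕ} (F : Grid L → ℝ) :
    ∑ x : Grid L, F x = ∑ a, ∑ b, ∑ c, F ![a, b, c] := by
  have e : ∀ a, ∑ p : Fin L × Fin L, F ![a, p.1, p.2] = ∑ b, ∑ c, F ![a, b, c] := fun a =>
    Fintype.sum_prod_type _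
  rw [← Finset.sum_congr rfl fun a _ => e a, ← Fintype.sum_prod_type']
  refine (Fintype.sum_equiv
    { toFun := fun p => ![p.1, p.2.1, p.2.2]
      invFun := fun x => (x 0, x 1, x 2)
      left_inv := fun p => by simp
      right_inv := fun x => by funext j; fin_cases j <;> rfl } _ _ fun p => rfl).symm

/-- The energy along lines of one direction is a part of the nearest-neighbour energy. -/
theorem line_sum_le {n L : ℕ} [NeZero n] (f : Cfg n (Grid L) → ℝ)
    (emb : Fin L → Fin L → Fin L → Grid L)
    (hbij : ∀ F : Grid L → ℝ, ∑ b, ∑ c, ∑ a, F (emb b c a) = ∑ x, F x)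
    (hadj : ∀ b c a a', a.val + 1 = a'.val → gadj L (emb b c a) (emb b c a')) :
    ∑ b, ∑ c, ∑ a : Fin L, ∑ a' : Fin L, siteE n f (emb b c a) (emb b c a')
      ≤ 4 * (L : ℝ) ^ 3 * ∑ x, ∑ y, if gadj L x y then siteE n f x y else 0 := by
  set A : Grid L → ℝ := fun x => ∑ y, if gadj L x y then siteE n f x y else 0 with hA
  have hnn : ∀ x y, 0 ≤ siteE n f x y := fun x y => swapE_nonneg n f _ _
  have hA0 : ∀ x, 0 ≤ A x := fun x =>
    Finset.sum_nonneg fun y _ => by split_ifs; exacts [hnn x y, le_rfl]
  have key : ∀ b c (a a' : Fin L), a.val ≤ a'.val →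
      siteE n f (emb b c a) (emb b c a') ≤ 4 * (L : ℝ) * ∑ i, A (emb b c i) := by
    intro b c a a' h
    have hL : 0 < L := a.pos
    set p : ℕ → Grid L := fun i => emb b c ⟨min (a.val + i) (L - 1), by omega⟩ with hp
    have h0 : p 0 = emb b c a := by
      simp only [hp]; congr 1; ext; simp only; omega
    have hm : p (a'.val - a.val) = emb b c a' := by
      simp only [hp]; congr 1; ext; simp only; omega
    have h1 := siteE_path n f p (a'.val - a.val)
    rw [h0, hm] at h1
    refine h1.trans ?_
    have h2 : ∑ i ∈ range (a'.val - a.val), siteE n f (p i) (p (i + 1)) ≤ ∑ i, A (emb b c i) := by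
      have hstep : ∀ i ∈ range (a'.val - a.val),
          siteE n f (p i) (p (i + 1)) ≤ A (p i) := by
        intro i hi
        rw [Finset.mem_range] at hi
        have hg : gadj L (p i) (p (i + 1)) := hadj b c _ _ (by simp only; omega)
        have e : siteE n f (p i) (p (i + 1))
            = if gadj L (p i) (p (i + 1)) then siteE n f (p i) (p (i + 1)) else 0 := by rw [if_pos hg]
        rw [e]
        exact Finset.single_le_sum (f := fun y => if gadj L (p i) y then siteE n f (p i) y else 0)
          (fun y _ => by split_ifs; exacts [hnn _ y, le_rfl]) (Finset.mem_univ _)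
      refine (Finset.sum_le_sum hstep).trans ?_
      have hinj : Set.InjOn (fun i : ℕ => (⟨min (a.val + i) (L - 1), by omega⟩ : Fin L))
          (range (a'.val - a.val) : Finset ℕ) := by
        intro i hi j hj hij
        simp only [Finset.coe_range, Set.mem_Iio] at hi hj
        simp only [Fin.mk.injEq] at hij
        omega
      rw [show ∑ i ∈ range (a'.val - a.val), A (p i) = ∑ j ∈ (range (a'.val - a.val)).image
        (fun i : ℕ => (⟨min (a.val + i) (L - 1), by omega⟩ : Fin L)), A (emb b c j) from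
          (Finset.sum_image (f := fun j => A (emb b c j)) hinj).symm]
      exact Finset.sum_le_sum_of_subset_of_nonneg (Finset.subset_univ _) fun i _ _ => hA0 _
    have h3 : ((a'.val - a.val : ℕ) : ℝ) ≤ L := by exact_mod_cast (by omega : a'.val - a.val ≤ L)
    have h4 : 0 ≤ ∑ i ∈ range (a'.val - a.val), siteE n f (p i) (p (i + 1)) :=
      Finset.sum_nonneg fun i _ => hnn _ _
    nlinarith [mul_le_mul h3 h2 h4 (Nat.cast_nonneg L)]
  calc ∑ b, ∑ c, ∑ a : Fin L, ∑ a' : Fin L, siteE n f (emb b c a) (emb b c a')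
      ≤ ∑ b, ∑ c, ∑ _a : Fin L, ∑ _a' : Fin L, 4 * (L : ℝ) * ∑ i, A (emb b c i) := by
        refine Finset.sum_le_sum fun b _ => Finset.sum_le_sum fun c _ =>
          Finset.sum_le_sum fun a _ => Finset.sum_le_sum fun a' _ => ?_
        rcases le_total a.val a'.val with h | h
        · exact key b c a a' h
        · refine le_trans (le_of_eq (swapE_comm n f _ _)) ?_
          exact key b c a' a h
    _ = _ := by
        rw [← hbij A]
        simp only [Finset.sum_const, Finset.card_univ, Fintype.card_fin, nsmul_eq_mul,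
          Finset.mul_sum]
        exact Finset.sum_congr rfl fun b _ => Finset.sum_congr rfl fun c _ =>
          Finset.sum_congr rfl fun i _ => by ring

/-- The complete graph is dominated by the cube. -/
theorem complete_le_grid {n L : ℕ} (hn : 1 ≤ n) (f : Cfg n (Grid L) → ℝ) :
    quad (kin (fun x y : Grid L => x ≠ y) n) f
      ≤ 144 * (L : ℝ) ^ 5 * quad (kin (gadj L) n) f := by
  have : NeZero n := ⟨by omega⟩
  rw [quad_kin _ (fun x h => h rfl), quad_kin _ (gadj_irrefl L)]
  have hnn : ∀ x y, 0 ≤ siteE n f x y := fun x y => swapE_nonneg n f _ _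
  set A := ∑ x, ∑ y, if gadj L x y then siteE n f x y else 0 with hA
  have hR : ∀ (R : Grid L → Grid L → Prop) [DecidableRel R], (∀ x y, R x y → x ≠ y) →
      (∑ x, ∑ y, if R x y then transForm x y f f else 0)
        = (n : ℝ) ^ 2 / 2 * ∑ x, ∑ y, if R x y then siteE n f x y else 0 := by
    intro R _ hR
    rw [Finset.mul_sum]
    refine Finset.sum_congr rfl fun x _ => ?_
    rw [Finset.mul_sum]
    refine Finset.sum_congr rfl fun y _ => ?_
    split_ifs with h
    · have := transForm_eq_siteE n f (hR x y h)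
      linarith
    · ring
  rw [hR (fun x y : Grid L => x ≠ y) (fun _ _ h => h),
    hR (gadj L) (fun x y h e => gadj_irrefl L y (e ▸ h)), ← hA]
  have l0 := line_sum_le f (fun b c a => ![a, b, c]) (fun F => by
      rw [sum_three F, Finset.sum_congr rfl fun b _ => Finset.sum_comm, Finset.sum_comm])
    (fun b c a a' h => by
      have e : ((a.val : ℤ) - a'.val) = -1 := by omega
      simp [gadj, Fin.sum_univ_three, e])
  have l1 := line_sum_le f (fun b c a => ![b, a, c]) (fun F => by
      rw [sum_three F, Finset.sum_congr rfl fun b _ => Finset.sum_comm])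
    (fun b c a a' h => by
      have e : ((a.val : ℤ) - a'.val) = -1 := by omega
      simp [gadj, Fin.sum_univ_three, e])
  have l2 := line_sum_le f (fun b c a => ![b, c, a]) (fun F => (sum_three F).symm)
    (fun b c a a' h => by
      have e : ((a.val : ℤ) - a'.val) = -1 := by omega
      simp [gadj, Fin.sum_univ_three, e])
  have hall : (∑ x : Grid L, ∑ y, if x ≠ y then siteE n f x y else 0)
      ≤ 144 * (L : ℝ) ^ 5 * A := by
    have hpath : ∀ a b c a' b' c' : Fin L, (if (![a, b, c] : Grid L) ≠ ![a', b', c'] then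
        siteE n f ![a, b, c] ![a', b', c'] else 0)
        ≤ 12 * (siteE n f ![a, b, c] ![a', b, c] + siteE n f ![a', b, c] ![a', b', c]
          + siteE n f ![a', b', c] ![a', b', c']) := by
      intro a b c a' b' c'
      split_ifs
      · have := siteE_path n f (fun i => ![![a, b, c], ![a', b, c], ![a', b', c], ![a', b', c']]
          (⟨min i 3, by omega⟩ : Fin 4)) 3
        simpa [Finset.sum_range_succ, show (4:ℝ) * 3 = 12 by norm_num] using this
      · linarith [hnn ![a, b, c] ![a', b, c], hnn ![a', b, c] ![a', b', c],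
          hnn ![a', b', c] ![a', b', c']]
    have h1 : (∑ x : Grid L, ∑ y, if x ≠ y then siteE n f x y else 0)
        ≤ ∑ a : Fin L, ∑ b : Fin L, ∑ c : Fin L, ∑ a' : Fin L, ∑ b' : Fin L, ∑ c' : Fin L,
          12 * (siteE n f ![a, b, c] ![a', b, c] + siteE n f ![a', b, c] ![a', b', c]
          + siteE n f ![a', b', c] ![a', b', c']) := by
      rw [sum_three]
      refine Finset.sum_le_sum fun a _ => Finset.sum_le_sum fun b _ => Finset.sum_le_sum fun c _ => ?_
      rw [sum_three]
      exact Finset.sum_le_sum fun a' _ => Finset.sum_le_sum fun b' _ => Finset.sum_le_sum fun c' _ =>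
        hpath a b c a' b' c'
    refine h1.trans ?_
    simp only [mul_add, Finset.sum_add_distrib, ← Finset.mul_sum, Finset.sum_const, Finset.card_univ,
      Fintype.card_fin, nsmul_eq_mul]
    have e0 : (∑ a : Fin L, ∑ b : Fin L, ∑ c : Fin L, ∑ a' : Fin L, siteE n f ![a, b, c] ![a', b, c])
        = ∑ b : Fin L, ∑ c : Fin L, ∑ a : Fin L, ∑ a' : Fin L, siteE n f ![a, b, c] ![a', b, c] := by
      rw [Finset.sum_comm]; exact Finset.sum_congr rfl fun b _ => Finset.sum_comm
    have e1 : (∑ b : Fin L, ∑ c : Fin L, ∑ a' : Fin L, ∑ b' : Fin L,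
          siteE n f ![a', b, c] ![a', b', c])
        = ∑ a' : Fin L, ∑ c : Fin L, ∑ b : Fin L, ∑ b' : Fin L,
          siteE n f ![a', b, c] ![a', b', c] := by
      rw [Finset.sum_congr rfl fun b _ => Finset.sum_comm, Finset.sum_comm]
      exact Finset.sum_congr rfl fun a' _ => Finset.sum_comm
    have e2 : (∑ c : Fin L, ∑ a' : Fin L, ∑ b' : Fin L, ∑ c' : Fin L,
          siteE n f ![a', b', c] ![a', b', c'])
        = ∑ a' : Fin L, ∑ b' : Fin L, ∑ c : Fin L, ∑ c' : Fin L,
          siteE n f ![a', b', c] ![a', b', c'] := by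
      rw [Finset.sum_comm]; exact Finset.sum_congr rfl fun a' _ => Finset.sum_comm
    rw [e0, e1, e2]
    have hL : (0 : ℝ) ≤ (L : ℝ) ^ 2 := sq_nonneg _
    simp only [← hA] at l0 l1 l2
    nlinarith [mul_le_mul_of_nonneg_left l0 hL, mul_le_mul_of_nonneg_left l1 hL,
      mul_le_mul_of_nonneg_left l2 hL]
  have h0 : (0 : ℝ) ≤ (n : ℝ) ^ 2 / 2 := by positivity
  have := mul_le_mul_of_nonneg_left hall h0
  nlinarith

/-- The number of configurations in a sector. -/
theorem card_sector {n : ℕ} {V : Type*} [Fintype V] [DecidableEq V] (k : ℕ) :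
    (univ.filter fun η : Cfg n V => tot η = k).card ≤ Fintype.card V ^ k := by
  calc (univ.filter fun η : Cfg n V => tot η = k).card
      ≤ ((univ : Finset (Fin k → V)).image (cfgOf n)).card := by
        refine Finset.card_le_card fun η hη => ?_
        have hk := (Finset.mem_filter.1 hη).2
        have hp := wt_pos n hk
        obtain ⟨u, hu⟩ := Finset.card_pos.1 (Nat.cast_pos.1 hp)
        exact Finset.mem_image.2 ⟨u, Finset.mem_univ _, ((mem_fib n).1 hu).2⟩
    _ ≤ Fintype.card (Fin k → V) := Finset.card_image_le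
    _ = _ := by simp

/-- In a small cube every sector contributes at most `2`. -/
theorem sector_le_two {n L : ℕ} (hn : 1 ≤ n) (hL : 0 < L) {β : ℝ} (hβ : 0 ≤ β)
    (hsmall : (L : ℝ) ^ 3 * Real.exp (-(β * n / (576 * (L : ℝ) ^ 2))) ≤ 1 / 2)
    {U : Matrix (Cfg n (Grid L)) (Cfg n (Grid L)) ℝ} {d : Cfg n (Grid L) → ℝ}
    (hE : Eig (kin (gadj L) n) U d) (hU : ∀ η i, tot η ≠ tot i → U η i = 0) (k : ℕ) :
    ∑ i ∈ univ.filter (fun i : Cfg n (Grid L) => tot i = k), Real.exp (-(β * d i)) ≤ 2 := by
  obtain ⟨W, e, hW, hWU, hWnn, -⟩ :=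
    exists_kin_eig (n := n) (fun x y : Grid L => x ≠ y) (fun x h => h rfl)
  have hL' : (0 : ℝ) < L := by exact_mod_cast hL
  set γ : ℝ := β / (144 * (L : ℝ) ^ 5) with hγ
  have hγ0 : 0 ≤ γ := by positivity
  set r : ℝ := (L : ℝ) ^ 3 * Real.exp (-(β * n / (576 * (L : ℝ) ^ 2))) with hr
  have hr0 : 0 ≤ r := by positivity
  set T : ℕ → ℝ := fun k =>
    ∑ i ∈ univ.filter (fun i : Cfg n (Grid L) => tot i = k), Real.exp (-(γ * e i)) with hT
  have hT0 : T 0 ≤ 1 := by
    calc T 0 ≤ ∑ _i ∈ univ.filter (fun i : Cfg n (Grid L) => tot i = 0), (1 : ℝ) :=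
          Finset.sum_le_sum fun i _ => Real.exp_le_one_iff.2
            (neg_nonpos.2 (mul_nonneg hγ0 (hWnn i)))
      _ ≤ 1 := by
          rw [Finset.sum_const, nsmul_eq_mul, mul_one]
          have := card_sector (n := n) (V := Grid L) 0
          simp only [pow_zero] at this
          exact_mod_cast this
  have hTk : ∀ k, T k ≤ ∑ j ∈ range (k + 1), r ^ j := by
    intro k
    induction k with
    | zero => simpa using hT0
    | succ k ih =>
      rw [Finset.sum_range_succ]
      refine (complete_ladder hW hWU hγ0 k).trans (add_le_add ih ?_)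
      have hc : ((univ.filter fun i : Cfg n (Grid L) => tot i = k + 1).card : ℝ)
          ≤ ((L : ℝ) ^ 3) ^ (k + 1) := by
        have := card_sector (n := n) (V := Grid L) (k + 1)
        simp only [Fintype.card_fun, Fintype.card_fin] at this
        exact_mod_cast this
      refine (mul_le_mul_of_nonneg_right hc (Real.exp_nonneg _)).trans (le_of_eq ?_)
      rw [hr, mul_pow ((L : ℝ) ^ 3), ← Real.exp_nat_mul]
      congr 1
      congr 1
      rw [hγ]
      simp only [Fintype.card_fun, Fintype.card_fin]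
      push_cast
      field_simp
      ring
  have hgeom : ∀ k, ∑ j ∈ range k, r ^ j ≤ 2 := by
    intro k
    refine le_trans (Finset.sum_le_sum fun j _ => pow_le_pow_left₀ hr0 hsmall j) ?_
    exact sum_geometric_two_le k
  refine le_trans ?_ ((hTk k).trans (hgeom _))
  set w : Cfg n (Grid L) → Cfg n (Grid L) → ℝ := fun i η => U η i with hw
  have hWs : Eig (γ • kin (fun x y : Grid L => x ≠ y) n) W (fun i => γ * e i) := by
    refine ⟨hW.1, ?_⟩
    rw [show (diagonal fun i => γ * e i) = γ • diagonal e from by rw [← diagonal_smul]; rfl,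
      Matrix.mul_smul, Matrix.smul_mul, ← hW.2]
  have hp := hWs.peierls (univ.filter fun i : Cfg n (Grid L) => tot i = k) w
    (bessel _ w fun i _ j _ => hE.col_dot i j)
    (univ.filter fun i : Cfg n (Grid L) => tot i = k) (fun i hi l hl => by
      simp only [Finset.mem_filter, Finset.mem_univ, true_and] at hi hl
      refine Finset.sum_eq_zero fun η _ => ?_
      by_cases h : tot η = k
      · simp [hWU η l (fun e => hl (e.symm.trans h))]
      · simp [hw, hU η i (fun e => h (e.trans hi))])
  refine le_trans (Finset.sum_le_sum fun i _ => ?_) hp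
  have h1 := hE.col_dot i i
  rw [if_pos rfl] at h1
  simp only [hw]
  rw [h1, one_mul, div_one, quad, smul_mulVec, dotProduct_smul, smul_eq_mul]
  refine Real.exp_le_exp.2 (neg_le_neg ?_)
  have h2 := complete_le_grid hn (fun η => U η i)
  rw [hE.quad_col i, quad] at h2
  calc γ * _ ≤ γ * (144 * (L : ℝ) ^ 5 * d i) := mul_le_mul_of_nonneg_left h2 hγ0
    _ = β * d i := by rw [hγ]; field_simp

/-- The crude bound. -/
theorem part_small_cube {n L : ℕ} (hn : 1 ≤ n) (hL : 0 < L) {β c : ℝ} (hβ : 0 ≤ β) (hc : 0 < c)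
    (hsmall : (L : ℝ) ^ 3 * Real.exp (-(β * n / (576 * (L : ℝ) ^ 2))) ≤ 1 / 2) :
    part (gadj L) n β (fun _ => c) ≤ 2 / (1 - Real.exp (-c)) := by
  obtain ⟨U, d, hE, hU, -, hpart⟩ := exists_kin_eig (n := n) (gadj L) (gadj_irrefl L)
  set z := Real.exp (-c) with hz
  have hz1 : z < 1 := Real.exp_lt_one_iff.2 (by linarith)
  have hz0 : 0 < z := Real.exp_pos _
  rw [hpart]
  set M := n * Fintype.card (Grid L) + 1 with hM
  rw [← Finset.sum_fiberwise_of_maps_to (g := tot) (t := range M)
    (fun i _ => Finset.mem_range.2 (Nat.lt_succ_of_le (tot_le i)))]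
  calc _ ≤ ∑ k ∈ range M, 2 * z ^ k := by
        refine Finset.sum_le_sum fun k _ => ?_
        rw [Finset.sum_congr rfl fun i hi => by rw [(Finset.mem_filter.1 hi).2], ← Finset.sum_mul]
        exact mul_le_mul_of_nonneg_right (sector_le_two hn hL hβ hsmall hE hU k) (by positivity)
    _ ≤ 2 / (1 - z) := by
        rw [← Finset.mul_sum, div_eq_mul_inv 2 (1 - z)]
        exact mul_le_mul_of_nonneg_left (geom_sum_le_inv hz0.le hz1) (by norm_num)
where
  geom_sum_le_inv {z : ℝ} (h0 : 0 ≤ z) (h1 : z < 1) {m : ℕ} :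
      ∑ i ∈ range m, z ^ i ≤ (1 - z)⁻¹ := by
    rw [← tsum_geometric_of_lt_one h0 h1]
    exact (summable_geometric_of_lt_one h0 h1).sum_le_tsum _ fun i _ => pow_nonneg h0 i

end Vale.Agent.P361
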