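import Mathlib.LinearAlgebra.Matrix.Symmetric
import Mathlib.Data.Matrix.Mul
import Mathlib.Algebra.BigOperators.Ring.Finset
import Mathlib.LinearAlgebra.Matrix.Trace

/-!
Tensor products of one-site matrices, indexed by functions on the sites.
-/

namespace Vale.Agent.P361

open Matrix Finset Function
open scoped BigOperators

variable {V : Type*} [Fintype V] {R : Type*} [CommRing R]
  {ι κ μ : V → Type*}

/-- Tensor product of matrices. -/
def prodMat (A : ∀ x, Matrix (ι x) (κ x) R) : Matrix (∀ x, ι x) (∀ x, κ x) R :=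
  Matrix.of fun η η' => ∏ x, A x (η x) (η' x)

theorem prodMat_apply (A : ∀ x, Matrix (ι x) (κ x) R) (η : ∀ x, ι x) (η' : ∀ x, κ x) :
    prodMat A η η' = ∏ x, A x (η x) (η' x) := rfl

theorem prodMat_mul [DecidableEq V] [∀ x, Fintype (κ x)] (A : ∀ x, Matrix (ι x) (κ x) R)
    (B : ∀ x, Matrix (κ x) (μ x) R) :
    prodMat A * prodMat B = prodMat fun x => A x * B x := by
  ext η η'
  simp only [Matrix.mul_apply, prodMat_apply, Fintype.prod_sum, Finset.prod_mul_distrib]

theorem prodMat_transpose (A : ∀ x, Matrix (ι x) (κ x) R) :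
    (prodMat A)ᵀ = prodMat fun x => (A x)ᵀ := rfl

theorem prodMat_one [DecidableEq V] [∀ x, DecidableEq (ι x)] :
    prodMat (fun x => (1 : Matrix (ι x) (ι x) R)) = 1 := by
  ext η η'
  rw [prodMat_apply, Matrix.one_apply]
  by_cases h : η = η'
  · subst h; simp
  · obtain ⟨x, hx⟩ := Function.ne_iff.1 h
    rw [if_neg h]
    exact Finset.prod_eq_zero (Finset.mem_univ x) (Matrix.one_apply_ne hx)

variable [DecidableEq V] [∀ x, DecidableEq (ι x)]

/-- The matrix `A` at site `x`, the identity elsewhere. -/
def atSite (x : V) (A : Matrix (ι x) (ι x) R) : Matrix (∀ x, ι x) (∀ x, ι x) R :=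
  Matrix.of fun η η' => if ∀ z, z ≠ x → η z = η' z then A (η x) (η' x) else 0

theorem atSite_apply (x : V) (A : Matrix (ι x) (ι x) R) (η η' : ∀ x, ι x) :
    atSite x A η η' = if ∀ z, z ≠ x → η z = η' z then A (η x) (η' x) else 0 := rfl

theorem atSite_eq_prodMat (x : V) (A : Matrix (ι x) (ι x) R) :
    atSite x A = prodMat (Function.update (fun z => (1 : Matrix (ι z) (ι z) R)) x A) := by
  ext η η'
  rw [atSite_apply, prodMat_apply, ← Finset.mul_prod_erase _ _ (Finset.mem_univ x), update_self]
  have e : ∀ z ∈ univ.erase x,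
      (Function.update (fun z => (1 : Matrix (ι z) (ι z) R)) x A) z (η z) (η' z)
        = if η z = η' z then 1 else 0 := by
    intro z hz
    rw [update_of_ne (Finset.ne_of_mem_erase hz), Matrix.one_apply]
  rw [Finset.prod_congr rfl e, Finset.prod_boole]
  split_ifs with h1 h2 h2
  · simp
  · exact absurd (fun z hz => h1 z (Finset.ne_of_mem_erase hz)) h2
  · exact absurd (fun z hz => h2 z (Finset.mem_erase.2 ⟨hz, Finset.mem_univ z⟩)) h1
  · simp

theorem atSite_add (x : V) (A B : Matrix (ι x) (ι x) R) :
    atSite x (A + B) = atSite x A + atSite x B := by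
  ext η η'; simp only [atSite_apply, Matrix.add_apply]; split_ifs <;> simp

theorem atSite_sub (x : V) (A B : Matrix (ι x) (ι x) R) :
    atSite x (A - B) = atSite x A - atSite x B := by
  ext η η'; simp only [atSite_apply, Matrix.sub_apply]; split_ifs <;> simp

theorem atSite_smul (x : V) (c : R) (A : Matrix (ι x) (ι x) R) :
    atSite x (c • A) = c • atSite x A := by
  ext η η'; simp only [atSite_apply, Matrix.smul_apply, smul_eq_mul]; split_ifs <;> simp

theorem atSite_zero (x : V) : atSite x (0 : Matrix (ι x) (ι x) R) = 0 := by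
  ext η η'; simp only [atSite_apply, Matrix.zero_apply]; split_ifs <;> simp

theorem atSite_sum {α : Type*} (x : V) (s : Finset α) (A : α → Matrix (ι x) (ι x) R) :
    atSite x (∑ i ∈ s, A i) = ∑ i ∈ s, atSite x (A i) := by
  classical
  induction s using Finset.induction_on with
  | empty => simp [atSite_zero]
  | insert a s ha ih => rw [Finset.sum_insert ha, Finset.sum_insert ha, atSite_add, ih]

theorem atSite_one (x : V) : atSite x (1 : Matrix (ι x) (ι x) R) = 1 := by
  rw [atSite_eq_prodMat, Function.update_eq_self, prodMat_one]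

theorem atSite_transpose (x : V) (A : Matrix (ι x) (ι x) R) :
    (atSite x A)ᵀ = atSite x Aᵀ := by
  ext η η'
  simp only [Matrix.transpose_apply, atSite_apply]
  simp only [eq_comm]

theorem atSite_diagonal (x : V) (d : ι x → R) :
    atSite x (diagonal d) = diagonal fun η => d (η x) := by
  ext η η'
  rw [atSite_apply]
  by_cases h : η = η'
  · subst h; simp
  · rw [diagonal_apply_ne _ h]
    split_ifs with h1
    · exact diagonal_apply_ne _ fun hx =>
        h (funext fun z => if hz : z = x then hz ▸ hx else h1 z hz)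
    · rfl

variable [∀ x, Fintype (ι x)]

theorem atSite_mul_same (x : V) (A B : Matrix (ι x) (ι x) R) :
    atSite x A * atSite x B = atSite x (A * B) := by
  simp only [atSite_eq_prodMat, prodMat_mul]
  congr 1; funext z
  by_cases hz : z = x
  · subst hz; simp
  · simp [Function.update_of_ne hz]

theorem atSite_comm {x y : V} (h : x ≠ y) (A : Matrix (ι x) (ι x) R) (B : Matrix (ι y) (ι y) R) :
    atSite x A * atSite y B = atSite y B * atSite x A := by
  simp only [atSite_eq_prodMat, prodMat_mul]
  congr 1; funext z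
  by_cases hz : z = x
  · subst hz; simp [Function.update_of_ne h]
  · simp [Function.update_of_ne hz]

theorem atSite_mul_apply {x y : V} (h : x ≠ y) (A : Matrix (ι x) (ι x) R)
    (B : Matrix (ι y) (ι y) R) (η η' : ∀ x, ι x) :
    (atSite x A * atSite y B) η η'
      = if ∀ z, z ≠ x → z ≠ y → η z = η' z then A (η x) (η' x) * B (η y) (η' y) else 0 := by
  simp only [atSite_eq_prodMat, prodMat_mul, prodMat_apply]
  rw [← Finset.mul_prod_erase _ _ (Finset.mem_univ x),
    ← Finset.mul_prod_erase (univ.erase x) _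
      (Finset.mem_erase.2 ⟨Ne.symm h, Finset.mem_univ y⟩)]
  have e : ∀ z ∈ (univ.erase x).erase y,
      ((Function.update (fun z => (1 : Matrix (ι z) (ι z) R)) x A) z *
        (Function.update (fun z => (1 : Matrix (ι z) (ι z) R)) y B) z) (η z) (η' z)
        = if η z = η' z then 1 else 0 := by
    intro z hz
    simp only [Finset.mem_erase] at hz
    simp [Function.update_of_ne hz.1, Function.update_of_ne hz.2.1, Matrix.one_apply]
  rw [Finset.prod_congr rfl e, Finset.prod_boole, update_self, update_of_ne h,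
    update_of_ne (Ne.symm h), update_self, Matrix.mul_one, Matrix.one_mul]
  simp only [Finset.mem_erase, Finset.mem_univ, and_true]
  by_cases h1 : ∀ z, z ≠ x → z ≠ y → η z = η' z
  · rw [if_pos fun z hz => h1 z hz.2 hz.1, if_pos h1, mul_one]
  · rw [if_neg fun hh => h1 fun z hx hy => hh z ⟨hy, hx⟩, if_neg h1, mul_zero, mul_zero]

theorem atSite_mulVec (x : V) (A : Matrix (ι x) (ι x) R) (f : (∀ x, ι x) → R) (η : ∀ x, ι x) :
    (atSite x A *ᵥ f) η = ∑ a, A (η x) a * f (Function.update η x a) := by
  rw [Matrix.mulVec, dotProduct]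
  symm
  refine Finset.sum_bij_ne_zero (fun a _ _ => Function.update η x a) (fun _ _ _ => mem_univ _) ?_ ?_ ?_
  · intro a _ _ b _ _ hab
    have := congrFun hab x
    simpa using this
  · intro η' _ hne
    rw [atSite_apply] at hne
    split_ifs at hne with h1
    · have e : Function.update η x (η' x) = η' := funext fun z => by
        by_cases hz : z = x
        · subst hz; simp
        · rw [update_of_ne hz]; exact h1 z hz
      exact ⟨η' x, mem_univ _, by rw [e]; exact hne, e⟩
    · exact absurd (zero_mul _) hne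
  · intro a _ _
    rw [atSite_apply, if_pos fun z hz => (update_of_ne hz a η).symm, update_self]

/-- Conjugating a sum of one-site matrices by a tensor product. -/
theorem prodMat_conj {κ : V → Type*} [∀ x, Fintype (κ x)] [∀ x, DecidableEq (κ x)]
    (U : ∀ x, Matrix (ι x) (κ x) R) (hU : ∀ x, (U x)ᵀ * U x = 1) (x : V)
    (A : Matrix (ι x) (ι x) R) :
    (prodMat U)ᵀ * atSite x A * prodMat U = atSite x ((U x)ᵀ * A * U x) := by
  rw [atSite_eq_prodMat, prodMat_transpose, prodMat_mul, prodMat_mul, atSite_eq_prodMat]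
  congr 1; funext z
  by_cases hz : z = x
  · subst hz; simp
  · simp [Function.update_of_ne hz, hU z]

theorem prodMat_orth {κ : V → Type*} [∀ x, Fintype (κ x)] [∀ x, DecidableEq (κ x)]
    (U : ∀ x, Matrix (ι x) (κ x) R) (hU : ∀ x, (U x)ᵀ * U x = 1) :
    (prodMat U)ᵀ * prodMat U = 1 := by
  rw [prodMat_transpose, prodMat_mul]
  simp only [hU]
  exact prodMat_one

theorem sum_atSite_diagonal (d : ∀ x, ι x → R) :
    (∑ x, atSite x (diagonal (d x))) = diagonal fun η => ∑ x, d x (η x) := by
  ext η η'
  simp only [atSite_diagonal, Matrix.sum_apply]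
  by_cases h : η = η'
  · subst h; simp
  · simp [diagonal_apply_ne _ h]

theorem prodMat_conj_sum_diagonal {κ : V → Type*} [∀ x, Fintype (κ x)] [∀ x, DecidableEq (κ x)]
    (U : ∀ x, Matrix (ι x) (κ x) R) (hU : ∀ x, (U x)ᵀ * U x = 1) (A : ∀ x, Matrix (ι x) (ι x) R)
    (d : ∀ x, κ x → R) (hA : ∀ x, (U x)ᵀ * A x * U x = diagonal (d x)) :
    (prodMat U)ᵀ * (∑ x, atSite x (A x)) * prodMat U = diagonal fun η => ∑ x, d x (η x) := by
  rw [Matrix.mul_sum, Matrix.sum_mul]
  simp only [prodMat_conj U hU, hA]
  exact sum_atSite_diagonal d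

end Vale.Agent.P361
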