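import Vale.Agent.P361.Spin

/-!
Magnon number sectors.
-/

namespace Vale.Agent.P361

open Matrix Finset Function
open scoped BigOperators

theorem sum_eq_subtype {ι : Type*} [Fintype ι] (p : ι → Prop) [DecidablePred p] (F : ι → ℝ)
    (h : ∀ i, ¬ p i → F i = 0) : ∑ i, F i = ∑ i : {i // p i}, F i := by
  rw [← Finset.sum_filter_of_ne (p := p) (fun i _ hi => by_contra fun hc => hi (h i hc))]
  exact Finset.sum_subtype _ (fun i => by simp) F

/-- A symmetric matrix respecting a grading has an eigenbasis respecting it. -/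
theorem exists_eig_graded {ι : Type*} [Fintype ι] [DecidableEq ι] {A : Matrix ι ι ℝ}
    (hA : A.IsSymm) (t : ι → ℕ) (hb : ∀ x y, t x ≠ t y → A x y = 0) :
    ∃ U d, Eig A U d ∧ ∀ x i, t x ≠ t i → U x i = 0 := by
  have hsub : ∀ k, (A.submatrix (Subtype.val : {x // t x = k} → ι) Subtype.val).IsSymm :=
    fun k => by rw [Matrix.IsSymm, transpose_submatrix, hA.eq]
  choose U0 d0 h0 using fun k => exists_eig (hsub k)
  set U : Matrix ι ι ℝ := Matrix.of fun x i =>
    if h : t x = t i then U0 (t i) ⟨x, h⟩ ⟨i, rfl⟩ else 0 with hU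
  set d : ι → ℝ := fun i => d0 (t i) ⟨i, rfl⟩ with hd
  have Uap : ∀ (k : ℕ) (x i : ι) (hx : t x = k) (hi : t i = k),
      U x i = U0 k ⟨x, hx⟩ ⟨i, hi⟩ := by
    intro k x i hx hi; subst hi
    simp only [hU, Matrix.of_apply, dif_pos hx]
  have dap : ∀ (k : ℕ) (i : ι) (hi : t i = k), d i = d0 k ⟨i, hi⟩ := by
    intro k i hi; subst hi; rfl
  have Uz : ∀ x i, t x ≠ t i → U x i = 0 := fun x i h => by
    simp only [hU, Matrix.of_apply, dif_neg h]
  refine ⟨U, d, ⟨?_, ?_⟩, Uz⟩
  · ext i j
    rw [Matrix.mul_apply]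
    simp only [Matrix.transpose_apply]
    by_cases hij : t i = t j
    · rw [sum_eq_subtype (fun x => t x = t i) _ (fun x hx => by rw [Uz x i hx, zero_mul])]
      have key := congrFun (congrFun (h0 (t i)).1 ⟨i, rfl⟩) ⟨j, hij.symm⟩
      rw [Matrix.mul_apply] at key
      simp only [Matrix.transpose_apply] at key
      rw [Finset.sum_congr rfl fun (x : {x // t x = t i}) _ => by
        rw [Uap (t i) x.1 i x.2 rfl, Uap (t i) x.1 j x.2 hij.symm], key]
      simp [Matrix.one_apply, Subtype.ext_iff]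
    · rw [Matrix.one_apply_ne fun e => hij (congrArg t e)]
      refine Finset.sum_eq_zero fun x _ => ?_
      by_cases hx : t x = t i
      · rw [Uz x j fun e => hij (hx.symm.trans e), mul_zero]
      · rw [Uz x i hx, zero_mul]
  · ext x y
    rw [Matrix.mul_apply]
    simp only [Matrix.mul_diagonal, Matrix.transpose_apply]
    by_cases hxy : t x = t y
    · rw [sum_eq_subtype (fun i => t i = t x) _ (fun i hi => by
        rw [Uz x i (Ne.symm hi), zero_mul, zero_mul])]
      have key := congrFun (congrFun (h0 (t x)).2 ⟨x, rfl⟩) ⟨y, hxy.symm⟩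
      rw [Matrix.mul_apply] at key
      simp only [Matrix.mul_diagonal, Matrix.transpose_apply, Matrix.submatrix_apply] at key
      rw [key]
      refine Finset.sum_congr rfl fun i _ => ?_
      rw [Uap (t x) x i.1 rfl i.2, Uap (t x) y i.1 hxy.symm i.2, dap (t x) i.1 i.2]
    · rw [hb x y hxy]
      symm
      refine Finset.sum_eq_zero fun i _ => ?_
      by_cases hi : t x = t i
      · rw [Uz y i fun e => hxy (hi.trans e.symm), mul_zero]
      · rw [Uz x i hi, zero_mul, zero_mul]

variable {n : ℕ} {V : Type*} [Fintype V]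

/-- Number of magnons. -/
def tot (η : Cfg n V) : ℕ := ∑ x, (η x).val

theorem tot_le (η : Cfg n V) : tot η ≤ n * Fintype.card V := by
  calc tot η ≤ ∑ _x : V, n := Finset.sum_le_sum fun x _ => Nat.lt_succ_iff.1 (η x).isLt
    _ = n * Fintype.card V := by simp [mul_comm]

theorem tot_eq_of_agree [DecidableEq V] {x y : V} (h : x ≠ y) {η η' : Cfg n V}
    (ha : ∀ z, z ≠ x → z ≠ y → η z = η' z)
    (hs : (η x).val + (η y).val = (η' x).val + (η' y).val) : tot η = tot η' := by
  have hsplit : ∀ ζ : Cfg n V, tot ζ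
      = (ζ x).val + (ζ y).val + ∑ z ∈ (univ.erase x).erase y, (ζ z).val := by
    intro ζ
    rw [tot, ← Finset.add_sum_erase _ _ (Finset.mem_univ x),
      ← Finset.add_sum_erase _ _ (Finset.mem_erase.2 ⟨Ne.symm h, Finset.mem_univ y⟩), add_assoc]
  rw [hsplit η, hsplit η', hs]
  congr 1
  refine Finset.sum_congr rfl fun z hz => ?_
  simp only [Finset.mem_erase] at hz
  rw [ha z hz.2.1 hz.1]

theorem tot_mv [DecidableEq V] {x y : V} (h : x ≠ y) {η : Cfg n V} (hc : Can x y η) :
    tot (mv x y η) = tot η := by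
  obtain ⟨h1, h2⟩ := hc
  refine tot_eq_of_agree h (fun z hx hy => mv_apply_other hx hy η) ?_
  rw [mv_apply_src h, mv_apply_dst]
  simp only [dec, inc]
  omega

theorem bond_block [DecidableEq V] {x y : V} (h : x ≠ y) {η η' : Cfg n V}
    (ht : tot η ≠ tot η') : bond n x y η η' = 0 := by
  have hne : η ≠ η' := fun e => ht (congrArg tot e)
  have hd : ∀ (A B : Matrix (Fin (n + 1)) (Fin (n + 1)) ℝ),
      (∀ a a' b b', A a a' ≠ 0 → B b b' ≠ 0 → a.val + b.val = a'.val + b'.val) →
      (atSite x A * atSite y B : Matrix (Cfg n V) (Cfg n V) ℝ) η η' = 0 := by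
    intro A B hAB
    rw [atSite_mul_apply h]
    split_ifs with hag
    · by_contra hc
      obtain ⟨hA, hB⟩ := mul_ne_zero_iff.1 hc
      exact ht (tot_eq_of_agree h hag (hAB _ _ _ _ hA hB))
    · rfl
  have hup : ∀ a a' : Fin (n + 1), upR n a a' ≠ 0 → a.val + 1 = a'.val := by
    intro a a' hne
    by_contra hc
    exact hne (by simp [upR, hc])
  have hsz : ∀ a a' : Fin (n + 1), szR n a a' ≠ 0 → a = a' := by
    intro a a' hne
    by_contra hc
    exact hne (Matrix.diagonal_apply_ne _ hc)
  rw [bond, Matrix.sub_apply, Matrix.add_apply, Matrix.smul_apply, Matrix.smul_apply,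
    Matrix.one_apply_ne hne, Matrix.add_apply,
    hd _ _ (fun a a' b b' ha hb => by rw [hsz _ _ ha, hsz _ _ hb]),
    hd _ _ (fun a a' b b' ha hb => by
      have := hup _ _ ha; have := hup _ _ hb; omega),
    hd _ _ (fun a a' b b' ha hb => by
      have := hup _ _ ha; have := hup _ _ hb; omega)]
  simp

variable [DecidableEq V] (adj : V → V → Prop) [DecidableRel adj]

theorem kin_block (hirr : ∀ x, ¬ adj x x) {η η' : Cfg n V} (ht : tot η ≠ tot η') :
    kin adj n η η' = 0 := by
  simp only [kin, Matrix.smul_apply, Matrix.sum_apply]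
  rw [Finset.sum_eq_zero fun x _ => Finset.sum_eq_zero fun y _ => ?_, smul_zero]
  split_ifs with h
  · exact bond_block (fun e : x = y => hirr x (e.symm ▸ h)) ht
  · rfl

theorem ham_block (hirr : ∀ x, ¬ adj x x) (β : ℝ) (pot : V → ℝ) {η η' : Cfg n V}
    (ht : tot η ≠ tot η') : ham adj n β pot η η' = 0 := by
  rw [ham, Matrix.add_apply, Matrix.smul_apply, kin_block adj hirr ht, potMat,
    Matrix.diagonal_apply_ne _ fun e => ht (congrArg tot e)]
  simp

/-- For a constant potential the sectors decouple. -/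
theorem exists_kin_eig (hirr : ∀ x, ¬ adj x x) :
    ∃ (U : Matrix (Cfg n V) (Cfg n V) ℝ) (d : Cfg n V → ℝ), Eig (kin adj n) U d ∧
      (∀ η i, tot η ≠ tot i → U η i = 0) ∧ (∀ i, 0 ≤ d i) ∧
      ∀ β c : ℝ, part adj n β (fun _ => c)
        = ∑ i, Real.exp (-(β * d i)) * Real.exp (-c) ^ tot i := by
  obtain ⟨U, d, hE, hU⟩ := exists_eig_graded (kin_symm adj hirr) tot
    (fun _ _ h => kin_block adj hirr h)
  refine ⟨U, d, hE, hU, fun i => ?_, fun β c => ?_⟩
  · rw [← hE.quad_col i]; exact quad_kin_nonneg adj hirr _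
  · have hEig : Eig (ham adj n β fun _ => c) U (fun i => β * d i + c * (tot i : ℝ)) := by
      refine ⟨hE.1, ?_⟩
      have hp : potMat n (fun _ : V => c) * U = U * diagonal fun i => c * (tot i : ℝ) := by
        ext η i
        rw [potMat, Matrix.diagonal_mul, Matrix.mul_diagonal, ← Finset.mul_sum]
        by_cases hh : tot η = tot i
        · simp only [tot] at hh ⊢
          rw [← Nat.cast_sum, hh]; ring
        · rw [hU η i hh]; ring
      have hp' : potMat n (fun _ : V => c) = U * (diagonal fun i => c * (tot i : ℝ)) * Uᵀ := by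
        rw [← hp, Matrix.mul_assoc, hE.mul_transpose, Matrix.mul_one]
      have hd : (diagonal fun i => β * d i + c * (tot i : ℝ))
          = β • diagonal d + diagonal fun i => c * (tot i : ℝ) := by
        rw [← diagonal_smul, diagonal_add]
        congr 1
      rw [hd, Matrix.mul_add, Matrix.add_mul, ← hp', Matrix.mul_smul, Matrix.smul_mul, ← hE.2,
        ham]
    rw [part, hEig.zf]
    refine Finset.sum_congr rfl fun i _ => ?_
    rw [← Real.exp_nat_mul, ← Real.exp_add]
    congr 1; ring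

end Vale.Agent.P361
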