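import Vale.Agent.P361.Trace
import Vale.Agent.P361.Prod

/-!
The Heisenberg ferromagnet on a finite graph, written in occupation numbers of magnons.
-/

namespace Vale.Agent.P361

open Matrix Finset Function
open scoped BigOperators

/-- Magnon configurations. -/
abbrev Cfg (n : ℕ) (V : Type*) : Type _ := V → Fin (n + 1)

/-- Real raising matrix of spin `n/2`. -/
noncomputable def upR (n : ℕ) : Matrix (Fin (n + 1)) (Fin (n + 1)) ℝ :=
  Matrix.of fun i j =>
    if i.val + 1 = j.val then Real.sqrt ((j.val : ℝ) * ((n : ℝ) + 1 - (j.val : ℝ))) else 0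

/-- Real `S^3` matrix of spin `n/2`. -/
noncomputable def szR (n : ℕ) : Matrix (Fin (n + 1)) (Fin (n + 1)) ℝ :=
  Matrix.diagonal fun i => (n : ℝ) / 2 - (i.val : ℝ)

section

variable {n : ℕ} {V : Type*} [Fintype V] [DecidableEq V]

/-- `S² - S_x · S_y`. -/
noncomputable def bond (n : ℕ) (x y : V) : Matrix (Cfg n V) (Cfg n V) ℝ :=
  (((n : ℝ) / 2) ^ 2) • 1 - (atSite x (szR n) * atSite y (szR n) +
    (1 / 2 : ℝ) • (atSite x (upR n) * atSite y (upR n)ᵀ + atSite x (upR n)ᵀ * atSite y (upR n)))

/-- A magnon can jump from `x` to `y`. -/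
def Can (x y : V) (η : Cfg n V) : Prop := 0 < (η x).val ∧ (η y).val < n

instance (x y : V) (η : Cfg n V) : Decidable (Can x y η) :=
  inferInstanceAs (Decidable (_ ∧ _))

/-- One less. -/
def dec (i : Fin (n + 1)) : Fin (n + 1) := ⟨i.val - 1, by omega⟩

/-- One more, capped. -/
def inc (i : Fin (n + 1)) : Fin (n + 1) := ⟨min (i.val + 1) n, by omega⟩

/-- The configuration after a jump from `x` to `y`. -/
def mv (x y : V) (η : Cfg n V) : Cfg n V :=
  Function.update (Function.update η x (dec (η x))) y (inc (η y))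

/-- Jump weight `η_x (n - η_y)`. -/
def rate (x y : V) (η : Cfg n V) : ℝ := ((η x).val : ℝ) * ((n : ℝ) - ((η y).val : ℝ))

/-- The weight of the reversed jump. -/
def rate' (x y : V) (η : Cfg n V) : ℝ :=
  (((η y).val : ℝ) + 1) * ((n : ℝ) - ((η x).val : ℝ) + 1)

theorem rate_nonneg (x y : V) (η : Cfg n V) : 0 ≤ rate x y η := by
  have h : ((η y).val : ℝ) ≤ n := by exact_mod_cast Nat.lt_succ_iff.1 (η y).isLt
  exact mul_nonneg (Nat.cast_nonneg _) (sub_nonneg.2 h)

theorem rate'_nonneg (x y : V) (η : Cfg n V) : 0 ≤ rate' x y η := by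
  have h : ((η x).val : ℝ) ≤ n := by exact_mod_cast Nat.lt_succ_iff.1 (η x).isLt
  have := sub_nonneg.2 h
  unfold rate'
  positivity

theorem rate_eq_zero {x y : V} {η : Cfg n V} (h : ¬ Can x y η) : rate x y η = 0 := by
  rcases not_and_or.1 h with h | h
  · simp [rate, Nat.eq_zero_of_not_pos h]
  · have : (η y).val = n := le_antisymm (Nat.lt_succ_iff.1 (η y).isLt) (not_lt.1 h)
    simp [rate, this]

theorem mv_apply_dst (x y : V) (η : Cfg n V) : mv x y η y = inc (η y) := by simp [mv]

theorem mv_apply_src {x y : V} (h : x ≠ y) (η : Cfg n V) : mv x y η x = dec (η x) := by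
  simp [mv, h]

theorem mv_apply_other {x y z : V} (hx : z ≠ x) (hy : z ≠ y) (η : Cfg n V) :
    mv x y η z = η z := by simp [mv, hx, hy]

theorem can_mv {x y : V} (h : x ≠ y) {η : Cfg n V} (hc : Can x y η) : Can y x (mv x y η) := by
  obtain ⟨h1, h2⟩ := hc
  constructor
  · rw [mv_apply_dst]; simp only [inc]; omega
  · rw [mv_apply_src h]; simp only [dec]; omega

theorem mv_mv {x y : V} (h : x ≠ y) {η : Cfg n V} (hc : Can x y η) :
    mv y x (mv x y η) = η := by
  obtain ⟨h1, h2⟩ := hc
  funext z
  by_cases hx : z = x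
  · subst hx
    rw [mv_apply_dst, mv_apply_src h]
    ext
    simp only [inc, dec]; omega
  · by_cases hy : z = y
    · subst hy
      rw [mv_apply_src hx, mv_apply_dst]
      ext
      simp only [inc, dec]; omega
    · rw [mv_apply_other hy hx, mv_apply_other hx hy]

theorem rate_mv {x y : V} (h : x ≠ y) {η : Cfg n V} (hc : Can x y η) :
    rate y x (mv x y η) = rate' x y η := by
  obtain ⟨h1, h2⟩ := hc
  simp only [rate, rate', mv_apply_dst, mv_apply_src h, inc, dec]
  rw [min_eq_left (by omega : (η y).val + 1 ≤ n), Nat.cast_sub (by omega : 1 ≤ (η x).val)]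
  push_cast; ring

/-- Reindexing a sum over possible jumps by the reversed jumps. -/
theorem sum_can_swap {x y : V} (h : x ≠ y) (F : Cfg n V → Cfg n V → ℝ) :
    (∑ η, if Can x y η then F η (mv x y η) else 0)
      = ∑ η, if Can y x η then F (mv y x η) η else 0 := by
  rw [← Finset.sum_filter, ← Finset.sum_filter]
  refine Finset.sum_bij' (fun η _ => mv x y η) (fun η _ => mv y x η) ?_ ?_ ?_ ?_ ?_
  · intro η hη; simp only [mem_filter, mem_univ, true_and] at hη ⊢; exact can_mv h hη
  · intro η hη; simp only [mem_filter, mem_univ, true_and] at hη ⊢; exact can_mv (Ne.symm h) hη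
  · intro η hη; simp only [mem_filter, mem_univ, true_and] at hη; exact mv_mv h hη
  · intro η hη; simp only [mem_filter, mem_univ, true_and] at hη; exact mv_mv (Ne.symm h) hη
  · intro η hη; simp only [mem_filter, mem_univ, true_and] at hη; rw [mv_mv h hη]

/-- The transition form of the jumps from `x` to `y`. -/
noncomputable def transForm (x y : V) (f g : Cfg n V → ℝ) : ℝ :=
  ∑ η, if Can x y η then
    (Real.sqrt (rate x y η) * f η - Real.sqrt (rate' x y η) * f (mv x y η)) *
    (Real.sqrt (rate x y η) * g η - Real.sqrt (rate' x y η) * g (mv x y η)) else 0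

theorem transForm_nonneg (x y : V) (f : Cfg n V → ℝ) : 0 ≤ transForm x y f f := by
  refine Finset.sum_nonneg fun η _ => ?_
  split_ifs
  · exact mul_self_nonneg _
  · exact le_rfl

theorem sum_upR_transpose (i : Fin (n + 1)) (φ : Fin (n + 1) → ℝ) :
    ∑ a, (upR n)ᵀ i a * φ a
      = if 0 < i.val then Real.sqrt ((i.val : ℝ) * ((n : ℝ) + 1 - i.val)) * φ (dec i) else 0 := by
  split_ifs with h
  · rw [Finset.sum_eq_single (dec i)]
    · simp only [Matrix.transpose_apply, upR, Matrix.of_apply, dec]
      rw [if_pos (by omega)]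
    · intro a _ ha
      simp only [Matrix.transpose_apply, upR, Matrix.of_apply]
      rw [if_neg ?_, zero_mul]
      intro e; apply ha; ext; simp only [dec]; omega
    · simp
  · refine Finset.sum_eq_zero fun a _ => ?_
    simp only [Matrix.transpose_apply, upR, Matrix.of_apply]
    rw [if_neg (by omega), zero_mul]

theorem sum_upR (i : Fin (n + 1)) (φ : Fin (n + 1) → ℝ) :
    ∑ a, upR n i a * φ a
      = if i.val < n then Real.sqrt (((i.val : ℝ) + 1) * ((n : ℝ) - i.val)) * φ (inc i) else 0 := by
  split_ifs with h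
  · rw [Finset.sum_eq_single (inc i)]
    · simp only [upR, Matrix.of_apply, inc]
      have hm : ((min (i.val + 1) n : ℕ) : ℝ) = (i.val : ℝ) + 1 := by
        rw [min_eq_left (by omega : i.val + 1 ≤ n)]; push_cast; rfl
      rw [if_pos (by omega), hm]
      ring_nf
    · intro a _ ha
      simp only [upR, Matrix.of_apply]
      rw [if_neg ?_, zero_mul]
      intro e; apply ha; ext; simp only [inc]; omega
    · simp
  · refine Finset.sum_eq_zero fun a _ => ?_
    simp only [upR, Matrix.of_apply]
    rw [if_neg (by omega), zero_mul]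

theorem hop_form {x y : V} (h : x ≠ y) (f g : Cfg n V → ℝ) :
    g ⬝ᵥ ((atSite x (upR n)ᵀ * atSite y (upR n)) *ᵥ f)
      = ∑ η, if Can x y η then
          Real.sqrt (rate x y η) * Real.sqrt (rate' x y η) * g η * f (mv x y η) else 0 := by
  rw [← mulVec_mulVec, dotProduct]
  refine Finset.sum_congr rfl fun η _ => ?_
  rw [atSite_mulVec, sum_upR_transpose]
  simp only [atSite_mulVec, sum_upR, update_of_ne (Ne.symm h)]
  by_cases h1 : 0 < (η x).val
  · by_cases h2 : (η y).val < n
    · rw [if_pos h1, if_pos h2, if_pos ⟨h1, h2⟩]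
      have ha : 0 ≤ ((η x).val : ℝ) := Nat.cast_nonneg _
      have hb : 0 ≤ ((η y).val : ℝ) + 1 := by positivity
      simp only [rate, rate', mv]
      rw [Real.sqrt_mul ha, Real.sqrt_mul hb, Real.sqrt_mul ha, Real.sqrt_mul hb]
      rw [show (n : ℝ) + 1 - (η x).val = (n : ℝ) - (η x).val + 1 from by ring]
      ring
    · rw [if_pos h1, if_neg h2, if_neg fun hh => h2 hh.2]; simp
  · rw [if_neg h1, if_neg fun hh => h1 hh.1]; simp

theorem bond_form {x y : V} (h : x ≠ y) (f g : Cfg n V → ℝ) :
    g ⬝ᵥ (bond n x y *ᵥ f) = 1 / 2 * transForm x y f g := by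
  have hd : g ⬝ᵥ ((atSite x (szR n) * atSite y (szR n)) *ᵥ f)
      = ∑ η, ((n : ℝ) / 2 - (η x).val) * ((n : ℝ) / 2 - (η y).val) * f η * g η := by
    simp only [szR, atSite_diagonal, diagonal_mul_diagonal, dotProduct, mulVec_diagonal]
    exact Finset.sum_congr rfl fun η _ => by ring
  have h2 : g ⬝ᵥ ((atSite x (upR n) * atSite y (upR n)ᵀ) *ᵥ f)
      = ∑ η, if Can x y η then
          Real.sqrt (rate x y η) * Real.sqrt (rate' x y η) * f η * g (mv x y η) else 0 := by
    rw [← hop_form h g f, dotProduct_mulVec, dotProduct_comm, ← mulVec_transpose,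
      Matrix.transpose_mul, atSite_transpose, atSite_transpose, Matrix.transpose_transpose,
      atSite_comm (Ne.symm h)]
  have hsq : transForm x y f g =
      (∑ η, (rate x y η + rate y x η) * f η * g η)
      - (∑ η, if Can x y η then
          Real.sqrt (rate x y η) * Real.sqrt (rate' x y η) * g η * f (mv x y η) else 0)
      - (∑ η, if Can x y η then
          Real.sqrt (rate x y η) * Real.sqrt (rate' x y η) * f η * g (mv x y η) else 0) := by
    have e1 : ∑ η, rate y x η * f η * g η
        = ∑ η, if Can x y η then rate' x y η * f (mv x y η) * g (mv x y η) else 0 := by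
      have hs := sum_can_swap (n := n) (Ne.symm h) (fun a _ => rate y x a * f a * g a)
      calc ∑ η, rate y x η * f η * g η
          = ∑ η, if Can y x η then rate y x η * f η * g η else 0 :=
            Finset.sum_congr rfl fun η _ => by
              split_ifs with hc
              · rfl
              · simp [rate_eq_zero hc]
        _ = _ := hs
        _ = _ := Finset.sum_congr rfl fun η _ => by
              split_ifs with hc
              · rw [rate_mv h hc]
              · rfl
    have e2 : ∑ η, (rate x y η + rate y x η) * f η * g η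
        = ∑ η, (rate x y η * f η * g η +
            if Can x y η then rate' x y η * f (mv x y η) * g (mv x y η) else 0) := by
      rw [Finset.sum_add_distrib, ← e1, ← Finset.sum_add_distrib]
      exact Finset.sum_congr rfl fun η _ => by ring
    rw [e2, transForm, ← Finset.sum_sub_distrib, ← Finset.sum_sub_distrib]
    refine Finset.sum_congr rfl fun η _ => ?_
    split_ifs with hc
    · have s1 := Real.mul_self_sqrt (rate_nonneg x y η)
      have s2 := Real.mul_self_sqrt (rate'_nonneg x y η)
      linear_combination (f η * g η) * s1 + (f (mv x y η) * g (mv x y η)) * s2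
    · simp [rate_eq_zero hc]
  rw [bond, sub_mulVec, add_mulVec, smul_mulVec, smul_mulVec, one_mulVec, add_mulVec,
    dotProduct_sub, dotProduct_add, dotProduct_smul, dotProduct_smul, dotProduct_add, hd, h2,
    hop_form h, hsq]
  have e3 : ((n : ℝ) / 2) ^ 2 * g ⬝ᵥ f -
      ∑ η, ((n : ℝ) / 2 - (η x).val) * ((n : ℝ) / 2 - (η y).val) * f η * g η
      = 1 / 2 * ∑ η, (rate x y η + rate y x η) * f η * g η := by
    rw [dotProduct, Finset.mul_sum, ← Finset.sum_sub_distrib, Finset.mul_sum]
    exact Finset.sum_congr rfl fun η _ => by simp only [rate]; ring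
  simp only [smul_eq_mul]
  linarith

theorem bond_comm (x y : V) : bond n x y = bond n y x := by
  rcases eq_or_ne x y with rfl | h
  · rfl
  · simp only [bond]
    rw [atSite_comm h, atSite_comm h, atSite_comm h]
    simp only [smul_add]; abel

theorem bond_symm {x y : V} (h : x ≠ y) : (bond n x y).IsSymm := by
  have hs : (szR n)ᵀ = szR n := Matrix.diagonal_transpose _
  rw [Matrix.IsSymm, bond, transpose_sub, transpose_smul, transpose_one, transpose_add,
    transpose_smul, transpose_add, transpose_mul, transpose_mul, transpose_mul,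
    atSite_transpose, atSite_transpose, atSite_transpose, atSite_transpose, atSite_transpose,
    atSite_transpose, hs, Matrix.transpose_transpose, atSite_comm (Ne.symm h),
    atSite_comm (Ne.symm h), atSite_comm (Ne.symm h)]
  simp only [smul_add]; abel

theorem transForm_comm {x y : V} (h : x ≠ y) (f g : Cfg n V → ℝ) :
    transForm x y f g = transForm y x f g := by
  have h1 := bond_form (n := n) h f g
  rw [bond_comm, bond_form (Ne.symm h)] at h1
  linarith

theorem quad_bond {x y : V} (h : x ≠ y) (f : Cfg n V → ℝ) :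
    quad (bond n x y) f = 1 / 2 * transForm x y f f := bond_form h f f

variable (adj : V → V → Prop) [DecidableRel adj]

/-- `∑ (S² - S_x · S_y)` over the edges of the graph. -/
noncomputable def kin (n : ℕ) : Matrix (Cfg n V) (Cfg n V) ℝ :=
  (1 / 2 : ℝ) • ∑ x, ∑ y, if adj x y then bond n x y else 0

/-- Diagonal potential energy of the magnons. -/
def potMat (n : ℕ) (pot : V → ℝ) : Matrix (Cfg n V) (Cfg n V) ℝ :=
  Matrix.diagonal fun η => ∑ x, pot x * ((η x).val : ℝ)

/-- `β ∑ (S² - S_x · S_y) + ∑ pot_x η_x`. -/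
noncomputable def ham (n : ℕ) (β : ℝ) (pot : V → ℝ) : Matrix (Cfg n V) (Cfg n V) ℝ :=
  β • kin adj n + potMat n pot

/-- The partition function of `ham`. -/
noncomputable def part (n : ℕ) (β : ℝ) (pot : V → ℝ) : ℝ := Zf (ham adj n β pot)

theorem kin_form (hirr : ∀ x, ¬ adj x x) (f g : Cfg n V → ℝ) :
    g ⬝ᵥ (kin adj n *ᵥ f)
      = 1 / 4 * ∑ x, ∑ y, if adj x y then transForm x y f g else 0 := by
  rw [kin, smul_mulVec, dotProduct_smul, smul_eq_mul, Matrix.sum_mulVec, dotProduct_sum,
    Finset.mul_sum, Finset.mul_sum]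
  refine Finset.sum_congr rfl fun x _ => ?_
  rw [Matrix.sum_mulVec, dotProduct_sum, Finset.mul_sum, Finset.mul_sum]
  refine Finset.sum_congr rfl fun y _ => ?_
  split_ifs with h
  · rw [bond_form fun e : x = y => hirr x (e.symm ▸ h)]; ring
  · simp

theorem quad_kin (hirr : ∀ x, ¬ adj x x) (f : Cfg n V → ℝ) :
    quad (kin adj n) f = 1 / 4 * ∑ x, ∑ y, if adj x y then transForm x y f f else 0 :=
  kin_form adj hirr f f

theorem quad_kin_nonneg (hirr : ∀ x, ¬ adj x x) (f : Cfg n V → ℝ) :
    0 ≤ quad (kin adj n) f := by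
  rw [quad_kin adj hirr]
  refine mul_nonneg (by norm_num) (Finset.sum_nonneg fun x _ => Finset.sum_nonneg fun y _ => ?_)
  split_ifs
  · exact transForm_nonneg x y f
  · exact le_rfl

theorem kin_symm (hirr : ∀ x, ¬ adj x x) : (kin adj n).IsSymm := by
  rw [Matrix.IsSymm, kin, transpose_smul, transpose_sum]
  congr 1
  refine Finset.sum_congr rfl fun x _ => ?_
  rw [transpose_sum]
  refine Finset.sum_congr rfl fun y _ => ?_
  split_ifs with h
  · exact bond_symm fun e : x = y => hirr x (e.symm ▸ h)
  · simp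

theorem ham_symm (hirr : ∀ x, ¬ adj x x) (β : ℝ) (pot : V → ℝ) : (ham adj n β pot).IsSymm := by
  rw [Matrix.IsSymm, ham, transpose_add, transpose_smul, (kin_symm adj hirr).eq, potMat,
    diagonal_transpose]

theorem quad_ham (β : ℝ) (pot : V → ℝ) (f : Cfg n V → ℝ) :
    quad (ham adj n β pot) f
      = β * quad (kin adj n) f + ∑ η, (∑ x, pot x * ((η x).val : ℝ)) * f η ^ 2 := by
  rw [quad, ham, add_mulVec, dotProduct_add, smul_mulVec, dotProduct_smul, smul_eq_mul, quad,
    potMat, dotProduct]
  congr 1
  simp only [mulVec_diagonal, dotProduct]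
  exact Finset.sum_congr rfl fun η _ => by ring

end

end Vale.Agent.P361
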