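import Mathlib.Analysis.Matrix.Spectrum
import Mathlib.Analysis.Normed.Algebra.MatrixExponential
import Mathlib.Analysis.Convex.SpecificFunctions.Basic
import Mathlib.Analysis.Convex.Jensen
import Mathlib.Analysis.SpecialFunctions.Exponential
import Mathlib.Analysis.MeanInequalities

/-!
Finite dimensional trace inequalities (Peierls, monotonicity, convexity) for real symmetric
matrices.
-/

namespace Vale.Agent.P361

open Matrix Finset
open scoped BigOperators

variable {ι κ : Type*} [Fintype ι] [DecidableEq ι]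

/-- Trace of `exp (-A)`. -/
noncomputable def Zf (A : Matrix ι ι ℝ) : ℝ := (NormedSpace.exp (-A)).trace

/-- `U` and `d` diagonalise `A`. -/
def Eig (A U : Matrix ι ι ℝ) (d : ι → ℝ) : Prop :=
  Uᵀ * U = 1 ∧ A = U * diagonal d * Uᵀ

/-- Quadratic form. -/
def quad (A : Matrix ι ι ℝ) (v : ι → ℝ) : ℝ := v ⬝ᵥ (A *ᵥ v)

theorem exists_eig {A : Matrix ι ι ℝ} (hA : A.IsSymm) : ∃ U d, Eig A U d := by
  have hH : A.IsHermitian := by
    rw [Matrix.IsHermitian, conjTranspose_eq_transpose_of_trivial]; exact hA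
  refine ⟨(hH.eigenvectorUnitary : Matrix ι ι ℝ), hH.eigenvalues, ?_, ?_⟩
  · have h := Matrix.UnitaryGroup.star_mul_self hH.eigenvectorUnitary
    simpa [Matrix.star_eq_conjTranspose, conjTranspose_eq_transpose_of_trivial] using h
  · have h := hH.spectral_theorem
    simpa [Matrix.star_eq_conjTranspose, conjTranspose_eq_transpose_of_trivial,
      Function.comp_def] using h

theorem Eig.mul_transpose {A U : Matrix ι ι ℝ} {d : ι → ℝ} (h : Eig A U d) : U * Uᵀ = 1 :=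
  mul_eq_one_comm.1 h.1

theorem Eig.inv_eq {A U : Matrix ι ι ℝ} {d : ι → ℝ} (h : Eig A U d) : U⁻¹ = Uᵀ :=
  Matrix.inv_eq_right_inv h.mul_transpose

theorem Eig.isUnit {A U : Matrix ι ι ℝ} {d : ι → ℝ} (h : Eig A U d) : IsUnit U :=
  IsUnit.of_mul_eq_one _ h.mul_transpose

theorem Eig.zf {A U : Matrix ι ι ℝ} {d : ι → ℝ} (h : Eig A U d) :
    Zf A = ∑ i, Real.exp (-(d i)) := by
  have h1 : -A = U * diagonal (fun i => -(d i)) * U⁻¹ := by
    rw [h.inv_eq, h.2, ← diagonal_neg, Matrix.mul_neg, Matrix.neg_mul]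
  rw [Zf, h1, Matrix.exp_conj U _ h.isUnit, Matrix.exp_diagonal, Matrix.trace_mul_comm,
    ← Matrix.mul_assoc, h.inv_eq, h.1, Matrix.one_mul, trace_diagonal]
  refine Finset.sum_congr rfl fun i _ => ?_
  simp [Pi.coe_exp, Real.exp_eq_exp_ℝ]

theorem Eig.sq_sum {A U : Matrix ι ι ℝ} {d : ι → ℝ} (h : Eig A U d) (v : ι → ℝ) :
    ∑ l, (v ᵥ* U) l ^ 2 = v ⬝ᵥ v := by
  have : (v ᵥ* U) ⬝ᵥ (Uᵀ *ᵥ v) = v ⬝ᵥ v := by
    rw [← dotProduct_mulVec, mulVec_mulVec, h.mul_transpose, one_mulVec]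
  rw [← this, mulVec_transpose]
  simp [dotProduct, pow_two]

theorem Eig.quad_eq {A U : Matrix ι ι ℝ} {d : ι → ℝ} (h : Eig A U d) (v : ι → ℝ) :
    quad A v = ∑ l, d l * (v ᵥ* U) l ^ 2 := by
  rw [quad, h.2, ← mulVec_mulVec, ← mulVec_mulVec, dotProduct_mulVec, mulVec_transpose]
  simp only [dotProduct, mulVec_diagonal]
  exact Finset.sum_congr rfl fun l _ => by ring

theorem Eig.col_dot {A U : Matrix ι ι ℝ} {d : ι → ℝ} (h : Eig A U d) (i j : ι) :
    (fun x => U x i) ⬝ᵥ (fun x => U x j) = if i = j then 1 else 0 := by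
  have := congrFun (congrFun h.1 i) j
  simpa [Matrix.mul_apply, dotProduct, Matrix.one_apply] using this

theorem Eig.mulVec_col {A U : Matrix ι ι ℝ} {d : ι → ℝ} (h : Eig A U d) (i : ι) :
    A *ᵥ (fun x => U x i) = fun x => d i * U x i := by
  have h1 : A * U = U * diagonal d := by
    rw [h.2, Matrix.mul_assoc, h.1, Matrix.mul_one]
  funext x
  have := congrFun (congrFun h1 x) i
  rw [Matrix.mul_diagonal] at this
  rw [mul_comm]
  simpa [Matrix.mul_apply, mulVec, dotProduct] using this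

theorem Eig.quad_col {A U : Matrix ι ι ℝ} {d : ι → ℝ} (h : Eig A U d) (i : ι) :
    quad A (fun x => U x i) = d i := by
  have e : (fun x => d i * U x i) = d i • (fun x => U x i) := rfl
  rw [quad, h.mulVec_col i, e, dotProduct_smul, h.col_dot i i]
  simp

/-- The convexity inequality behind every Peierls bound used here. -/
theorem sum_exp_le {ι κ : Type*} (t : Finset κ) (s : Finset ι) (N : κ → ℝ) (c : κ → ι → ℝ)
    (d : ι → ℝ) (hc : ∀ i ∈ t, ∀ l ∈ s, 0 ≤ c i l) (hN : ∀ i ∈ t, ∑ l ∈ s, c i l = N i)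
    (hcol : ∀ l ∈ s, ∑ i ∈ t, c i l ≤ 1) :
    ∑ i ∈ t, N i * Real.exp (-(∑ l ∈ s, c i l * d l) / N i) ≤ ∑ l ∈ s, Real.exp (-(d l)) := by
  have hterm : ∀ i ∈ t, N i * Real.exp (-(∑ l ∈ s, c i l * d l) / N i)
      ≤ ∑ l ∈ s, c i l * Real.exp (-(d l)) := by
    intro i hi
    have hN0 : 0 ≤ N i := hN i hi ▸ Finset.sum_nonneg (hc i hi)
    rcases hN0.eq_or_lt with h0 | hpos
    · rw [← h0, zero_mul]
      exact Finset.sum_nonneg fun l hl => mul_nonneg (hc i hi l hl) (Real.exp_nonneg _)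
    · have hj := convexOn_exp.map_sum_le (t := s) (w := fun l => c i l / N i)
        (p := fun l => -(d l)) (fun l hl => div_nonneg (hc i hi l hl) hpos.le)
        (by rw [← Finset.sum_div, hN i hi, div_self hpos.ne']) (fun l _ => Set.mem_univ _)
      simp only [smul_eq_mul] at hj
      have e1 : ∑ l ∈ s, c i l / N i * -(d l) = -(∑ l ∈ s, c i l * d l) / N i := by
        rw [neg_div, Finset.sum_div, ← Finset.sum_neg_distrib]
        exact Finset.sum_congr rfl fun l _ => by ring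
      rw [e1] at hj
      calc N i * Real.exp (-(∑ l ∈ s, c i l * d l) / N i)
          ≤ N i * ∑ l ∈ s, c i l / N i * Real.exp (-(d l)) :=
            mul_le_mul_of_nonneg_left hj hpos.le
        _ = ∑ l ∈ s, c i l * Real.exp (-(d l)) := by
            rw [Finset.mul_sum]
            exact Finset.sum_congr rfl fun l _ => by field_simp
  refine (Finset.sum_le_sum hterm).trans ?_
  rw [Finset.sum_comm]
  refine Finset.sum_le_sum fun l hl => ?_
  rw [← Finset.sum_mul]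
  exact mul_le_of_le_one_left (Real.exp_nonneg _) (hcol l hl)

/-- An orthonormal family satisfies Bessel's inequality. -/
theorem bessel [DecidableEq κ] (t : Finset κ) (v : κ → ι → ℝ)
    (ho : ∀ i ∈ t, ∀ j ∈ t, v i ⬝ᵥ v j = if i = j then 1 else 0) (ψ : ι → ℝ) :
    ∑ i ∈ t, (v i ⬝ᵥ ψ) ^ 2 ≤ ψ ⬝ᵥ ψ := by
  set r : ι → ℝ := ∑ i ∈ t, (v i ⬝ᵥ ψ) • v i with hr
  have h1 : r ⬝ᵥ ψ = ∑ i ∈ t, (v i ⬝ᵥ ψ) ^ 2 := by
    simp [hr, sum_dotProduct, pow_two]
  have h2 : r ⬝ᵥ r = ∑ i ∈ t, (v i ⬝ᵥ ψ) ^ 2 := by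
    simp only [hr, sum_dotProduct, dotProduct_sum, smul_dotProduct, dotProduct_smul, smul_eq_mul]
    refine Finset.sum_congr rfl fun i hi => ?_
    rw [Finset.sum_eq_single_of_mem i hi]
    · rw [ho i hi i hi, if_pos rfl]; ring
    · intro j hj hji
      first
        | rw [ho i hi j hj, if_neg (Ne.symm hji)]
        | rw [ho j hj i hi, if_neg hji]
      ring
  have h3 : 0 ≤ (ψ - r) ⬝ᵥ (ψ - r) :=
    Finset.sum_nonneg fun x _ => mul_self_nonneg _
  rw [sub_dotProduct, dotProduct_sub, dotProduct_sub, dotProduct_comm ψ r, h1, h2] at h3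
  linarith

/-- Peierls inequality, restricted to a set of eigen-indices supporting the family. -/
theorem Eig.peierls {A U : Matrix ι ι ℝ} {d : ι → ℝ} (h : Eig A U d) (t : Finset κ)
    (v : κ → ι → ℝ) (hv : ∀ ψ : ι → ℝ, ∑ i ∈ t, (v i ⬝ᵥ ψ) ^ 2 ≤ ψ ⬝ᵥ ψ) (s : Finset ι)
    (hs : ∀ i ∈ t, ∀ l, l ∉ s → (v i ᵥ* U) l = 0) :
    ∑ i ∈ t, (v i ⬝ᵥ v i) * Real.exp (-(quad A (v i)) / (v i ⬝ᵥ v i))
      ≤ ∑ l ∈ s, Real.exp (-(d l)) := by
  have e : ∀ i ∈ t, ∀ f : ι → ℝ, ∑ l, f l * (v i ᵥ* U) l ^ 2 = ∑ l ∈ s, (v i ᵥ* U) l ^ 2 * f l := by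
    intro i hi f
    rw [Finset.sum_congr rfl fun l _ => mul_comm (f l) _]
    refine (Finset.sum_subset (Finset.subset_univ s) fun l _ hl => ?_).symm
    rw [hs i hi l hl]; ring
  have key := sum_exp_le t s (fun i => v i ⬝ᵥ v i) (fun i l => (v i ᵥ* U) l ^ 2) d
    (fun i _ l _ => sq_nonneg _)
    (fun i hi => by
      have := e i hi (fun _ => 1)
      simp only [one_mul, mul_one] at this
      rw [← this, h.sq_sum])
    (fun l _ => by
      have := hv (fun x => U x l)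
      rw [h.col_dot l l, if_pos rfl] at this
      exact this)
  refine le_trans (le_of_eq (Finset.sum_congr rfl fun i hi => ?_)) key
  rw [h.quad_eq, e i hi d]

theorem peierls_univ {A : Matrix ι ι ℝ} (hA : A.IsSymm) (t : Finset κ) (v : κ → ι → ℝ)
    (hv : ∀ ψ : ι → ℝ, ∑ i ∈ t, (v i ⬝ᵥ ψ) ^ 2 ≤ ψ ⬝ᵥ ψ) :
    ∑ i ∈ t, (v i ⬝ᵥ v i) * Real.exp (-(quad A (v i)) / (v i ⬝ᵥ v i)) ≤ Zf A := by
  obtain ⟨U, d, h⟩ := exists_eig hA
  rw [h.zf]
  exact h.peierls t v hv Finset.univ (fun i _ l hl => absurd (Finset.mem_univ l) hl)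

theorem sum_exp_quad_le {A : Matrix ι ι ℝ} (hA : A.IsSymm) [DecidableEq κ] (t : Finset κ)
    (v : κ → ι → ℝ) (ho : ∀ i ∈ t, ∀ j ∈ t, v i ⬝ᵥ v j = if i = j then 1 else 0) :
    ∑ i ∈ t, Real.exp (-(quad A (v i))) ≤ Zf A := by
  refine le_trans (le_of_eq (Finset.sum_congr rfl fun i hi => ?_))
    (peierls_univ hA t v (bessel t v ho))
  simp [ho i hi i hi]

theorem zf_anti {A B : Matrix ι ι ℝ} (hA : A.IsSymm) (hB : B.IsSymm)
    (h : ∀ v, quad A v ≤ quad B v) : Zf B ≤ Zf A := by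
  obtain ⟨U, d, hU⟩ := exists_eig hB
  rw [hU.zf]
  refine le_trans (Finset.sum_le_sum fun i _ => ?_)
    (sum_exp_quad_le hA Finset.univ (fun i x => U x i) fun i _ j _ => hU.col_dot i j)
  rw [← hU.quad_col i]
  exact Real.exp_le_exp.2 (neg_le_neg (h _))

theorem zf_pos [Nonempty ι] {A : Matrix ι ι ℝ} (hA : A.IsSymm) : 0 < Zf A := by
  obtain ⟨U, d, hU⟩ := exists_eig hA
  rw [hU.zf]
  exact Finset.sum_pos (fun i _ => Real.exp_pos _) Finset.univ_nonempty

theorem zf_convex_comb {A B C : Matrix ι ι ℝ} (hA : A.IsSymm) (hB : B.IsSymm) (hC : C.IsSymm)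
    {a b : ℝ} (ha : 0 < a) (hb : 0 < b) (hab : a + b = 1)
    (h : ∀ v, quad C v = a * quad A v + b * quad B v) [Nonempty ι] :
    Real.log (Zf C) ≤ a * Real.log (Zf A) + b * Real.log (Zf B) := by
  obtain ⟨U, d, hU⟩ := exists_eig hC
  set u : ι → ι → ℝ := fun i x => U x i with hu
  set ea : ι → ℝ := fun i => Real.exp (-(quad A (u i))) with hea
  set eb : ι → ℝ := fun i => Real.exp (-(quad B (u i))) with heb
  have hZA : ∑ i, ea i ≤ Zf A :=
    sum_exp_quad_le hA Finset.univ u fun i _ j _ => hU.col_dot i j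
  have hZB : ∑ i, eb i ≤ Zf B :=
    sum_exp_quad_le hB Finset.univ u fun i _ j _ => hU.col_dot i j
  have pA := zf_pos hA
  have pB := zf_pos hB
  have hterm : ∀ i, Real.exp (-(d i)) ≤ Zf A ^ a * Zf B ^ b *
      (a * (ea i / Zf A) + b * (eb i / Zf B)) := by
    intro i
    have hg := Real.geom_mean_le_arith_mean2_weighted ha.le hb.le
      (div_nonneg (Real.exp_nonneg (-(quad A (u i)))) pA.le)
      (div_nonneg (Real.exp_nonneg (-(quad B (u i)))) pB.le) hab
    rw [Real.div_rpow (Real.exp_nonneg _) pA.le, Real.div_rpow (Real.exp_nonneg _) pB.le,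
      ← Real.exp_mul, ← Real.exp_mul] at hg
    have hd : Real.exp (-(d i)) = Real.exp (-(quad A (u i)) * a) * Real.exp (-(quad B (u i)) * b) := by
      rw [← Real.exp_add, ← hU.quad_col i, h]
      congr 1; ring
    have pa : 0 < Zf A ^ a := Real.rpow_pos_of_pos pA a
    have pb : 0 < Zf B ^ b := Real.rpow_pos_of_pos pB b
    rw [hd]
    calc Real.exp (-(quad A (u i)) * a) * Real.exp (-(quad B (u i)) * b)
        = Zf A ^ a * Zf B ^ b * (Real.exp (-(quad A (u i)) * a) / Zf A ^ a *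
            (Real.exp (-(quad B (u i)) * b) / Zf B ^ b)) := by field_simp
      _ ≤ _ := mul_le_mul_of_nonneg_left hg (mul_pos pa pb).le
  have hsum : Zf C ≤ Zf A ^ a * Zf B ^ b := by
    rw [hU.zf]
    refine (Finset.sum_le_sum fun i _ => hterm i).trans ?_
    rw [← Finset.mul_sum, Finset.sum_add_distrib, ← Finset.mul_sum, ← Finset.mul_sum,
      ← Finset.sum_div, ← Finset.sum_div]
    refine mul_le_of_le_one_right (mul_pos (Real.rpow_pos_of_pos pA a)
      (Real.rpow_pos_of_pos pB b)).le ?_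
    have h1 : (∑ i, ea i) / Zf A ≤ 1 := (div_le_one pA).2 hZA
    have h2 : (∑ i, eb i) / Zf B ≤ 1 := (div_le_one pB).2 hZB
    nlinarith
  calc Real.log (Zf C) ≤ Real.log (Zf A ^ a * Zf B ^ b) := Real.log_le_log (zf_pos hC) hsum
    _ = a * Real.log (Zf A) + b * Real.log (Zf B) := by
        rw [Real.log_mul (Real.rpow_pos_of_pos pA a).ne' (Real.rpow_pos_of_pos pB b).ne',
          Real.log_rpow pA, Real.log_rpow pB]

end Vale.Agent.P361
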