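import Vale.Agent.P361.Free
import Vale.Agent.P361.Trace

/-!
Free bosons: the partition function of symmetric states of `k` free magnons.
-/

namespace Vale.Agent.P361

open Matrix Finset Function
open scoped BigOperators

theorem vecMul_dot_vecMul {ι κ : Type*} [Fintype ι] [DecidableEq ι] [Fintype κ] [DecidableEq κ]
    {P : Matrix ι κ ℝ} (hP : P * Pᵀ = 1) (v w : ι → ℝ) : (v ᵥ* P) ⬝ᵥ (w ᵥ* P) = v ⬝ᵥ w := by
  rw [← mulVec_transpose P w, ← dotProduct_mulVec, mulVec_mulVec, hP, one_mulVec]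

variable {V : Type*} [Fintype V] [DecidableEq V] {k : ℕ}

theorem symm_vecMul {M : Type*} [Fintype M] (U : Matrix V M ℝ) {v : (Fin k → V) → ℝ}
    (hv : SymmFun v) : SymmFun (v ᵥ* prodMat fun _ : Fin k => U) := by
  intro σ μ
  simp only [vecMul, dotProduct]
  refine Fintype.sum_equiv (Equiv.arrowCongr σ (Equiv.refl V)) _ _ fun u => ?_
  have hu : Equiv.arrowCongr σ (Equiv.refl V) u = u ∘ σ.symm := rfl
  rw [hu, hv σ.symm u, prodMat_apply, prodMat_apply]
  congr 1
  refine Fintype.prod_equiv σ _ _ fun i => ?_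
  simp

/-- The energy of a tuple of modes depends only on occupation numbers. -/
theorem sum_eq_occ {M : Type*} [Fintype M] [DecidableEq M] (e : M → ℝ) (μ : Fin k → M)
    {a : M → ℕ} (ha : occ μ = a) : ∑ i, e (μ i) = ∑ x, (a x : ℝ) * e x := by
  rw [← ha, sum_occ_mul]

/-- An orthonormal family of symmetric states has at most the bosonic partition sum. -/
theorem sum_exp_sym_le {κ : Type*} [DecidableEq κ] (adj : V → V → Prop) [DecidableRel adj] (n : ℕ)
    {U : Matrix V V ℝ} {e : V → ℝ} (hU : Uᵀ * U = 1) (hc : Uᵀ * lapG adj n * U = diagonal e)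
    (t : Finset κ) (Φ : κ → (Fin k → V) → ℝ) (hs : ∀ i ∈ t, SymmFun (Φ i))
    (ho : ∀ i ∈ t, ∀ j ∈ t, Φ i ⬝ᵥ Φ j = if i = j then 1 else 0) (β : ℝ) :
    ∑ i ∈ t, Real.exp (-(β * quad (kfree adj n k) (Φ i)))
      ≤ ∑ a ∈ (univ : Finset (Fin k → V)).image occ, Real.exp (-(β * ∑ x, (a x : ℝ) * e x)) := by
  set P : Matrix (Fin k → V) (Fin k → V) ℝ := prodMat fun _ : Fin k => U with hPdef
  have hP1 : Pᵀ * P = 1 := prodMat_orth _ fun _ => hU
  have hP2 : P * Pᵀ = 1 := mul_eq_one_comm.1 hP1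
  have hD : Pᵀ * kfree adj n k * P = diagonal fun μ => ∑ i, e (μ i) :=
    prodMat_conj_sum_diagonal (fun _ : Fin k => U) (fun _ => hU) (fun _ => lapG adj n)
      (fun _ => e) (fun _ => hc)
  have hE : Eig (kfree adj n k) P (fun μ => ∑ i, e (μ i)) := by
    refine ⟨hP1, ?_⟩
    rw [← hD, ← Matrix.mul_assoc, ← Matrix.mul_assoc, hP2, Matrix.one_mul, Matrix.mul_assoc, hP2,
      Matrix.mul_one]
  set w : κ → (Fin k → V) → ℝ := fun i => Φ i ᵥ* P with hw
  have how : ∀ i ∈ t, ∀ j ∈ t, w i ⬝ᵥ w j = if i = j then 1 else 0 := fun i hi j hj => by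
    rw [hw, vecMul_dot_vecMul hP2]; exact ho i hi j hj
  set c : κ → (V → ℕ) → ℝ := fun i a => ∑ μ ∈ univ.filter (fun μ => occ μ = a), w i μ ^ 2 with hcdef
  have hmaps : ∀ μ ∈ (univ : Finset (Fin k → V)), occ μ ∈ (univ : Finset (Fin k → V)).image occ :=
    fun μ hμ => Finset.mem_image_of_mem _ hμ
  have h1 : ∀ i ∈ t, ∑ a ∈ (univ : Finset (Fin k → V)).image occ, c i a = 1 := fun i hi => by
    rw [hcdef, Finset.sum_fiberwise_of_maps_to hmaps]
    have := how i hi i hi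
    rw [if_pos rfl] at this
    rw [← this, dotProduct]
    exact Finset.sum_congr rfl fun μ _ => pow_two _
  have h2 : ∀ a ∈ (univ : Finset (Fin k → V)).image occ, ∑ i ∈ t, c i a ≤ 1 := by
    intro a ha
    obtain ⟨μ0, -, hμ0⟩ := Finset.mem_image.1 ha
    set C := univ.filter (fun μ : Fin k → V => occ μ = a) with hC
    have hCpos : 0 < (C.card : ℝ) := by
      exact_mod_cast Finset.card_pos.2 ⟨μ0, Finset.mem_filter.2 ⟨mem_univ _, hμ0⟩⟩
    have hconst : ∀ i ∈ t, ∀ μ ∈ C, w i μ = w i μ0 := by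
      intro i hi μ hμ
      obtain ⟨σ, rfl⟩ := exists_perm (u := μ0) (v := μ) fun x => by
        rw [hμ0, (Finset.mem_filter.1 hμ).2]
      exact symm_vecMul U (hs i hi) σ μ0
    have hb := bessel t w how (fun μ => if μ ∈ C then 1 else 0)
    have e1 : ∀ i ∈ t, c i a = (C.card : ℝ) * w i μ0 ^ 2 := fun i hi => by
      rw [hcdef]
      simp only [← hC]
      rw [Finset.sum_congr rfl fun μ hμ => by rw [hconst i hi μ hμ], Finset.sum_const, nsmul_eq_mul]
    have e2 : ∀ i ∈ t, (w i ⬝ᵥ fun μ => if μ ∈ C then (1:ℝ) else 0) ^ 2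
        = (C.card : ℝ) * c i a := fun i hi => by
      rw [e1 i hi, dotProduct]
      simp only [mul_ite, mul_one, mul_zero, ← Finset.sum_filter, Finset.filter_univ_mem]
      rw [Finset.sum_congr rfl fun μ hμ => hconst i hi μ hμ, Finset.sum_const, nsmul_eq_mul]
      ring
    have e3 : (fun μ => if μ ∈ C then (1:ℝ) else 0) ⬝ᵥ (fun μ => if μ ∈ C then (1:ℝ) else 0)
        = (C.card : ℝ) := by
      simp [dotProduct]
    rw [Finset.sum_congr rfl e2, ← Finset.mul_sum, e3] at hb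
    exact le_of_mul_le_mul_left (by rwa [mul_one]) hCpos
  have key := sum_exp_le t ((univ : Finset (Fin k → V)).image occ) (fun _ => (1:ℝ)) c
    (fun a => β * ∑ x, (a x : ℝ) * e x)
    (fun i _ a _ => Finset.sum_nonneg fun μ _ => sq_nonneg _) h1 h2
  refine le_trans (le_of_eq (Finset.sum_congr rfl fun i hi => ?_)) key
  rw [one_mul, div_one]
  congr 2
  rw [hE.quad_eq, Finset.mul_sum, ← Finset.sum_fiberwise_of_maps_to hmaps]
  refine Finset.sum_congr rfl fun a _ => ?_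
  rw [hcdef, Finset.sum_mul]
  refine Finset.sum_congr rfl fun μ hμ => ?_
  rw [sum_eq_occ e μ (Finset.mem_filter.1 hμ).2]
  simp only [hw]
  ring

end Vale.Agent.P361
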