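import Vale.Agent.P361.Sym
import Vale.Agent.P361.Cube
import Vale.Agent.P361.Prelim
import Vale.Agent.P361.Blocks

/-!
Upper bound on the partition function of one cube by free bosons.
-/

namespace Vale.Agent.P361

open Matrix Finset Function
open scoped BigOperators

/-- The error in the energy of a state below the cutoffs. -/
noncomputable def pairErr (n L N : ℕ) (E : ℝ) : ℝ :=
  1152 * (n : ℝ) ^ 2 * (N : ℝ) ^ 2 * Real.exp 2 * (L : ℝ) ^ 3 * (1 / (L : ℝ) + Real.sqrt E) ^ 6

theorem pairErr_nonneg (n L N : ℕ) (E : ℝ) : 0 ≤ pairErr n L N E := by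
  unfold pairErr; positivity

theorem gadj_count_le {L : ℕ} (hL : 0 < L) :
    ∑ x : Grid L, ∑ y : Grid L, (if gadj L x y then (1 : ℝ) else 0) ≤ 6 * (L : ℝ) ^ 3 := by
  calc ∑ x : Grid L, ∑ y : Grid L, (if gadj L x y then (1 : ℝ) else 0)
      ≤ ∑ _x : Grid L, (6 : ℝ) := by
        refine Finset.sum_le_sum fun x _ => ?_
        rw [Finset.sum_boole]
        exact_mod_cast gadj_deg_le x
    _ = 6 * (L : ℝ) ^ 3 := by simp [mul_comm]

theorem free_le_low {n L k N : ℕ} (hn : 1 ≤ n) (hL : 0 < L) (hkN : k ≤ N)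
    {ψ : Cfg n (Grid L) → ℝ} {d E : ℝ} (hψ : kin (gadj L) n *ᵥ ψ = d • ψ)
    (hk : ∀ η, tot η ≠ k → ψ η = 0) (h1 : ψ ⬝ᵥ ψ = 1) (hdE : d ≤ E) (hE : 0 < E) :
    quad (kfree (gadj L) n k) (emb n k ψ) ≤ d + pairErr n L N E := by
  have hq : quad (kin (gadj L) n) ψ = d := by
    rw [quad, hψ, dotProduct_smul, h1, smul_eq_mul, mul_one]
  refine (free_le_kin (gadj_irrefl L) gadj_symm hn hk).trans ?_
  rw [hq, add_le_add_iff_left]
  set B : ℝ := Real.exp 2 * ((N : ℝ) ^ 2 * (16 * (1 / (L : ℝ) + Real.sqrt E) ^ 3) ^ 2) / 2 with hB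
  have hB0 : 0 ≤ B := by positivity
  have hp : ∀ x y : Grid L, gadj L x y → pairP x y ψ ≤ B := by
    intro x y hxy
    refine (grid_pair_bound hn hL hψ hk hxy (s := 1 / E) (by positivity)).trans ?_
    have hs : 1 / Real.sqrt (1 / E) = Real.sqrt E := by
      rw [one_div E, Real.sqrt_inv, one_div, inv_inv]
    rw [h1, mul_one, hs, hB]
    have he : Real.exp (2 * d * (1 / E)) ≤ Real.exp 2 := by
      refine Real.exp_le_exp.2 ?_
      rw [mul_one_div, div_le_iff₀ hE]; linarith
    have hkN' : (k : ℝ) ^ 2 ≤ (N : ℝ) ^ 2 :=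
      pow_le_pow_left₀ (Nat.cast_nonneg k) (by exact_mod_cast hkN) 2
    gcongr
  have hsum : ∑ x : Grid L, ∑ y : Grid L, (if gadj L x y then pairP x y ψ else 0)
      ≤ 6 * (L : ℝ) ^ 3 * B := by
    calc _ ≤ ∑ x : Grid L, ∑ y : Grid L, (if gadj L x y then (1:ℝ) else 0) * B := by
          refine Finset.sum_le_sum fun x _ => Finset.sum_le_sum fun y _ => ?_
          split_ifs with h
          · rw [one_mul]; exact hp x y h
          · simp
      _ ≤ _ := by
          simp only [← Finset.sum_mul]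
          exact mul_le_mul_of_nonneg_right (gadj_count_le hL) hB0
  refine (mul_le_mul_of_nonneg_left hsum (by positivity)).trans (le_of_eq ?_)
  rw [hB, pairErr]; ring

theorem geom_le_inv {y : ℝ} (h0 : 0 ≤ y) (h1 : y < 1) (m : ℕ) :
    ∑ i ∈ range m, y ^ i ≤ (1 - y)⁻¹ := by
  rw [← tsum_geometric_of_lt_one h0 h1]
  exact (summable_geometric_of_lt_one h0 h1).sum_le_tsum _ fun i _ => pow_nonneg h0 i

/-- Low energy, few magnons: at most the ideal Bose gas. -/
theorem low_sum_le {n L N : ℕ} (hn : 1 ≤ n) (hL : 0 < L) {β E z : ℝ} (hβ : 0 ≤ β) (hE : 0 < E)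
    (hz0 : 0 ≤ z) (hz1 : z < 1) {U : Matrix (Cfg n (Grid L)) (Cfg n (Grid L)) ℝ}
    {d : Cfg n (Grid L) → ℝ} (hEig : Eig (kin (gadj L) n) U d)
    (hU : ∀ η i, tot η ≠ tot i → U η i = 0) :
    ∑ i ∈ univ.filter (fun i => tot i ≤ N ∧ d i ≤ E), Real.exp (-(β * d i)) * z ^ tot i
      ≤ Real.exp (β * pairErr n L N E)
        * ∏ m : Grid L, (1 - z * Real.exp (-(β * epsG n L m)))⁻¹ := by
  set δ := pairErr n L N E
  set S := univ.filter (fun i : Cfg n (Grid L) => tot i ≤ N ∧ d i ≤ E) with hS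
  set K : ℕ → Finset (Grid L → ℕ) := fun k => (univ : Finset (Fin k → Grid L)).image occ with hK
  set y : Grid L → ℝ := fun m => z * Real.exp (-(β * epsG n L m)) with hy
  have hy0 : ∀ m, 0 ≤ y m := fun m => mul_nonneg hz0 (Real.exp_nonneg _)
  have hy1 : ∀ m, y m < 1 := fun m => lt_of_le_of_lt (mul_le_of_le_one_right hz0
    (Real.exp_le_one_iff.2 (neg_nonpos.2 (mul_nonneg hβ (epsG_nonneg n L m))))) hz1
  have hsec : ∀ k ∈ range (N + 1), ∑ i ∈ S.filter (fun i => tot i = k),
      Real.exp (-(β * d i)) * z ^ tot i ≤ Real.exp (β * δ) * ∑ a ∈ K k, ∏ x, y x ^ a x := by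
    intro k hk
    have hkN : k ≤ N := Nat.lt_succ_iff.1 (Finset.mem_range.1 hk)
    set t := S.filter (fun i => tot i = k) with ht
    have hsupp : ∀ i ∈ t, ∀ η, tot η ≠ k → U η i = 0 := fun i hi η hη =>
      hU η i (by rw [(Finset.mem_filter.1 hi).2]; exact hη)
    have hsym := sum_exp_sym_le (k := k) (gadj L) n (neuG_orth L) (neuG_conj L n) t
      (fun i => emb n k (fun η => U η i)) (fun i _ => symm_emb n _)
      (fun i hi j _ => by
        rw [emb_dot, ← hEig.col_dot i j, dotProduct]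
        refine Finset.sum_congr rfl fun η _ => ?_
        split_ifs with h
        · rfl
        · rw [hsupp i hi η h, zero_mul]) β
    calc ∑ i ∈ t, Real.exp (-(β * d i)) * z ^ tot i
        ≤ ∑ i ∈ t, Real.exp (β * δ) * (z ^ k *
            Real.exp (-(β * quad (kfree (gadj L) n k) (emb n k fun η => U η i)))) := by
          refine Finset.sum_le_sum fun i hi => ?_
          have hi' := Finset.mem_filter.1 hi
          have hdE : d i ≤ E := (Finset.mem_filter.1 hi'.1).2.2
          have hfree := free_le_low hn hL hkN (ψ := fun η => U η i) (hEig.mulVec_col i)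
            (hsupp i hi) (by rw [hEig.col_dot i i, if_pos rfl]) hdE hE
          rw [hi'.2, mul_left_comm, ← Real.exp_add, mul_comm]
          refine mul_le_mul_of_nonneg_left (Real.exp_le_exp.2 ?_) (pow_nonneg hz0 k)
          nlinarith [mul_le_mul_of_nonneg_left hfree hβ]
      _ ≤ Real.exp (β * δ) * ∑ a ∈ K k, ∏ x, y x ^ a x := by
          rw [← Finset.mul_sum, ← Finset.mul_sum]
          refine mul_le_mul_of_nonneg_left ?_ (Real.exp_nonneg _)
          refine (mul_le_mul_of_nonneg_left hsym (pow_nonneg hz0 k)).trans (le_of_eq ?_)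
          rw [Finset.mul_sum]
          refine Finset.sum_congr rfl fun a ha => ?_
          obtain ⟨μ, -, rfl⟩ := Finset.mem_image.1 ha
          simp only [hy, mul_pow]
          rw [Finset.prod_mul_distrib, Finset.prod_pow_eq_pow_sum, sum_occ]
          congr 1
          rw [Finset.mul_sum, ← Finset.sum_neg_distrib, Real.exp_sum]
          refine Finset.prod_congr rfl fun x _ => ?_
          rw [← Real.exp_nat_mul]
          congr 1; ring
  have hmaps : ∀ i ∈ S, tot i ∈ range (N + 1) := fun i hi =>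
    Finset.mem_range.2 (Nat.lt_succ_of_le (Finset.mem_filter.1 hi).2.1)
  rw [← Finset.sum_fiberwise_of_maps_to hmaps]
  refine (Finset.sum_le_sum hsec).trans ?_
  rw [← Finset.mul_sum]
  refine mul_le_mul_of_nonneg_left ?_ (Real.exp_nonneg _)
  have hKtot : ∀ k, ∀ a ∈ K k, ∑ x, a x = k := fun k a ha => by
    obtain ⟨μ, -, rfl⟩ := Finset.mem_image.1 ha
    exact sum_occ μ
  rw [← Finset.sum_biUnion (s := range (N + 1)) (t := K) (fun k _ l _ hkl =>
    Finset.disjoint_left.2 fun a ha hb => hkl ((hKtot k a ha).symm.trans (hKtot l a hb)))]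
  refine le_trans (Finset.sum_le_sum_of_subset_of_nonneg
    (t := Fintype.piFinset fun _ : Grid L => range (N + 1)) (fun a ha => ?_)
    fun a _ _ => Finset.prod_nonneg fun x _ => pow_nonneg (hy0 x) _) ?_
  · obtain ⟨k, hk, hak⟩ := Finset.mem_biUnion.1 ha
    refine Fintype.mem_piFinset.2 fun x => Finset.mem_range.2 ?_
    have h1 : a x ≤ k :=
      (Finset.single_le_sum (fun z _ => Nat.zero_le (a z)) (Finset.mem_univ x)).trans_eq
        (hKtot k a hak)
    have h2 := Finset.mem_range.1 hk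
    omega
  · rw [← Finset.prod_univ_sum (fun _ : Grid L => range (N + 1)) (fun x j => y x ^ j)]
    exact Finset.prod_le_prod (fun x _ => Finset.sum_nonneg fun j _ => pow_nonneg (hy0 x) _)
      fun x _ => geom_le_inv (hy0 x) (hy1 x) _

/-- Upper bound on one cube. -/
theorem part_upper {n L : ℕ} (hn : 1 ≤ n) (hL : 0 < L) {β c E : ℝ} (hβ : 0 ≤ β) (hc : 0 < c)
    (hE : 0 < E) (N : ℕ) :
    part (gadj L) n β (fun _ => c) ≤
      Real.exp (β * pairErr n L N E)
          * ∏ m : Grid L, (1 - Real.exp (-c) * Real.exp (-(β * epsG n L m)))⁻¹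
        + Real.exp (-(c * N / 2)) * part (gadj L) n β (fun _ => c / 2)
        + Real.exp (-(β * E)) * ((L : ℝ) ^ 3) ^ N / (1 - Real.exp (-c)) := by
  obtain ⟨U, d, hEig, hU, -, hpart⟩ := exists_kin_eig (n := n) (gadj L) (gadj_irrefl L)
  rw [hpart β c, hpart β (c / 2)]
  set z := Real.exp (-c) with hz
  set w := Real.exp (-(c / 2)) with hw
  have hz0 : 0 ≤ z := Real.exp_nonneg _
  have hz1 : z < 1 := Real.exp_lt_one_iff.2 (by linarith)
  have hw0 : 0 ≤ w := Real.exp_nonneg _
  have hLp : (1 : ℝ) ≤ (L : ℝ) ^ 3 := one_le_pow₀ (by exact_mod_cast hL)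
  set f : Cfg n (Grid L) → ℝ := fun i => Real.exp (-(β * d i)) * z ^ tot i with hf
  have hf0 : ∀ i, 0 ≤ f i := fun i => mul_nonneg (Real.exp_nonneg _) (pow_nonneg hz0 _)
  set A := univ.filter (fun i : Cfg n (Grid L) => tot i ≤ N ∧ d i ≤ E)
  set B := univ.filter (fun i : Cfg n (Grid L) => tot i ≤ N ∧ ¬ d i ≤ E)
  set C := univ.filter (fun i : Cfg n (Grid L) => ¬ tot i ≤ N)
  have hsplit : ∑ i, f i = ∑ i ∈ A, f i + ∑ i ∈ C, f i + ∑ i ∈ B, f i := by
    simp only [A, B, C, Finset.sum_filter, ← Finset.sum_add_distrib]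
    refine Finset.sum_congr rfl fun i _ => ?_
    by_cases h1 : tot i ≤ N <;> by_cases h2 : d i ≤ E <;> simp [h1, h2]
  rw [show ∑ i, Real.exp (-(β * d i)) * z ^ tot i = ∑ i, f i from rfl, hsplit]
  refine add_le_add (add_le_add (low_sum_le hn hL hβ hE hz0 hz1 hEig hU) ?_) ?_
  · rw [Finset.mul_sum]
    refine le_trans (Finset.sum_le_sum fun i hi => ?_)
      (Finset.sum_le_sum_of_subset_of_nonneg (Finset.subset_univ C) fun i _ _ =>
        mul_nonneg (Real.exp_nonneg _) (mul_nonneg (Real.exp_nonneg _) (pow_nonneg hw0 _)))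
    have hN : (N : ℝ) ≤ (tot i : ℝ) := by
      have := (Finset.mem_filter.1 hi).2
      exact_mod_cast (by omega : N ≤ tot i)
    simp only [hf]
    rw [mul_left_comm (Real.exp (-(c * N / 2)))]
    refine mul_le_mul_of_nonneg_left ?_ (Real.exp_nonneg _)
    rw [hz, hw, ← Real.exp_nat_mul, ← Real.exp_nat_mul, ← Real.exp_add]
    refine Real.exp_le_exp.2 ?_
    nlinarith [mul_le_mul_of_nonneg_left hN hc.le]
  · have hBk : ∀ k ∈ range (N + 1), ∑ i ∈ B.filter (fun i => tot i = k), f i
        ≤ Real.exp (-(β * E)) * ((L : ℝ) ^ 3) ^ N * z ^ k := by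
      intro k hk
      have hkN : k ≤ N := Nat.lt_succ_iff.1 (Finset.mem_range.1 hk)
      calc ∑ i ∈ B.filter (fun i => tot i = k), f i
          ≤ ∑ _i ∈ B.filter (fun i => tot i = k), Real.exp (-(β * E)) * z ^ k := by
            refine Finset.sum_le_sum fun i hi => ?_
            obtain ⟨h1, h2⟩ := Finset.mem_filter.1 hi
            simp only [hf]
            rw [h2]
            refine mul_le_mul_of_nonneg_right (Real.exp_le_exp.2 (neg_le_neg
              (mul_le_mul_of_nonneg_left (le_of_lt (not_le.1 (Finset.mem_filter.1 h1).2.2)) hβ)))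
              (pow_nonneg hz0 k)
        _ ≤ _ := by
            rw [Finset.sum_const, nsmul_eq_mul, mul_assoc, mul_left_comm (Real.exp (-(β * E)))]
            refine mul_le_mul_of_nonneg_right ?_ (mul_nonneg (Real.exp_nonneg _) (pow_nonneg hz0 k))
            have h1 : (B.filter fun i => tot i = k).card ≤ (L ^ 3) ^ k := by
              refine (Finset.card_le_card fun i hi => ?_).trans
                ((card_sector (n := n) (V := Grid L) k).trans_eq (by simp))
              exact Finset.mem_filter.2 ⟨mem_univ _, (Finset.mem_filter.1 hi).2⟩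
            calc ((B.filter fun i => tot i = k).card : ℝ) ≤ ((L : ℝ) ^ 3) ^ k := by exact_mod_cast h1
              _ ≤ _ := pow_le_pow_right₀ hLp hkN
    have hmaps : ∀ i ∈ B, tot i ∈ range (N + 1) := fun i hi =>
      Finset.mem_range.2 (Nat.lt_succ_of_le (Finset.mem_filter.1 hi).2.1)
    rw [← Finset.sum_fiberwise_of_maps_to hmaps]
    refine (Finset.sum_le_sum hBk).trans ?_
    rw [← Finset.mul_sum, div_eq_mul_inv]
    exact mul_le_mul_of_nonneg_left (geom_le_inv hz0 hz1 _) (by positivity)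

end Vale.Agent.P361
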